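import Mathlib
import Vale.Agent.P046.Comb

/-!
# P046, exact constant: definitions
-/

open Finset MeasureTheory

namespace Vale.Agent.P046.Full

open Vale.Agent.P046

noncomputable section

variable {V : Type*} [DecidableEq V]

/-- Expected value of `φ` of the final number of points when uniformly random live triangles are removed,
with `k` rounds of fuel. -/
def leaveObsFuel (H : Finset (Finset V)) (φ : ℕ → ℝ) : ℕ → Finset V → ℝ
  | 0, A => φ A.card
  | k + 1, A => if alive H A = ∅ then φ A.card else
      (∑ T ∈ alive H A, leaveObsFuel H φ k (A \ T)) / ((alive H A).card : ℝ)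

/-- Expected value of `φ` of the final number of points of the random removal process started from `A`. -/
def leaveObs (H : Finset (Finset V)) (φ : ℕ → ℝ) (A : Finset V) : ℝ := leaveObsFuel H φ A.card A

/-- One step of the killed chain applied to an observable. -/
def kStep (H : Finset (Finset V)) (good : Finset V → Prop) (h : ℝ) (F : Finset V → ℝ) (A : Finset V) : ℝ :=
  open Classical in
  if good A then F A + h * ∑ T ∈ alive H A, (F (A \ T) - F A) else 0

/-- Expectation, on the event that all earlier states were good, after `k` steps of length `h`. -/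
def kExp [Fintype V] (H : Finset (Finset V)) (good : ℕ → Finset V → Prop) (h : ℝ) :
    ℕ → (Finset V → ℝ) → ℝ
  | 0, F => F Finset.univ
  | k + 1, F => kExp H good h k (kStep H (good k) h F)

/-- Averaged neighbour deviation `D = A u` at reference degree `R`. -/
def devD (H : Finset (Finset V)) (A : Finset V) (R : ℝ) (f : V) : ℝ :=
  (∑ T ∈ star H A f, ∑ g ∈ T.erase f, (deg H A g / R - 1)) / R

/-- A nearly regular state. -/
def Regular (H : Finset (Finset V)) (A : Finset V) (R e δ : ℝ) : Prop :=
  ∀ f ∈ A, |deg H A f / R - 1| ≤ e ∧ |devD H A R f| ≤ δ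

/-- A loose cycle of `l` lines. -/
def IsCycle {l : ℕ} (U : Fin l → Finset V) : Prop :=
  Function.Injective U ∧ (∀ i, ¬ Disjoint (U i) (U (finRotate l i))) ∧
    (∀ i j, j ≠ i → j ≠ finRotate l i → i ≠ finRotate l j → Disjoint (U i) (U j)) ∧
    (Finset.univ.biUnion U).card = 2 * l

/-- The labelled loose cycles of `l` live lines. -/
def cycles (H : Finset (Finset V)) (A : Finset V) (l : ℕ) : Finset (Fin l → Finset V) :=
  open Classical in (Fintype.piFinset fun _ : Fin l => alive H A).filter IsCycle

/-- Number of short cycles. -/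
def cycleCount (H : Finset (Finset V)) (A : Finset V) (k : ℕ) : ℝ :=
  ∑ l ∈ Finset.Icc 3 k, ((cycles H A l).card : ℝ)

/-- Error mass of the tree comparison. -/
def gam (H : Finset (Finset V)) (A : Finset V) (R : ℝ) (k : ℕ) : ℝ :=
  R ^ 15 * (1 + (A.card : ℝ) / R ^ (k / 2) + cycleCount H A k)

/-- Adjacency matrix of the live points. -/
def adjM (H : Finset (Finset V)) (A : Finset V) : Matrix V V ℝ :=
  fun f g => if g ∈ nbr H A f then 1 else 0

/-- Survival probability of a point in the regular tree. -/
def ybar (R t : ℝ) : ℝ := 1 / Real.sqrt (1 + 2 * R * t)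

/-- One factor of the tree recursion. -/
def lineInt (Y : V → Finset V → ℝ → ℝ) (f : V) (U : Finset V) (t : ℝ) : ℝ :=
  ∫ s in (0 : ℝ)..t, ∏ g ∈ U.erase f, Y g U s

/-- `Y f T` is the probability that `f` is alive when its line `T` is ignored, in the unfolded tree. -/
structure IsFix (H : Finset (Finset V)) (A : Finset V) (Y : V → Finset V → ℝ → ℝ) : Prop where
  cont : ∀ f T, ContinuousOn (Y f T) (Set.Icc 0 1)
  mem : ∀ f T, ∀ t ∈ Set.Icc (0 : ℝ) 1, Y f T t ∈ Set.Icc (0 : ℝ) 1
  eqn : ∀ f ∈ A, ∀ T ∈ star H A f, ∀ t ∈ Set.Icc (0 : ℝ) 1,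
    Y f T t = ∏ U ∈ (star H A f).erase T, (1 - lineInt Y f U t)

/-- Probability that a point is alive in the unfolded tree. -/
def rootY (H : Finset (Finset V)) (A : Finset V) (Y : V → Finset V → ℝ → ℝ) (f : V) (t : ℝ) : ℝ :=
  ∏ U ∈ star H A f, (1 - lineInt Y f U t)

/-- Whether a line fires when lines are tried in clock order, with fuel. -/
def firedFuel (H : Finset (Finset V)) (A : Finset V) (w : Finset V → ℝ) : ℕ → Finset V → Prop
  | 0, _ => True
  | L + 1, T => ∀ U ∈ alive H A, w U < w T → ¬ Disjoint U T → ¬ firedFuel H A w L U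

/-- A line fires in the greedy process. -/
def Fired (H : Finset (Finset V)) (A : Finset V) (w : Finset V → ℝ) (T : Finset V) : Prop :=
  firedFuel H A w ((alive H A).card + 1) T

/-- Points left by the greedy process in clock order. -/
def survivors (H : Finset (Finset V)) (A : Finset V) (w : Finset V → ℝ) : Finset V :=
  open Classical in A.filter fun f => ∀ T ∈ star H A f, ¬ Fired H A w T

/-- Independent uniform clocks. -/
def clocks (V : Type*) [Fintype V] [DecidableEq V] : Measure (Finset V → ℝ) :=
  Measure.pi fun _ => (volume : Measure ℝ).restrict (Set.Icc 0 1)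

/-- The edges of the complete graph. -/
abbrev Edge (n : ℕ) : Type := {e : Finset (Fin n) // e.card = 2}

/-- The triangles of the complete graph, as sets of edges. -/
def triangles (n : ℕ) : Finset (Finset (Edge n)) :=
  ((Finset.univ : Finset (Fin n)).powersetCard 3).image fun t => Finset.univ.filter fun e => e.1 ⊆ t

/-- The number of edges. -/
def edgesN (n : ℕ) : ℝ := (Fintype.card (Edge n) : ℝ)

/-- Time step. -/
def stepH (n : ℕ) : ℝ := 1 / (n : ℝ) ^ 20

/-- Number of steps up to time `n ^ (-θ)`. -/
def stepsK (θ : ℝ) (n : ℕ) : ℕ := ⌊(n : ℝ) ^ (20 - θ)⌋₊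

/-- Shifted time after `k` steps. -/
def sigmaK (n k : ℕ) : ℝ := (k : ℝ) * stepH n + 1 / (2 * ((n : ℝ) - 2))

/-- Shifted final time. -/
def sigEnd (θ : ℝ) (n : ℕ) : ℝ := sigmaK n (stepsK θ n)

/-- Reference degree at the final time. -/
def degEnd (θ : ℝ) (n : ℕ) : ℝ := 1 / (2 * sigEnd θ n)

/-- Reference edge density at the final time. -/
def densEnd (θ : ℝ) (n : ℕ) : ℝ := Real.sqrt (degEnd θ n / ((n : ℝ) - 2))

/-- The final number of edges, normalised. -/
def cLim : ℝ := 1 / (2 * Real.sqrt 2)

end

end Vale.Agent.P046.Full
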