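import Mathlib
import Vale.Agent.P046.Full.Defs

/-!
# P046, exact constant: statements of the modules
-/

open Finset MeasureTheory Filter
open scoped Topology

namespace Vale.Agent.P046.Full

open Vale.Agent.P046

noncomputable section

/-- Phase A: regularity at time `n ^ (-θ)`, survival of small sets, and the number of live edges. -/
def PhaseAStmt : Prop :=
  ∀ θ η : ℝ, 0 < η → 50 * η ≤ θ → θ ≤ 1 / 4 → ∀ L₀ : ℕ, ∀ δ > (0 : ℝ), ∀ᶠ n : ℕ in atTop,
    ∃ good : ℕ → Finset (Edge n) → Prop,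
      (1 - kExp (triangles n) good (stepH n) (stepsK θ n)
          (open Classical in fun A => if Regular (triangles n) A (degEnd θ n)
              (Real.sqrt (sigEnd θ n) * (n : ℝ) ^ η) (sigEnd θ n * (n : ℝ) ^ (10 * η))
            then 1 else 0) ≤ 1 / (n : ℝ) ^ 10) ∧
      (∀ S : Finset (Edge n), S.card ≤ L₀ →
        kExp (triangles n) good (stepH n) (stepsK θ n) (fun A => if S ⊆ A then 1 else 0) ≤
          2 * densEnd θ n ^ S.card) ∧
      kExp (triangles n) good (stepH n) (stepsK θ n)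
          (fun A => ((A.card : ℝ) / (edgesN n * densEnd θ n) - 1) ^ 2) ≤ δ

/-- Labelled loose cycles of the complete graph. -/
def CycleStmt : Prop :=
  ∀ (n l : ℕ), 3 ≤ n → 3 ≤ l →
    ((cycles (triangles n) (Finset.univ : Finset (Edge n)) l).card : ℝ) ≤
      3 ^ (l + 2) * edgesN n * ((n : ℝ) - 2) ^ (l - 1)

/-- Random removal equals greedy removal in clock order. -/
def EquivStmt : Prop :=
  ∀ (V : Type) [Fintype V] [DecidableEq V] (H : Finset (Finset V)) (A : Finset V), Linear H →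
    ∀ φ : ℕ → ℝ, leaveObs H φ A = ∫ w, φ (survivors H A w).card ∂clocks V

/-- The unfolded tree is close to the regular tree, uniformly in point and time. -/
def FixStmt : Prop :=
  ∀ P : ℝ, 1 ≤ P → ∃ μ : ℝ, 0 < μ ∧ μ ≤ 1 / 10 ∧ ∀ κ > (0 : ℝ), ∃ R₀ : ℝ,
    ∀ (V : Type) [Fintype V] [DecidableEq V] (H : Finset (Finset V)) (A : Finset V) (R : ℝ), Linear H →
      R₀ ≤ R → (A.card : ℝ) ≤ R ^ P → Regular H A R (R ^ (-(1 / 2 - μ))) (R ^ (-(1 - μ))) →
      ∃ Y, IsFix H A Y ∧ ∀ f ∈ A, ∀ t ∈ Set.Icc (0 : ℝ) 1,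
        |rootY H A Y f t / ybar R t - 1| ≤ κ ∧ ∀ T ∈ star H A f, Y f T t ≤ (1 + κ) * ybar R t

/-- Tree comparison by the query exploration. -/
def QueryStmt : Prop :=
  ∃ κ₀ : ℝ, 0 < κ₀ ∧ ∀ k : ℕ, Even k → 4 ≤ k → ∃ R₀ : ℝ,
    ∀ (V : Type) [Fintype V] [DecidableEq V] (H : Finset (Finset V)) (A : Finset V) (R : ℝ), Linear H →
      R₀ ≤ R → (∀ f ∈ A, |deg H A f / R - 1| ≤ κ₀) → ∀ Y, IsFix H A Y →
      (∀ f ∈ A, ∀ t ∈ Set.Icc (0 : ℝ) 1, |rootY H A Y f t / ybar R t - 1| ≤ κ₀ ∧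
        ∀ T ∈ star H A f, Y f T t ≤ (1 + κ₀) * ybar R t) →
      ∀ κ ∈ Set.Ioc (0 : ℝ) 1,
        ∫ w, |((survivors H A w).card : ℝ) - ∑ f ∈ A, rootY H A Y f 1| ∂clocks V ≤
          κ * A.card * ybar R 1 + gam H A R k / κ

/-- Closed walks are trees or contain a short cycle. -/
def WalkStmt : Prop :=
  ∀ k : ℕ, Even k → 4 ≤ k → ∃ C : ℝ,
    ∀ (V : Type) [Fintype V] [DecidableEq V] (H : Finset (Finset V)) (A : Finset V) (R : ℝ), Linear H →
      1 ≤ R → (∀ f ∈ A, deg H A f ≤ 2 * R) →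
      Matrix.trace (adjM H A ^ k) ≤ C * ((A.card : ℝ) * R ^ (k / 2) + R ^ k * cycleCount H A k)

/-- The answer: convergence in probability and in mean. -/
def MainStmt : Prop :=
  (∀ δ > (0 : ℝ), Tendsto (fun n : ℕ => leaveObs (triangles n)
      (fun F => if δ < |(F : ℝ) / (n : ℝ) ^ (3 / 2 : ℝ) - cLim| then 1 else 0) Finset.univ) atTop (𝓝 0)) ∧
    Tendsto (fun n : ℕ => leaveObs (triangles n)
      (fun F => (F : ℝ) / (n : ℝ) ^ (3 / 2 : ℝ)) Finset.univ) atTop (𝓝 cLim)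

end

end Vale.Agent.P046.Full
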