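import Mathlib
import Vale.Agent.P046.Full.Statements

/-!
# P046, exact constant: loose cycles

A path that leaves a line at one point and returns to it at another yields a loose cycle,
and the complete graph has few labelled loose cycles of triangles.
-/

open Finset

namespace Vale.Agent.P046.Full

open Vale.Agent.P046

noncomputable section

section idx

variable {α : Type*} [DecidableEq α]

/-- The position of an element in a finite set. -/
def cyIdx (S : Finset α) (x : α) : ℕ := if h : x ∈ S then (S.equivFin ⟨x, h⟩ : ℕ) else 0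

lemma cyIdx_lt {S : Finset α} {x : α} (h : x ∈ S) : cyIdx S x < S.card := by
  unfold cyIdx; rw [dif_pos h]; exact Fin.is_lt _

lemma cyIdx_inj {S : Finset α} {x y : α} (hx : x ∈ S) (hy : y ∈ S) (h : cyIdx S x = cyIdx S y) :
    x = y := by
  unfold cyIdx at h
  rw [dif_pos hx, dif_pos hy] at h
  exact congrArg Subtype.val (S.equivFin.injective (Fin.ext h))

end idx

variable {V : Type*} [DecidableEq V] {H : Finset (Finset V)}

lemma cy_val_rot {m : ℕ} (i : Fin (m + 1)) :
    ((finRotate (m + 1) i : Fin (m + 1)) : ℕ) = if (i : ℕ) = m then 0 else (i : ℕ) + 1 := by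
  rw [coe_finRotate]
  simp only [Fin.ext_iff, Fin.val_last]

/-- The number of points of a closed chain of lines without further intersections. -/
lemma cy_card_union (hH : Linear H) {l : ℕ} {U : Fin l → Finset V} {p : Fin l → V}
    (hU : ∀ i, U i ∈ H) (hinj : Function.Injective U)
    (hp : ∀ i, p i ∈ U i ∧ p (finRotate l i) ∈ U i) (hne : ∀ i, p i ≠ p (finRotate l i))
    (hdis : ∀ i j, j ≠ i → j ≠ finRotate l i → i ≠ finRotate l j → Disjoint (U i) (U j)) :
    (Finset.univ.biUnion U).card = 2 * l := by
  have heq : Finset.univ.biUnion U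
      = Finset.univ.biUnion (fun i => (U i).erase (p (finRotate l i))) := by
    ext z
    simp only [Finset.mem_biUnion, Finset.mem_univ, true_and, Finset.mem_erase]
    constructor
    · rintro ⟨i, hi⟩
      by_cases hz : z = p (finRotate l i)
      · exact ⟨finRotate l i, by rw [hz]; exact ⟨hne _, (hp _).1⟩⟩
      · exact ⟨i, hz, hi⟩
    · rintro ⟨i, -, hi⟩; exact ⟨i, hi⟩
  have key : ∀ i j, j = finRotate l i → j ≠ i → ∀ z ∈ U i, z ∈ U j → z = p (finRotate l i) := by
    intro i j hj hji z hzi hzj
    by_contra hz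
    refine hji (hinj (hH.eq_of_two (hU j) (hU i) hz hzj ?_ hzi (hp i).2))
    rw [hj]; exact (hp _).1
  rw [heq, Finset.card_biUnion]
  · rw [Finset.sum_congr rfl (fun i _ => ?_), Finset.sum_const, Finset.card_univ, Fintype.card_fin,
      smul_eq_mul, mul_comm]
    rw [Finset.card_erase_of_mem (hp i).2, hH.card3 _ (hU i)]
  · intro i _ j _ hij
    rw [Function.onFun, Finset.disjoint_left]
    intro z hz hz'
    obtain ⟨h1, h2⟩ := Finset.mem_erase.1 hz
    obtain ⟨h1', h2'⟩ := Finset.mem_erase.1 hz'
    by_cases a : j = finRotate l i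
    · exact h1 (key i j a (Ne.symm hij) z h2 h2')
    by_cases b : i = finRotate l j
    · exact h1' (key j i b hij z h2' h2)
    exact Finset.disjoint_left.1 (hdis i j (Ne.symm hij) a b) h2 h2'

/-- A path of `m` lines of `LS` between two distinct points of a line `T ∉ LS` contains,
together with `T`, a loose cycle of at most `m + 1` lines. -/
lemma exists_cycle_of_path (hH : Linear H) (T : Finset V) (hT : T ∈ H) (LS : Finset (Finset V))
    (hLS : ∀ S ∈ LS, S ∈ H) (hTL : T ∉ LS) : ∀ (m : ℕ) (x : ℕ → V) (L : ℕ → Finset V),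
      x 0 ∈ T → x m ∈ T → x 0 ≠ x m → (∀ i < m, L i ∈ LS ∧ x i ∈ L i ∧ x (i + 1) ∈ L i) →
      ∃ l, 3 ≤ l ∧ l ≤ m + 1 ∧ ∃ U : Fin l → Finset V, IsCycle U ∧ ∀ i, U i ∈ insert T LS := by
  intro m
  induction m using Nat.strong_induction_on with
  | _ m IH =>
    intro x L h0 hm hne hstep
    have shorter : ∀ (m' : ℕ) (x' : ℕ → V) (L' : ℕ → Finset V), m' < m →
        x' 0 ∈ T → x' m' ∈ T → x' 0 ≠ x' m' →
        (∀ i < m', L' i ∈ LS ∧ x' i ∈ L' i ∧ x' (i + 1) ∈ L' i) →
        ∃ l, 3 ≤ l ∧ l ≤ m + 1 ∧ ∃ U : Fin l → Finset V, IsCycle U ∧ ∀ i, U i ∈ insert T LS := by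
      intro m' x' L' hlt a b c d
      obtain ⟨l, h3, hle, h⟩ := IH m' hlt x' L' a b c d
      exact ⟨l, h3, by omega, h⟩
    -- repeated points
    by_cases hrep : ∃ i j, i < j ∧ j ≤ m ∧ x i = x j
    · obtain ⟨i, j, hij, hjm, he⟩ := hrep
      let x' : ℕ → V := fun t => if t ≤ i then x t else x (t + (j - i))
      let L' : ℕ → Finset V := fun t => if t < i then L t else L (t + (j - i))
      have e0 : x' 0 = x 0 := by simp [x']
      have em : x' (m - (j - i)) = x m := by
        by_cases hc : m - (j - i) ≤ i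
        · have hjm' : j = m := by omega
          simp only [x', if_pos hc]
          rw [show m - (j - i) = i by omega, he, hjm']
        · simp only [x', if_neg hc]
          rw [show m - (j - i) + (j - i) = m by omega]
      refine shorter (m - (j - i)) x' L' (by omega) (e0 ▸ h0) (em ▸ hm) (by rw [e0, em]; exact hne) ?_
      intro t ht
      by_cases hc : t < i
      · obtain ⟨a, b, c⟩ := hstep t (by omega)
        simp only [x', L', if_pos hc, if_pos (by omega : t ≤ i), if_pos (by omega : t + 1 ≤ i)]
        exact ⟨a, b, c⟩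
      · obtain ⟨a, b, c⟩ := hstep (t + (j - i)) (by omega)
        simp only [x', L', if_neg hc, if_neg (by omega : ¬ t + 1 ≤ i)]
        refine ⟨a, ?_, by rwa [show t + 1 + (j - i) = t + (j - i) + 1 by omega]⟩
        by_cases hc' : t ≤ i
        · rw [if_pos hc', show t = i by omega, he]
          rwa [show t + (j - i) = j by omega, ← show j = i + (j - i) by omega] at *
        · rwa [if_neg hc']
    push Not at hrep
    -- repeated lines
    by_cases hlrep : ∃ i j, i < j ∧ j < m ∧ L i = L j
    · obtain ⟨i, j, hij, hjm, he⟩ := hlrep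
      let x' : ℕ → V := fun t => if t ≤ i then x t else x (t + (j - i))
      let L' : ℕ → Finset V := fun t => if t ≤ i then L t else L (t + (j - i))
      have e0 : x' 0 = x 0 := by simp [x']
      have em : x' (m - (j - i)) = x m := by
        simp only [x', if_neg (by omega : ¬ m - (j - i) ≤ i)]
        rw [show m - (j - i) + (j - i) = m by omega]
      refine shorter (m - (j - i)) x' L' (by omega) (e0 ▸ h0) (em ▸ hm) (by rw [e0, em]; exact hne) ?_
      intro t ht
      rcases Nat.lt_trichotomy t i with hc | hc | hc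
      · obtain ⟨a, b, c⟩ := hstep t (by omega)
        simp only [x', L', if_pos (by omega : t ≤ i), if_pos (by omega : t + 1 ≤ i)]
        exact ⟨a, b, c⟩
      · subst hc
        obtain ⟨a, b, -⟩ := hstep t (by omega)
        obtain ⟨-, -, c⟩ := hstep j hjm
        simp only [x', L', if_pos (le_refl t), if_neg (by omega : ¬ t + 1 ≤ t)]
        refine ⟨a, b, ?_⟩
        rw [he, show t + 1 + (j - t) = j + 1 by omega]; exact c
      · obtain ⟨a, b, c⟩ := hstep (t + (j - i)) (by omega)
        simp only [x', L', if_neg (by omega : ¬ t ≤ i), if_neg (by omega : ¬ t + 1 ≤ i)]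
        exact ⟨a, b, by rwa [show t + 1 + (j - i) = t + (j - i) + 1 by omega]⟩
    push Not at hlrep
    have hm2 : 2 ≤ m := by
      by_contra hc
      have hm01 : m = 0 ∨ m = 1 := by omega
      rcases hm01 with rfl | rfl
      · exact hne rfl
      · obtain ⟨a, b, c⟩ := hstep 0 (by omega)
        exact hTL (by rw [hH.eq_of_two hT (hLS _ a) hne h0 hm b c]; exact a)
    -- chords between lines of the path
    by_cases hch : ∃ i j, i + 1 < j ∧ j < m ∧ ¬ Disjoint (L i) (L j)
    · obtain ⟨i, j, hij, hjm, hd⟩ := hch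
      obtain ⟨z, hzi, hzj⟩ := Finset.not_disjoint_iff.1 hd
      let x' : ℕ → V := fun t => if t ≤ i then x t else if t = i + 1 then z else x (t + (j - i - 1))
      let L' : ℕ → Finset V := fun t => if t ≤ i then L t else L (t + (j - i - 1))
      have e0 : x' 0 = x 0 := by simp [x']
      have em : x' (m - (j - i - 1)) = x m := by
        simp only [x', if_neg (by omega : ¬ m - (j - i - 1) ≤ i),
          if_neg (by omega : ¬ m - (j - i - 1) = i + 1)]
        rw [show m - (j - i - 1) + (j - i - 1) = m by omega]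
      refine shorter (m - (j - i - 1)) x' L' (by omega) (e0 ▸ h0) (em ▸ hm)
        (by rw [e0, em]; exact hne) ?_
      intro t ht
      rcases Nat.lt_trichotomy t i with hc | hc | hc
      · obtain ⟨a, b, c⟩ := hstep t (by omega)
        simp only [x', L', if_pos (by omega : t ≤ i), if_pos (by omega : t + 1 ≤ i)]
        exact ⟨a, b, c⟩
      · subst hc
        obtain ⟨a, b, -⟩ := hstep t (by omega)
        simp only [x', L', if_pos (le_refl t), if_neg (by omega : ¬ t + 1 ≤ t)]
        exact ⟨a, b, hzi⟩
      · obtain ⟨a, b, c⟩ := hstep (t + (j - i - 1)) (by omega)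
        simp only [x', L', if_neg (by omega : ¬ t ≤ i), if_neg (by omega : ¬ t + 1 ≤ i),
          if_neg (by omega : ¬ t + 1 = i + 1)]
        refine ⟨a, ?_, by rwa [show t + 1 + (j - i - 1) = t + (j - i - 1) + 1 by omega]⟩
        by_cases hc' : t = i + 1
        · rw [if_pos hc', show t + (j - i - 1) = j by omega]; exact hzj
        · rwa [if_neg hc']
    push Not at hch
    -- chords to the closing line
    by_cases hcT : ∃ i, 1 ≤ i ∧ i + 1 < m ∧ ¬ Disjoint (L i) T
    · obtain ⟨i, hi1, him, hd⟩ := hcT
      obtain ⟨z, hzi, hzT⟩ := Finset.not_disjoint_iff.1 hd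
      by_cases hz0 : z = x 0
      · let x' : ℕ → V := fun t => if t = 0 then z else x (i + t)
        let L' : ℕ → Finset V := fun t => L (i + t)
        have em : x' (m - i) = x m := by
          simp only [x', if_neg (by omega : ¬ m - i = 0)]
          rw [show i + (m - i) = m by omega]
        refine shorter (m - i) x' L' (by omega) (by simpa [x'] using hzT) (em ▸ hm)
          (by rw [em]; simpa [x', hz0] using hne) ?_
        intro t ht
        obtain ⟨a, b, c⟩ := hstep (i + t) (by omega)
        simp only [x', L', if_neg (by omega : ¬ t + 1 = 0)]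
        refine ⟨a, ?_, by rwa [show i + (t + 1) = i + t + 1 by omega]⟩
        by_cases hc' : t = 0
        · rw [if_pos hc', hc']; exact hzi
        · rwa [if_neg hc']
      · let x' : ℕ → V := fun t => if t ≤ i then x t else z
        have e0 : x' 0 = x 0 := by simp [x']
        have em : x' (i + 1) = z := by simp [x']
        refine shorter (i + 1) x' L (by omega) (e0 ▸ h0) (em.symm ▸ hzT)
          (by rw [e0, em]; exact Ne.symm hz0) ?_
        intro t ht
        obtain ⟨a, b, c⟩ := hstep t (by omega)
        simp only [x', if_pos (by omega : t ≤ i)]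
        refine ⟨a, b, ?_⟩
        by_cases hc' : t + 1 ≤ i
        · rwa [if_pos hc']
        · rw [if_neg hc', show t = i by omega]; exact hzi
    push Not at hcT
    -- the path closes up to a loose cycle
    let U : Fin (m + 1) → Finset V := fun i => if (i : ℕ) < m then L i else T
    have hUmem : ∀ i, U i ∈ insert T LS := by
      intro i; simp only [U]
      split_ifs with h
      · exact Finset.mem_insert_of_mem (hstep _ h).1
      · exact Finset.mem_insert_self _ _
    have hUH : ∀ i, U i ∈ H := by
      intro i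
      rcases Finset.mem_insert.1 (hUmem i) with h | h
      · rw [h]; exact hT
      · exact hLS _ h
    have hp : ∀ i : Fin (m + 1), x i ∈ U i ∧ x (finRotate (m + 1) i : Fin (m + 1)) ∈ U i := by
      intro i
      simp only [U, cy_val_rot]
      split_ifs with h h' h'
      · omega
      · exact (hstep _ h).2
      · rw [h']; exact ⟨hm, h0⟩
      · omega
    have hinj : Function.Injective U := by
      intro i j hij
      simp only [U] at hij
      split_ifs at hij with h h' h'
      · rcases lt_trichotomy (i : ℕ) (j : ℕ) with hc | hc | hc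
        · exact absurd hij (hlrep _ _ hc h')
        · exact Fin.ext hc
        · exact absurd hij.symm (hlrep _ _ hc h)
      · exact absurd (hij ▸ (hstep _ h).1) hTL
      · exact absurd (hij.symm ▸ (hstep _ h').1) hTL
      · exact Fin.ext (by omega)
    have hdis : ∀ i j, j ≠ i → j ≠ finRotate (m + 1) i → i ≠ finRotate (m + 1) j →
        Disjoint (U i) (U j) := by
      intro i j h1 h2 h3
      have h1' : (j : ℕ) ≠ i := fun h => h1 (Fin.ext h)
      have h2' : (j : ℕ) ≠ if (i : ℕ) = m then 0 else (i : ℕ) + 1 := fun h =>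
        h2 (Fin.ext (by rw [cy_val_rot]; exact h))
      have h3' : (i : ℕ) ≠ if (j : ℕ) = m then 0 else (j : ℕ) + 1 := fun h =>
        h3 (Fin.ext (by rw [cy_val_rot]; exact h))
      have hi := i.isLt
      have hj := j.isLt
      simp only [U]
      split_ifs with hi' hj' hj'
      · rw [if_neg (by omega : ¬ (i : ℕ) = m)] at h2'
        rw [if_neg (by omega : ¬ (j : ℕ) = m)] at h3'
        rcases lt_or_gt_of_ne h1' with hc | hc
        · exact (hch _ _ (by omega) hi').symm
        · exact hch _ _ (by omega) hj'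
      · rw [if_neg (by omega : ¬ (i : ℕ) = m)] at h2'
        rw [if_pos (by omega : (j : ℕ) = m)] at h3'
        exact hcT _ (by omega) (by omega)
      · rw [if_pos (by omega : (i : ℕ) = m)] at h2'
        rw [if_neg (by omega : ¬ (j : ℕ) = m)] at h3'
        exact (hcT _ (by omega) (by omega)).symm
      · omega
    refine ⟨m + 1, by omega, le_rfl, U, ⟨hinj, ?_, hdis, ?_⟩, hUmem⟩
    · intro i
      exact Finset.not_disjoint_iff.2 ⟨_, (hp i).2, (hp _).1⟩
    · refine cy_card_union hH (p := fun i => x (i : ℕ)) hUH hinj hp ?_ hdis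
      intro i
      have hi := i.isLt
      simp only [cy_val_rot]
      split_ifs with h
      · rw [h]; exact Ne.symm hne
      · exact hrep _ _ (by omega) (by omega)

/-- A closed chain of lines that uses some line once contains a loose cycle. -/
lemma exists_cycle_of_closed (hH : Linear H) {k : ℕ} (x : ℕ → V) (L : ℕ → Finset V)
    (hclose : x k = x 0) (hstep : ∀ i < k, L i ∈ H ∧ x i ∈ L i ∧ x (i + 1) ∈ L i)
    {i₀ : ℕ} (hi₀ : i₀ < k) (hne : x i₀ ≠ x (i₀ + 1))
    (honce : ∀ i < k, i ≠ i₀ → L i ≠ L i₀) :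
    ∃ l, 3 ≤ l ∧ l ≤ k ∧ ∃ U : Fin l → Finset V, IsCycle U ∧
      ∀ i, ∃ j < k, U i = L j := by
  let a := k - (i₀ + 1)
  let x' : ℕ → V := fun t => if t ≤ a then x (i₀ + 1 + t) else x (t - a)
  let L' : ℕ → Finset V := fun t => if t < a then L (i₀ + 1 + t) else L (t - a)
  let LS := ((Finset.range k).erase i₀).image L
  have hLS : ∀ S ∈ LS, S ∈ H := by
    intro S hS
    obtain ⟨i, hi, rfl⟩ := Finset.mem_image.1 hS
    exact (hstep i (Finset.mem_range.1 (Finset.mem_erase.1 hi).2)).1
  have hTL : L i₀ ∉ LS := by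
    intro hS
    obtain ⟨i, hi, he⟩ := Finset.mem_image.1 hS
    exact honce i (Finset.mem_range.1 (Finset.mem_erase.1 hi).2) (Finset.mem_erase.1 hi).1 he
  have e0 : x' 0 = x (i₀ + 1) := by simp [x']
  have em : x' (k - 1) = x i₀ := by
    by_cases hc : k - 1 ≤ a
    · have h00 : i₀ = 0 := by omega
      simp only [x', if_pos hc]
      rw [show i₀ + 1 + (k - 1) = k by omega, hclose, h00]
    · simp only [x', if_neg hc]
      rw [show k - 1 - a = i₀ by omega]
  have hs : ∀ t < k - 1, L' t ∈ LS ∧ x' t ∈ L' t ∧ x' (t + 1) ∈ L' t := by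
    intro t ht
    by_cases hc : t < a
    · obtain ⟨-, b, c⟩ := hstep (i₀ + 1 + t) (by omega)
      simp only [x', L', if_pos hc, if_pos (by omega : t ≤ a), if_pos (by omega : t + 1 ≤ a)]
      refine ⟨Finset.mem_image.2 ⟨i₀ + 1 + t, ?_, rfl⟩, b, c⟩
      exact Finset.mem_erase.2 ⟨by omega, Finset.mem_range.2 (by omega)⟩
    · obtain ⟨-, b, c⟩ := hstep (t - a) (by omega)
      simp only [x', L', if_neg hc, if_neg (by omega : ¬ t + 1 ≤ a)]
      refine ⟨Finset.mem_image.2 ⟨t - a, ?_, rfl⟩, ?_, by rwa [show t + 1 - a = t - a + 1 by omega]⟩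
      · exact Finset.mem_erase.2 ⟨by omega, Finset.mem_range.2 (by omega)⟩
      by_cases hc' : t ≤ a
      · rw [if_pos hc', show i₀ + 1 + t = k by omega, hclose]
        rwa [show t - a = 0 by omega] at *
      · rwa [if_neg hc']
  obtain ⟨hT, b, c⟩ := hstep i₀ hi₀
  obtain ⟨l, h3, hl, U, hU, hmem⟩ := exists_cycle_of_path hH (L i₀) hT LS hLS hTL (k - 1) x' L'
    (e0 ▸ c) (em ▸ b) (by rw [e0, em]; exact Ne.symm hne) hs
  refine ⟨l, h3, by omega, U, hU, fun i => ?_⟩
  rcases Finset.mem_insert.1 (hmem i) with h | h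
  · exact ⟨i₀, hi₀, h⟩
  · obtain ⟨j, hj, hje⟩ := Finset.mem_image.1 h
    exact ⟨j, Finset.mem_range.1 (Finset.mem_erase.1 hj).2, hje.symm⟩

lemma mem_cycles {A : Finset V} {l : ℕ} {U : Fin l → Finset V} :
    U ∈ cycles H A l ↔ (∀ i, U i ∈ alive H A) ∧ IsCycle U := by
  simp [cycles, Fintype.mem_piFinset]

/-- Loose cycles of a hypergraph with bounded degree. -/
lemma cy_count (hH : Linear H) (A : Finset V) (D m : ℕ) (hD : ∀ f, (star H A f).card ≤ D) :
    (cycles H A (m + 3)).card ≤ (alive H A).card * (3 * D) ^ (m + 1) * 9 := by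
  classical
  let Nx : Finset V → Finset (Finset V) := fun T => T.biUnion fun z => star H A z
  let La : Finset V → Finset V → Finset (Finset V) := fun T T' =>
    ((T ×ˢ T').filter fun q => q.1 ≠ q.2).biUnion fun q => (star H A q.1).filter fun S => q.2 ∈ S
  have hNx : ∀ T ∈ H, (Nx T).card ≤ 3 * D := by
    intro T hT
    refine (Finset.card_biUnion_le_card_mul _ _ D (fun z _ => hD z)).trans (le_of_eq ?_)
    rw [hH.card3 T hT]
  have hLa : ∀ T ∈ H, ∀ T' ∈ H, (La T T').card ≤ 9 := by
    intro T hT T' hT'
    refine (Finset.card_biUnion_le_card_mul _ _ 1 (fun q hq => Finset.card_le_one.2 ?_)).trans ?_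
    · intro S hS S' hS'
      obtain ⟨a, b⟩ := Finset.mem_filter.1 hS
      obtain ⟨a', b'⟩ := Finset.mem_filter.1 hS'
      exact hH.eq_of_two (mem_star.1 a).1 (mem_star.1 a').1 (Finset.mem_filter.1 hq).2
        (mem_star.1 a).2.2 b (mem_star.1 a').2.2 b'
    · rw [mul_one]
      refine (Finset.card_filter_le _ _).trans ?_
      rw [Finset.card_product, hH.card3 T hT, hH.card3 T' hT']
  have nxt : ∀ U ∈ cycles H A (m + 3), ∀ i j : Fin (m + 3), (j : ℕ) = (i : ℕ) + 1 →
      U j ∈ Nx (U i) := by
    intro U hU i j hij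
    obtain ⟨hal, -, hadj, -, -⟩ := mem_cycles.1 hU
    have hj : j = finRotate (m + 3) i := Fin.ext (by
      rw [cy_val_rot, hij, if_neg (by have := j.isLt; omega)])
    obtain ⟨z, hz, hz'⟩ := Finset.not_disjoint_iff.1 (hadj i)
    rw [← hj] at hz'
    exact Finset.mem_biUnion.2 ⟨z, hz, mem_star.2
      ⟨(mem_alive.1 (hal j)).1, (mem_alive.1 (hal j)).2, hz'⟩⟩
  let i0 : Fin (m + 3) := ⟨0, by omega⟩
  let i1 : Fin (m + 3) := ⟨m + 1, by omega⟩
  let i2 : Fin (m + 3) := ⟨m + 2, by omega⟩
  have lst : ∀ U ∈ cycles H A (m + 3), U i2 ∈ La (U i0) (U i1) := by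
    intro U hU
    obtain ⟨hal, hinj, hadj, hdis, hcard⟩ := mem_cycles.1 hU
    have hH' : ∀ i, U i ∈ H := fun i => (mem_alive.1 (hal i)).1
    have r2 : finRotate (m + 3) i2 = i0 := Fin.ext (by rw [cy_val_rot]; simp [i2, i0])
    have r1 : finRotate (m + 3) i1 = i2 := Fin.ext (by rw [cy_val_rot]; simp [i2, i1])
    obtain ⟨p, hp2, hp0⟩ := Finset.not_disjoint_iff.1 (hadj i2)
    rw [r2] at hp0
    obtain ⟨q, hq1, hq2⟩ := Finset.not_disjoint_iff.1 (hadj i1)
    rw [r1] at hq2
    have hpq : p ≠ q := by
      rintro rfl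
      by_cases hm : m = 0
      · subst hm
        have hsub : (U i0 ∪ U i1) ∪ U i2 ⊆ Finset.univ.biUnion U :=
          Finset.union_subset (Finset.union_subset
            (Finset.subset_biUnion_of_mem U (Finset.mem_univ _))
            (Finset.subset_biUnion_of_mem U (Finset.mem_univ _)))
            (Finset.subset_biUnion_of_mem U (Finset.mem_univ _))
        have n01 : U i0 ≠ U i1 := fun h => by simpa [i0, i1] using congrArg Fin.val (hinj h)
        have n02 : U i0 ≠ U i2 := fun h => by simpa [i0, i2] using congrArg Fin.val (hinj h)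
        have n12 : U i1 ≠ U i2 := fun h => by simpa [i1, i2] using congrArg Fin.val (hinj h)
        have hone : ((U i0 ∪ U i1) ∩ U i2).card ≤ 1 := by
          refine Finset.card_le_one.2 ?_
          have aux : ∀ z ∈ (U i0 ∪ U i1) ∩ U i2, z = p := by
            intro z hz
            obtain ⟨hz1, hz2⟩ := Finset.mem_inter.1 hz
            by_contra hzp
            rcases Finset.mem_union.1 hz1 with h | h
            · exact n02 (hH.eq_of_two (hH' _) (hH' _) hzp h hp0 hz2 hp2)
            · exact n12 (hH.eq_of_two (hH' _) (hH' _) hzp h hq1 hz2 hp2)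
          intro a ha b hb; rw [aux a ha, aux b hb]
        have := Finset.card_union_add_card_inter (U i0 ∪ U i1) (U i2)
        have := Finset.card_union_add_card_inter (U i0) (U i1)
        have := hH.inter _ (hH' i0) _ (hH' i1) n01
        have := hH.card3 _ (hH' i0)
        have := hH.card3 _ (hH' i1)
        have := hH.card3 _ (hH' i2)
        have := Finset.card_le_card hsub
        omega
      · have hd := hdis i0 i1 (fun h => by simpa [i0, i1] using congrArg Fin.val h)
          (fun h => by
            have := congrArg Fin.val h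
            rw [cy_val_rot] at this
            simp [i0, i1] at this
            omega)
          (fun h => by rw [r1] at h; simpa [i0, i2] using congrArg Fin.val h)
        exact Finset.disjoint_left.1 hd hp0 hq1
    refine Finset.mem_biUnion.2 ⟨(p, q), Finset.mem_filter.2 ⟨Finset.mem_product.2 ⟨hp0, hq1⟩, hpq⟩,
      Finset.mem_filter.2 ⟨mem_star.2 ⟨hH' _, (mem_alive.1 (hal _)).2, hp2⟩, hq2⟩⟩
  let code : (Fin (m + 3) → Finset V) → Finset V × (Fin (m + 1) → ℕ) × ℕ := fun U =>
    (U i0, (fun t => cyIdx (Nx (U ⟨t, by omega⟩)) (U ⟨t + 1, by omega⟩)),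
      cyIdx (La (U i0) (U i1)) (U i2))
  calc (cycles H A (m + 3)).card
      ≤ (alive H A ×ˢ ((Fintype.piFinset fun _ : Fin (m + 1) => Finset.range (3 * D)) ×ˢ
          Finset.range 9)).card := by
        refine Finset.card_le_card_of_injOn code ?_ ?_
        · intro U hU
          have hal := (mem_cycles.1 (Finset.mem_coe.1 hU)).1
          have hH' : ∀ i, U i ∈ H := fun i => (mem_alive.1 (hal i)).1
          simp only [Finset.coe_product, Set.mem_prod, Finset.mem_coe, code, Fintype.mem_piFinset,
            Finset.mem_range]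
          exact ⟨hal _, fun t => (cyIdx_lt (nxt U hU _ _ rfl)).trans_le (hNx _ (hH' _)),
            (cyIdx_lt (lst U hU)).trans_le (hLa _ (hH' _) _ (hH' _))⟩
        · intro U hU U' hU' he
          simp only [code, Prod.mk.injEq] at he
          obtain ⟨h0, h1, h2⟩ := he
          have step : ∀ t (ht : t < m + 2), U ⟨t, by omega⟩ = U' ⟨t, by omega⟩ := by
            intro t
            induction t with
            | zero => intro _; exact h0
            | succ t ih =>
              intro ht
              have e := congrFun h1 ⟨t, by omega⟩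
              simp only [ih (by omega)] at e
              refine cyIdx_inj ?_ (nxt U' hU' _ _ rfl) e
              rw [← ih (by omega)]; exact nxt U hU _ _ rfl
          have hlast : U i2 = U' i2 := by
            rw [h0, show U i1 = U' i1 from step _ (by omega)] at h2
            refine cyIdx_inj ?_ (lst U' hU') h2
            rw [← h0, ← show U i1 = U' i1 from step _ (by omega)]
            exact lst U hU
          funext i
          by_cases hi : (i : ℕ) < m + 2
          · exact step i hi
          · rw [show i = i2 from Fin.ext (by have := i.isLt; simp [i2]; omega)]; exact hlast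
    _ = _ := by simp [Finset.card_product, mul_assoc]

lemma cy_tri_card (n : ℕ) (t : Finset (Fin n)) :
    (Finset.univ.filter fun e : Edge n => e.1 ⊆ t).card = t.card.choose 2 := by
  rw [← Finset.card_powersetCard, ← Finset.card_map ⟨Subtype.val, Subtype.val_injective⟩]
  congr 1
  ext e
  simp [Finset.mem_powersetCard, and_comm]

lemma cy_triangles_linear (n : ℕ) : Linear (triangles n) where
  card3 T hT := by
    obtain ⟨t, ht, rfl⟩ := Finset.mem_image.1 hT
    rw [cy_tri_card, (Finset.mem_powersetCard.1 ht).2]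
    rfl
  inter T hT T' hT' hne := by
    obtain ⟨t, ht, rfl⟩ := Finset.mem_image.1 hT
    obtain ⟨t', ht', rfl⟩ := Finset.mem_image.1 hT'
    refine Finset.card_le_one.2 ?_
    intro e he e' he'
    by_contra hee
    simp only [Finset.mem_inter, Finset.mem_filter, Finset.mem_univ, true_and] at he he'
    have hlt : e.1.card < (e.1 ∪ e'.1).card := by
      refine Finset.card_lt_card (Finset.ssubset_iff_subset_ne.2 ⟨Finset.subset_union_left, ?_⟩)
      intro h
      have hsub : e'.1 ⊆ e.1 := by rw [h]; exact Finset.subset_union_right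
      exact hee (Subtype.ext (Finset.eq_of_subset_of_card_le hsub (by rw [e.2, e'.2])).symm)
    rw [e.2] at hlt
    have h1 := Finset.eq_of_subset_of_card_le (Finset.union_subset he.1 he'.1)
      (by rw [(Finset.mem_powersetCard.1 ht).2]; omega)
    have h2 := Finset.eq_of_subset_of_card_le (Finset.union_subset he.2 he'.2)
      (by rw [(Finset.mem_powersetCard.1 ht').2]; omega)
    exact hne (by rw [← h1, h2])

lemma cy_triangles_deg (n : ℕ) (A : Finset (Edge n)) (f : Edge n) :
    (star (triangles n) A f).card ≤ n - 2 := by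
  have hsub : star (triangles n) A f
      ⊆ f.1ᶜ.image (fun z => Finset.univ.filter fun e : Edge n => e.1 ⊆ insert z f.1) := by
    intro T hT
    obtain ⟨hT1, -, hf⟩ := mem_star.1 hT
    obtain ⟨t, ht, rfl⟩ := Finset.mem_image.1 hT1
    simp only [Finset.mem_filter, Finset.mem_univ, true_and] at hf
    have h3 := (Finset.mem_powersetCard.1 ht).2
    obtain ⟨z, hz, hzf⟩ := Finset.exists_mem_notMem_of_card_lt_card
      (show f.1.card < t.card by rw [f.2, h3]; omega)
    refine Finset.mem_image.2 ⟨z, Finset.mem_compl.2 hzf, ?_⟩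
    rw [Finset.eq_of_subset_of_card_le (Finset.insert_subset hz hf)
      (by rw [Finset.card_insert_of_notMem hzf, f.2, h3])]
  refine (Finset.card_le_card hsub).trans (Finset.card_image_le.trans ?_)
  rw [Finset.card_compl, f.2, Fintype.card_fin]

theorem cycle_stmt : CycleStmt := by
  intro n l hn hl
  obtain ⟨m, rfl⟩ : ∃ m, l = m + 3 := ⟨l - 3, by omega⟩
  have hlin := cy_triangles_linear n
  have hc := cy_count hlin (Finset.univ : Finset (Edge n)) (n - 2) m (cy_triangles_deg n _)
  have hc' := (Nat.cast_le (α := ℝ)).2 hc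
  push_cast [Nat.cast_sub (by omega : 2 ≤ n)] at hc'
  have hs := sum_deg (H := triangles n) (Finset.univ : Finset (Edge n)) (fun _ => (1 : ℝ))
  have h3 : ∑ T ∈ alive (triangles n) (Finset.univ : Finset (Edge n)), ∑ f ∈ T, (1 : ℝ)
      = 3 * ((alive (triangles n) (Finset.univ : Finset (Edge n))).card : ℝ) := by
    rw [Finset.sum_congr rfl (fun T hT => ?_), Finset.sum_const, nsmul_eq_mul, mul_comm]
    rw [Finset.sum_const, hlin.card3 T (mem_alive.1 hT).1]; simp
  have hle : 3 * ((alive (triangles n) (Finset.univ : Finset (Edge n))).card : ℝ)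
      ≤ edgesN n * ((n : ℝ) - 2) := by
    rw [← h3, ← hs]
    refine (Finset.sum_le_sum (g := fun _ => (n : ℝ) - 2) fun f _ => ?_).trans (le_of_eq ?_)
    · have := (Nat.cast_le (α := ℝ)).2 (cy_triangles_deg n Finset.univ f)
      push_cast [Nat.cast_sub (by omega : 2 ≤ n)] at this
      simpa [deg] using this
    · simp [edgesN, nsmul_eq_mul, mul_sub]
  refine hc'.trans ?_
  have hD : (0 : ℝ) ≤ (n : ℝ) - 2 := by
    have : (3 : ℝ) ≤ n := by exact_mod_cast hn
    linarith
  have hm1 : m + 3 - 1 = m + 2 := by omega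
  rw [hm1, mul_pow, show ((3 : ℝ)) ^ (m + 3 + 2) = 3 ^ (m + 1) * 81 by ring,
    show ((n : ℝ) - 2) ^ (m + 2) = ((n : ℝ) - 2) ^ (m + 1) * ((n : ℝ) - 2) by ring]
  have hP : (0 : ℝ) ≤ 3 ^ (m + 1) * ((n : ℝ) - 2) ^ (m + 1) := by positivity
  have hN : (0 : ℝ) ≤ edgesN n * ((n : ℝ) - 2) := mul_nonneg (Nat.cast_nonneg _) hD
  have h1 := mul_le_mul_of_nonneg_left hle hP
  have h2 := mul_nonneg hP hN
  nlinarith

end

end Vale.Agent.P046.Full
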