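import Mathlib
import Vale.Agent.P046.Full.Statements

/-!
# P046: random removal equals greedy removal in clock order
-/

open Finset MeasureTheory Function
open scoped ENNReal

namespace Vale.Agent.P046.Full

open Vale.Agent.P046

noncomputable section

variable {V : Type*} [DecidableEq V]

/-! ### The random removal process -/

lemma equiv_leaveObsFuel_stable {H : Finset (Finset V)} (h3 : ∀ T ∈ H, T.card = 3) (φ : ℕ → ℝ) :
    ∀ (n : ℕ) (A : Finset V), A.card ≤ n → leaveObsFuel H φ n A = leaveObsFuel H φ A.card A
  | 0, A, h => by rw [show A.card = 0 by omega]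
  | n + 1, A, h => by
    rcases Nat.lt_or_ge n A.card with hlt | hge
    · rw [show A.card = n + 1 by omega]
    · rw [← equiv_leaveObsFuel_stable h3 φ n A hge]
      by_cases he : alive H A = ∅
      · cases n with
        | zero => simp [leaveObsFuel, he]
        | succ m => simp [leaveObsFuel, he]
      · obtain ⟨T, hT⟩ := Finset.nonempty_iff_ne_empty.2 he
        have h1 := Finset.card_le_card (Finset.mem_filter.1 hT).2
        have h2 := h3 T (Finset.mem_filter.1 hT).1
        cases n with
        | zero => exfalso; omega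
        | succ m =>
          simp only [leaveObsFuel, he, if_false]
          congr 1
          refine Finset.sum_congr rfl fun T hT => ?_
          have h1 := (Finset.mem_filter.1 hT).2
          have h2 := h3 T (Finset.mem_filter.1 hT).1
          have hcard : (A \ T).card + 3 = A.card := by
            rw [Finset.card_sdiff_of_subset h1, h2]
            have := Finset.card_le_card h1
            omega
          have a1 := equiv_leaveObsFuel_stable h3 φ (m + 1) (A \ T) (by omega)
          have a2 := equiv_leaveObsFuel_stable h3 φ m (A \ T) (by omega)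
          simpa only [leaveObsFuel] using a1.trans a2.symm

/-- one round of the random removal process -/
lemma equiv_leaveObs_rec {H : Finset (Finset V)} (h3 : ∀ T ∈ H, T.card = 3) (φ : ℕ → ℝ)
    {A : Finset V} (he : alive H A ≠ ∅) :
    leaveObs H φ A = (∑ T ∈ alive H A, leaveObs H φ (A \ T)) / ((alive H A).card : ℝ) := by
  obtain ⟨T₀, hT₀⟩ := Finset.nonempty_iff_ne_empty.2 he
  have h1 := Finset.card_le_card (Finset.mem_filter.1 hT₀).2
  have h2 := h3 T₀ (Finset.mem_filter.1 hT₀).1
  obtain ⟨m, hm⟩ : ∃ m, A.card = m + 1 := ⟨A.card - 1, by omega⟩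
  rw [leaveObs, hm]
  simp only [leaveObsFuel, he, if_false]
  congr 1
  refine Finset.sum_congr rfl fun T hT => equiv_leaveObsFuel_stable h3 φ m _ ?_
  have h1 := (Finset.mem_filter.1 hT).2
  have h2 := h3 T (Finset.mem_filter.1 hT).1
  rw [Finset.card_sdiff_of_subset h1]
  omega

lemma equiv_leaveObs_of_empty {H : Finset (Finset V)} (φ : ℕ → ℝ) {A : Finset V}
    (he : alive H A = ∅) : leaveObs H φ A = φ A.card := by
  unfold leaveObs
  cases h : A.card with
  | zero => simp [leaveObsFuel, h]
  | succ m => simp [leaveObsFuel, he, h]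

lemma equiv_leaveObs_nonneg {H : Finset (Finset V)} {φ : ℕ → ℝ} (hφ : ∀ j, 0 ≤ φ j)
    (A : Finset V) : 0 ≤ leaveObs H φ A := by
  suffices h : ∀ n (A : Finset V), 0 ≤ leaveObsFuel H φ n A from h _ _
  intro n
  induction n with
  | zero => exact fun A => hφ _
  | succ n ih =>
    intro A
    simp only [leaveObsFuel]
    split_ifs with he
    · exact hφ _
    · exact div_nonneg (Finset.sum_nonneg fun T _ => ih _) (by positivity)

lemma equiv_leaveObs_sub {H : Finset (Finset V)} (φ ψ : ℕ → ℝ) (A : Finset V) :
    leaveObs H (fun j => φ j - ψ j) A = leaveObs H φ A - leaveObs H ψ A := by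
  suffices h : ∀ n (A : Finset V),
      leaveObsFuel H (fun j => φ j - ψ j) n A = leaveObsFuel H φ n A - leaveObsFuel H ψ n A from
    h _ _
  intro n
  induction n with
  | zero => exact fun A => rfl
  | succ n ih =>
    intro A
    simp only [leaveObsFuel]
    split_ifs with he
    · rfl
    · rw [Finset.sum_congr rfl fun T _ => ih (A \ T), Finset.sum_sub_distrib, sub_div]

/-! ### The greedy process -/

/-- The number of live lines with a smaller clock. -/
def equivRank (H : Finset (Finset V)) (A : Finset V) (w : Finset V → ℝ) (T : Finset V) : ℕ :=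
  ((alive H A).filter fun U => w U < w T).card

lemma equivRank_lt {H : Finset (Finset V)} {A : Finset V} {w : Finset V → ℝ} {U T : Finset V}
    (hU : U ∈ alive H A) (h : w U < w T) : equivRank H A w U < equivRank H A w T := by
  refine Finset.card_lt_card (Finset.ssubset_iff_of_subset ?_ |>.2 ⟨U, ?_, ?_⟩)
  · intro W hW
    rw [Finset.mem_filter] at hW ⊢
    exact ⟨hW.1, hW.2.trans h⟩
  · exact Finset.mem_filter.2 ⟨hU, h⟩
  · simp

lemma firedFuel_stable {H : Finset (Finset V)} {A : Finset V} {w : Finset V → ℝ} :
    ∀ (L : ℕ) (T : Finset V), equivRank H A w T < L →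
      (firedFuel H A w L T ↔ firedFuel H A w (L + 1) T)
  | 0, _, h => absurd h (Nat.not_lt_zero _)
  | L + 1, T, h => by
    show (∀ U ∈ alive H A, w U < w T → ¬ Disjoint U T → ¬ firedFuel H A w L U) ↔
      ∀ U ∈ alive H A, w U < w T → ¬ Disjoint U T → ¬ firedFuel H A w (L + 1) U
    have key : ∀ U ∈ alive H A, w U < w T →
        (firedFuel H A w L U ↔ firedFuel H A w (L + 1) U) := fun U hU hlt =>
      firedFuel_stable L U (by have := equivRank_lt hU hlt; omega)
    exact ⟨fun h1 U hU hlt hd h2 => h1 U hU hlt hd ((key U hU hlt).2 h2),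
      fun h1 U hU hlt hd h2 => h1 U hU hlt hd ((key U hU hlt).1 h2)⟩

/-- the fixed point equation of the greedy process -/
lemma fired_iff {H : Finset (Finset V)} {A : Finset V} {w : Finset V → ℝ} (T : Finset V) :
    Fired H A w T ↔ ∀ U ∈ alive H A, w U < w T → ¬ Disjoint U T → ¬ Fired H A w U := by
  have h1 : equivRank H A w T < (alive H A).card + 1 :=
    Nat.lt_succ_of_le (Finset.card_filter_le _ _)
  exact firedFuel_stable _ T h1

lemma equiv_alive_sdiff (H : Finset (Finset V)) (A T U : Finset V) :
    U ∈ alive H (A \ T) ↔ U ∈ alive H A ∧ Disjoint U T := by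
  simp [mem_alive, Finset.subset_sdiff, and_assoc]

/-- the line with the earliest clock fires and the process restarts on the other points -/
lemma survivors_of_min {H : Finset (Finset V)} (h3 : ∀ T ∈ H, T.card = 3) {A : Finset V}
    {w : Finset V → ℝ} {T : Finset V} (hT : T ∈ alive H A)
    (hmin : ∀ U ∈ (alive H A).erase T, w T < w U) :
    survivors H A w = survivors H (A \ T) w := by
  classical
  have hTne : T.Nonempty := Finset.card_pos.1 (by rw [h3 T (mem_alive.1 hT).1]; norm_num)
  have hle : ∀ U ∈ alive H A, w T ≤ w U := fun U hU => by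
    by_cases h : U = T
    · rw [h]
    · exact (hmin U (Finset.mem_erase.2 ⟨h, hU⟩)).le
  have hfT : Fired H A w T := (fired_iff T).2 fun U hU hlt => absurd hlt (not_lt.2 (hle U hU))
  have hC : ∀ U ∈ alive H A, U ≠ T → ¬ Disjoint U T → ¬ Fired H A w U := fun U hU hne hd hf =>
    (fired_iff U).1 hf T hT (hmin U (Finset.mem_erase.2 ⟨hne, hU⟩))
      (fun h => hd h.symm) hfT
  have hB : ∀ (k : ℕ) (U : Finset V), equivRank H A w U < k → U ∈ alive H (A \ T) →
      (Fired H A w U ↔ Fired H (A \ T) w U) := by
    intro k
    induction k with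
    | zero => exact fun U h => absurd h (Nat.not_lt_zero _)
    | succ k ih =>
      intro U hk hU
      obtain ⟨hUA, hUT⟩ := (equiv_alive_sdiff H A T U).1 hU
      rw [fired_iff (A := A) U, fired_iff (A := A \ T) U]
      constructor
      · intro h W hW hlt hd hfW
        obtain ⟨hWA, -⟩ := (equiv_alive_sdiff H A T W).1 hW
        exact h W hWA hlt hd ((ih W (by have := equivRank_lt hWA hlt; omega) hW).2 hfW)
      · intro h W hW hlt hd hfW
        by_cases hWT : Disjoint W T
        · have hW' := (equiv_alive_sdiff H A T W).2 ⟨hW, hWT⟩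
          exact h W hW' hlt hd ((ih W (by have := equivRank_lt hW hlt; omega) hW').1 hfW)
        · refine hC W hW (fun e => hd (e ▸ hUT.symm)) hWT hfW
  ext f
  simp only [survivors, Finset.mem_filter, Finset.mem_sdiff]
  constructor
  · rintro ⟨hfA, hno⟩
    have hfT' : f ∉ T := fun h =>
      hno T (mem_star.2 ⟨(mem_alive.1 hT).1, (mem_alive.1 hT).2, h⟩) hfT
    refine ⟨⟨hfA, hfT'⟩, fun U hU hf => ?_⟩
    obtain ⟨hUH, hUs, hfU⟩ := mem_star.1 hU
    exact hno U (mem_star.2 ⟨hUH, hUs.trans Finset.sdiff_subset, hfU⟩)
      ((hB _ U (Nat.lt_succ_self _) (mem_alive.2 ⟨hUH, hUs⟩)).2 hf)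
  · rintro ⟨⟨hfA, hfT'⟩, hno⟩
    refine ⟨hfA, fun U hU hf => ?_⟩
    obtain ⟨hUH, hUs, hfU⟩ := mem_star.1 hU
    have hUa : U ∈ alive H A := mem_alive.2 ⟨hUH, hUs⟩
    by_cases hUT : Disjoint U T
    · have hU' := (equiv_alive_sdiff H A T U).2 ⟨hUa, hUT⟩
      exact hno U (mem_star.2 ⟨hUH, (mem_alive.1 hU').2, hfU⟩)
        ((hB _ U (Nat.lt_succ_self _) hU').1 hf)
    · exact hC U hUa (fun e => hfT' (e ▸ hfU)) hUT hf

lemma measurableSet_firedFuel (H : Finset (Finset V)) (A : Finset V) :
    ∀ (L : ℕ) (T : Finset V), MeasurableSet {w : Finset V → ℝ | firedFuel H A w L T}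
  | 0, T => by simp [firedFuel]
  | L + 1, T => by
    have h : {w : Finset V → ℝ | firedFuel H A w (L + 1) T} =
        ⋂ U ∈ alive H A, {w | w U < w T}ᶜ ∪ {w | Disjoint U T}
          ∪ {w | firedFuel H A w L U}ᶜ := by
      ext w
      simp only [firedFuel, Set.mem_iInter, Set.mem_union, Set.mem_compl_iff, Set.mem_setOf_eq]
      refine forall₂_congr fun U _ => ?_
      tauto
    rw [h]
    exact Finset.measurableSet_biInter _ fun U _ =>
      ((measurableSet_lt (measurable_pi_apply U) (measurable_pi_apply T)).compl.union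
        (MeasurableSet.const _)).union (measurableSet_firedFuel H A L U).compl

/-- survivors depend measurably on the clocks -/
lemma measurable_survivors_card (H : Finset (Finset V)) (A : Finset V) :
    Measurable fun w : Finset V → ℝ => (survivors H A w).card := by
  classical
  have h : (fun w : Finset V → ℝ => (survivors H A w).card)
      = fun w => ∑ f ∈ A, if (∀ T ∈ star H A f, ¬ Fired H A w T) then 1 else 0 := by
    funext w
    rw [survivors, Finset.card_filter]
  rw [h]
  refine Finset.measurable_sum _ fun f _ => Measurable.ite ?_ measurable_const measurable_const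
  rw [show {w : Finset V → ℝ | ∀ T ∈ star H A f, ¬ Fired H A w T}
      = ⋂ T ∈ star H A f, {w | Fired H A w T}ᶜ by ext w; simp]
  exact Finset.measurableSet_biInter _ fun T _ => (measurableSet_firedFuel H A _ T).compl

/-! ### Integrating the first clock -/

/-- one clock -/
abbrev equivUnif : Measure ℝ := (volume : Measure ℝ).restrict (Set.Icc 0 1)

instance : IsProbabilityMeasure equivUnif := ⟨by simp⟩

lemma equivUnif_Ioi {a : ℝ} (ha : a ∈ Set.Icc (0 : ℝ) 1) :
    equivUnif (Set.Ioi a) = ENNReal.ofReal (1 - a) := by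
  have : Set.Ioi a ∩ Set.Icc 0 1 = Set.Ioc a 1 := by
    ext t
    simp only [Set.mem_inter_iff, Set.mem_Ioi, Set.mem_Icc, Set.mem_Ioc]
    exact ⟨fun h => ⟨h.1, h.2.2⟩, fun h => ⟨h.1, by linarith [ha.1], h.2⟩⟩
  rw [Measure.restrict_apply measurableSet_Ioi, this, Real.volume_Ioc]

lemma integral_equivUnif_pow {a : ℝ} (ha : a ∈ Set.Icc (0 : ℝ) 1) (m : ℕ) {c : ℝ} (hc : 0 ≤ c) :
    ∫⁻ v, (Set.Ioi a).indicator (fun v => ENNReal.ofReal ((1 - v) ^ m * c)) v ∂equivUnif
      = ENNReal.ofReal ((1 - a) ^ (m + 1) / (m + 1 : ℝ) * c) := by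
  have hs : Set.Ioi a ∩ Set.Icc 0 1 = Set.Ioc a 1 := by
    ext t
    simp only [Set.mem_inter_iff, Set.mem_Ioi, Set.mem_Icc, Set.mem_Ioc]
    exact ⟨fun h => ⟨h.1, h.2.2⟩, fun h => ⟨h.1, by linarith [ha.1], h.2⟩⟩
  rw [lintegral_indicator measurableSet_Ioi, Measure.restrict_restrict measurableSet_Ioi, hs,
    ← ofReal_integral_eq_lintegral_ofReal]
  · congr 1
    rw [← intervalIntegral.integral_of_le ha.2, intervalIntegral.integral_mul_const,
      intervalIntegral.integral_comp_sub_left (fun v => v ^ m) 1, integral_pow]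
    simp
  · exact ((by fun_prop : Continuous fun v : ℝ => (1 - v) ^ m * c).integrableOn_Icc).mono_set
      Set.Ioc_subset_Icc_self
  · filter_upwards [ae_restrict_mem measurableSet_Ioc] with v hv
    have : 0 ≤ 1 - v := by linarith [hv.2]
    positivity

/-- the event that all live lines have clocks above `a`, weighted by the outcome -/
def eqInt (H : Finset (Finset V)) (A : Finset V) (φ : ℕ → ℝ) (a : ℝ) (w : Finset V → ℝ) : ℝ≥0∞ :=
  if (∀ U ∈ alive H A, a < w U) then ENNReal.ofReal (φ (survivors H A w).card) else 0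

lemma equiv_measurableSet_forall_lt (s : Finset (Finset V)) (g : (Finset V → ℝ) → ℝ) (hg : Measurable g) :
    MeasurableSet {w : Finset V → ℝ | ∀ U ∈ s, g w < w U} := by
  rw [show {w : Finset V → ℝ | ∀ U ∈ s, g w < w U} = ⋂ U ∈ s, {w | g w < w U} by ext w; simp]
  exact Finset.measurableSet_biInter _ fun U _ => measurableSet_lt hg (measurable_pi_apply U)

lemma measurable_eqInt (H : Finset (Finset V)) (A : Finset V) (φ : ℕ → ℝ) (a : ℝ) :
    Measurable (eqInt H A φ a) :=
  Measurable.ite (equiv_measurableSet_forall_lt _ _ measurable_const)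
    ((Measurable.of_discrete (f := fun j : ℕ => ENNReal.ofReal (φ j))).comp
      (measurable_survivors_card H A)) measurable_const

variable [Fintype V]

/-- almost surely the clocks are pairwise distinct -/
lemma equiv_lmarginal_tie (s : Finset (Finset V)) (x : Finset V → ℝ) {U U' : Finset V} (hU : U ∈ s)
    (hne : U' ≠ U) :
    lmarginal (fun _ => equivUnif) s
      ({w : Finset V → ℝ | w U = w U'}.indicator fun _ => (1 : ℝ≥0∞)) x = 0 := by
  have hm : MeasurableSet {w : Finset V → ℝ | w U = w U'} :=
    measurableSet_eq_fun (measurable_pi_apply U) (measurable_pi_apply U')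
  rw [lmarginal_erase' _ (measurable_const.indicator hm) hU]
  have h0 : (fun z : Finset V → ℝ => ∫⁻ v,
      ({w : Finset V → ℝ | w U = w U'}.indicator fun _ => (1 : ℝ≥0∞)) (update z U v) ∂equivUnif)
      = fun _ => 0 := by
    funext z
    refine (lintegral_congr fun v => ?_).trans
      ((lintegral_indicator_one (measurableSet_singleton (z U'))).trans (by simp))
    simp only [Set.indicator_apply, Set.mem_setOf_eq, update_self, update_of_ne hne,
      Set.mem_singleton_iff, Pi.one_apply]
  rw [h0]
  simp [lmarginal]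

lemma equiv_ae_distinct (s : Finset (Finset V)) (x : Finset V → ℝ) :
    ∀ᵐ y : (∀ _ : s, ℝ) ∂Measure.pi (fun _ : s => equivUnif),
      ∀ U ∈ s, ∀ U' ∈ s, U' ≠ U → updateFinset x s y U ≠ updateFinset x s y U' := by
  simp only [eventually_countable_ball (Finset.countable_toSet s), ← Finset.mem_coe]
  intro U hU U' hU'
  refine Filter.eventually_imp_distrib_left.2 fun hne => ?_
  have hm : MeasurableSet {y : (∀ _ : s, ℝ) | updateFinset x s y U = updateFinset x s y U'} :=
    measurableSet_eq_fun
      ((measurable_pi_apply (X := fun _ : Finset V => ℝ) U).comp measurable_updateFinset)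
      ((measurable_pi_apply (X := fun _ : Finset V => ℝ) U').comp measurable_updateFinset)
  refine (ae_iff).2 ?_
  simp only [ne_eq, not_not]
  rw [← lintegral_indicator_one hm, ← equiv_lmarginal_tie s x (U := U) hU hne]
  exact lintegral_congr fun y => by simp [Set.indicator_apply]

/-- `T` is first, after `a` -/
def eqPart (H : Finset (Finset V)) (A : Finset V) (φ : ℕ → ℝ) (a : ℝ) (T : Finset V)
    (w : Finset V → ℝ) : ℝ≥0∞ :=
  if (∀ U ∈ (alive H A).erase T, w T < w U) ∧ a < w T then
    ENNReal.ofReal (φ (survivors H (A \ T) w).card) else 0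

lemma measurable_eqPart (H : Finset (Finset V)) (A : Finset V) (φ : ℕ → ℝ) (a : ℝ)
    (T : Finset V) : Measurable (eqPart H A φ a T) :=
  Measurable.ite ((equiv_measurableSet_forall_lt _ _ (measurable_pi_apply T)).inter
      (measurableSet_lt measurable_const (measurable_pi_apply T)))
    ((Measurable.of_discrete (f := fun j : ℕ => ENNReal.ofReal (φ j))).comp
      (measurable_survivors_card H (A \ T))) measurable_const

lemma eqInt_eq_sum {H : Finset (Finset V)} (h3 : ∀ T ∈ H, T.card = 3) {A : Finset V}
    (he : alive H A ≠ ∅) (φ : ℕ → ℝ) (a : ℝ) {w : Finset V → ℝ}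
    (hd : ∀ U ∈ alive H A, ∀ U' ∈ alive H A, U' ≠ U → w U ≠ w U') :
    eqInt H A φ a w = ∑ T ∈ alive H A, eqPart H A φ a T w := by
  obtain ⟨T₀, hT₀, hmin⟩ := (alive H A).exists_min_image w (Finset.nonempty_iff_ne_empty.2 he)
  have hlt : ∀ U ∈ (alive H A).erase T₀, w T₀ < w U := fun U hU => by
    obtain ⟨hne, hU⟩ := Finset.mem_erase.1 hU
    exact lt_of_le_of_ne (hmin U hU) (hd T₀ hT₀ U hU hne)
  rw [Finset.sum_eq_single T₀ ?_ (fun h => absurd hT₀ h)]
  · unfold eqInt eqPart
    by_cases ha : a < w T₀
    · rw [if_pos fun U hU => ha.trans_le (hmin U hU), if_pos ⟨hlt, ha⟩,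
        survivors_of_min h3 hT₀ hlt]
    · rw [if_neg fun h => ha (h T₀ hT₀), if_neg fun h => ha h.2]
  · intro T hT hne
    refine if_neg fun h => ?_
    exact absurd (h.1 T₀ (Finset.mem_erase.2 ⟨hne.symm, hT₀⟩)) (not_lt.2 (hmin T hT))

/-- the law of greedy removal, all live clocks being above `a` -/
lemma lmarginal_eqInt {H : Finset (Finset V)} (h3 : ∀ T ∈ H, T.card = 3) {φ : ℕ → ℝ}
    (hφ : ∀ j, 0 ≤ φ j) :
    ∀ (N : ℕ) (A : Finset V), A.card < N → ∀ a ∈ Set.Icc (0 : ℝ) 1, ∀ x : Finset V → ℝ,
      lmarginal (fun _ => equivUnif) (alive H A) (eqInt H A φ a) x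
        = ENNReal.ofReal ((1 - a) ^ (alive H A).card * leaveObs H φ A) := by
  intro N
  induction N with
  | zero => exact fun A h => absurd h (Nat.not_lt_zero _)
  | succ N ih =>
    intro A hA a ha x
    by_cases he : alive H A = ∅
    · have hs : survivors H A x = A := by
        ext f
        simp only [survivors, Finset.mem_filter, and_iff_left_iff_imp]
        intro _ T hT
        have := star_sub A f hT
        simp [he] at this
      rw [he, lmarginal_empty]
      simp [eqInt, he, hs, equiv_leaveObs_of_empty φ he]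
    set s := alive H A
    have hsum : lmarginal (fun _ => equivUnif) s (eqInt H A φ a) x
        = ∑ T ∈ s, lmarginal (fun _ => equivUnif) s (eqPart H A φ a T) x := by
      simp only [lmarginal]
      rw [← lintegral_finsetSum (f := fun T y => eqPart H A φ a T (updateFinset x s y)) _
        fun T _ => (measurable_eqPart H A φ a T).comp measurable_updateFinset]
      refine lintegral_congr_ae ?_
      filter_upwards [equiv_ae_distinct s x] with y hy
      exact eqInt_eq_sum h3 he φ a hy
    have hterm : ∀ T ∈ s, lmarginal (fun _ => equivUnif) s (eqPart H A φ a T) x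
        = ENNReal.ofReal ((1 - a) ^ s.card / (s.card : ℝ) * leaveObs H φ (A \ T)) := by
      intro T hT
      have hTH := (mem_alive.1 hT).1
      have hTne : T.Nonempty := Finset.card_pos.1 (by rw [h3 T hTH]; norm_num)
      set B := alive H (A \ T)
      set C := s.erase T \ B
      have hTB : T ∉ B := fun h => by
        have hd : Disjoint T T := ((equiv_alive_sdiff H A T T).1 h).2
        exact hTne.ne_empty (disjoint_self.1 hd)
      have hBs : B ⊆ s.erase T := fun U hU => Finset.mem_erase.2
        ⟨fun e => hTB (e ▸ hU), ((equiv_alive_sdiff H A T U).1 hU).1⟩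
      have hCB : Disjoint C B := Finset.sdiff_disjoint
      have hcu : C ∪ B = s.erase T := Finset.sdiff_union_of_subset hBs
      have hcard : C.card + B.card + 1 = s.card := by
        rw [← Finset.card_union_of_disjoint hCB, hcu, Finset.card_erase_add_one hT]
      have hlt : (A \ T).card < N := by
        have h1 := (mem_alive.1 hT).2
        have h2 := Finset.card_le_card h1
        rw [Finset.card_sdiff_of_subset h1, h3 T hTH]
        have := h3 T hTH
        omega
      set L := leaveObs H φ (A \ T)
      have hL : 0 ≤ L := equiv_leaveObs_nonneg hφ _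
      have hpt : ∀ z : Finset V → ℝ, z T ∈ Set.Icc (0 : ℝ) 1 →
          lmarginal (fun _ => equivUnif) B (eqPart H A φ a T) z
            = if (∀ U ∈ C, z T < z U) ∧ a < z T then
                ENNReal.ofReal ((1 - z T) ^ B.card * L) else 0 := by
        intro z hz
        have hw : ∀ (u : ∀ _ : B, ℝ) (U : Finset V), U ∉ B → updateFinset z B u U = z U :=
          fun u U hU => by simp [updateFinset_def, hU]
        by_cases hc : (∀ U ∈ C, z T < z U) ∧ a < z T
        · rw [if_pos hc, ← ih (A \ T) hlt (z T) hz z]
          refine lintegral_congr fun u => ?_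
          set w := updateFinset z B u
          have hwT : w T = z T := hw u T hTB
          have hiff : (∀ U ∈ s.erase T, w T < w U) ∧ a < w T ↔ ∀ U ∈ B, z T < w U := by
            refine ⟨fun h U hU => hwT ▸ h.1 U (hBs hU), fun h => ⟨fun U hU => ?_, hwT ▸ hc.2⟩⟩
            rw [← hcu, Finset.mem_union] at hU
            rcases hU with hU | hU
            · rw [hwT, show w U = z U from hw u U (Finset.disjoint_left.1 hCB hU)]
              exact hc.1 U hU
            · exact hwT ▸ h U hU
          unfold eqPart eqInt
          by_cases h : ∀ U ∈ B, z T < w U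
          · rw [if_pos (hiff.2 h), if_pos h]
          · rw [if_neg (mt hiff.1 h), if_neg h]
        · rw [if_neg hc]
          refine (lintegral_congr fun u => ?_).trans lintegral_zero
          refine if_neg fun h => hc ⟨fun U hU => ?_, hw u T hTB ▸ h.2⟩
          have hUe : U ∈ s.erase T := (Finset.mem_sdiff.1 hU).1
          have := h.1 U hUe
          rwa [hw u T hTB, hw u U (Finset.disjoint_left.1 hCB hU)] at this
      have hinner : ∀ v ∈ Set.Icc (0 : ℝ) 1,
          lmarginal (fun _ => equivUnif) (s.erase T) (eqPart H A φ a T) (update x T v)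
            = (Set.Ioi a).indicator
                (fun v => ENNReal.ofReal ((1 - v) ^ (C.card + B.card) * L)) v := by
        intro v hv
        have hTC : T ∉ C := fun h => (Finset.mem_erase.1 (Finset.mem_sdiff.1 h).1).1 rfl
        rw [← hcu, lmarginal_union _ _ (measurable_eqPart H A φ a T) hCB]
        conv_lhs => rw [lmarginal]
        have hzT : ∀ u : ∀ _ : C, ℝ, updateFinset (update x T v) C u T = v := fun u => by
          simp [updateFinset_def, hTC]
        have hzU : ∀ (u : ∀ _ : C, ℝ) (U : C), updateFinset (update x T v) C u U = u U :=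
          fun u U => by simp [updateFinset_def]
        rw [lintegral_congr fun u => by rw [hpt _ (by rw [hzT]; exact hv), hzT]]
        by_cases hva : a < v
        · rw [Set.indicator_of_mem (show v ∈ Set.Ioi a from hva)]
          have hv1 : 0 ≤ 1 - v := by linarith [hv.2]
          rw [lintegral_congr (g := fun u : (∀ _ : C, ℝ) =>
            (Set.univ.pi fun _ : C => Set.Ioi v).indicator
              (fun _ => ENNReal.ofReal ((1 - v) ^ B.card * L)) u)]
          · rw [lintegral_indicator_const (MeasurableSet.univ_pi fun _ => measurableSet_Ioi),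
              Measure.pi_pi, Finset.prod_const, equivUnif_Ioi hv, Finset.card_univ,
              Fintype.card_coe, ← ENNReal.ofReal_pow hv1, ← ENNReal.ofReal_mul (by positivity),
              pow_add]
            congr 1
            ring
          · intro u
            classical
            simp only [Set.indicator_apply, Set.mem_univ_pi, Set.mem_Ioi, hva, and_true]
            refine if_congr ⟨fun h U => ?_, fun h U hU => ?_⟩ rfl rfl
            · exact hzU u U ▸ h U U.2
            · exact (hzU u ⟨U, hU⟩).symm ▸ h ⟨U, hU⟩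
        · rw [Set.indicator_of_notMem (show v ∉ Set.Ioi a from hva)]
          simp [hva]
      rw [lmarginal_erase _ (measurable_eqPart H A φ a T) hT]
      rw [lintegral_congr_ae ((ae_restrict_mem measurableSet_Icc).mono hinner),
        integral_equivUnif_pow ha _ hL, hcard]
      congr 2
      rw [← hcard]
      push_cast
      ring
    rw [hsum, Finset.sum_congr rfl hterm, ← ENNReal.ofReal_sum_of_nonneg fun T _ =>
      mul_nonneg (div_nonneg (pow_nonneg (by linarith [ha.2]) _) (Nat.cast_nonneg _))
        (equiv_leaveObs_nonneg hφ _), ← Finset.mul_sum, equiv_leaveObs_rec h3 φ he]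
    congr 1
    ring

lemma lintegral_survivors {H : Finset (Finset V)} (h3 : ∀ T ∈ H, T.card = 3) {φ : ℕ → ℝ}
    (hφ : ∀ j, 0 ≤ φ j) (A : Finset V) :
    ∫⁻ w, ENNReal.ofReal (φ (survivors H A w).card) ∂clocks V
      = ENNReal.ofReal (leaveObs H φ A) := by
  set s := alive H A
  have hne : ∀ᵐ w ∂clocks V, ∀ U ∈ s, (0 : ℝ) < w U := by
    refine (eventually_countable_ball (Finset.countable_toSet s)).2 fun U _ => ?_
    have h1 : ∀ᵐ v ∂equivUnif, (0 : ℝ) < v := by
      filter_upwards [ae_restrict_mem measurableSet_Icc,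
        ae_restrict_of_ae (volume.ae_ne (0 : ℝ))] with v hv hv0
      exact lt_of_le_of_ne hv.1 (Ne.symm hv0)
    exact Measure.tendsto_eval_ae_ae.eventually h1
  calc ∫⁻ w, ENNReal.ofReal (φ (survivors H A w).card) ∂clocks V
      = ∫⁻ w, eqInt H A φ 0 w ∂clocks V :=
        lintegral_congr_ae (hne.mono fun w hw => (if_pos hw).symm)
    _ = lmarginal (fun _ => equivUnif) Finset.univ (eqInt H A φ 0) (fun _ => 0) :=
        lintegral_eq_lmarginal_univ (μ := fun _ => equivUnif) _
    _ = lmarginal (fun _ => equivUnif) (Finset.univ \ s)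
          (lmarginal (fun _ => equivUnif) s (eqInt H A φ 0)) (fun _ => 0) := by
        rw [← lmarginal_union _ _ (measurable_eqInt H A φ 0) Finset.sdiff_disjoint,
          Finset.sdiff_union_of_subset (Finset.subset_univ _)]
    _ = ENNReal.ofReal (leaveObs H φ A) := by
        conv_lhs => rw [lmarginal]
        simp [lmarginal_eqInt h3 hφ (A.card + 1) A (Nat.lt_succ_self _) 0
          ⟨le_rfl, zero_le_one⟩, s]

/-- Random removal equals greedy removal in clock order. -/
theorem equiv_stmt : EquivStmt := by
  intro V _ _ H A hH φ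
  classical
  have hmeas : ∀ ψ : ℕ → ℝ, Measurable fun w : Finset V → ℝ => ψ (survivors H A w).card :=
    fun ψ => (Measurable.of_discrete (f := ψ)).comp (measurable_survivors_card H A)
  have : IsProbabilityMeasure (clocks V) := by
    unfold clocks; infer_instance
  have hint : ∀ ψ : ℕ → ℝ,
      Integrable (fun w : Finset V → ℝ => ψ (survivors H A w).card) (clocks V) := fun ψ =>
    Integrable.of_bound (hmeas ψ).aestronglyMeasurable
      (∑ j ∈ Finset.range (A.card + 1), |ψ j|) (Filter.Eventually.of_forall fun w => by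
        rw [Real.norm_eq_abs]
        refine Finset.single_le_sum (f := fun j => |ψ j|) (fun j _ => abs_nonneg _)
          (Finset.mem_range.2 (Nat.lt_succ_of_le (Finset.card_le_card ?_)))
        intro f hf
        simp only [survivors, Finset.mem_filter] at hf
        exact hf.1)
  have key : ∀ ψ : ℕ → ℝ, (∀ j, 0 ≤ ψ j) →
      leaveObs H ψ A = ∫ w, ψ (survivors H A w).card ∂clocks V := fun ψ hψ => by
    rw [integral_eq_lintegral_of_nonneg_ae (Filter.Eventually.of_forall fun w => hψ _)
      (hmeas ψ).aestronglyMeasurable, lintegral_survivors hH.card3 hψ,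
      ENNReal.toReal_ofReal (equiv_leaveObs_nonneg hψ A)]
  have e : φ = fun j => max (φ j) 0 - max (-φ j) 0 := by
    funext j; exact (max_zero_sub_max_neg_zero_eq_self (φ j)).symm
  rw [e, equiv_leaveObs_sub, key _ fun j => le_max_right _ _, key _ fun j => le_max_right _ _]
  exact (integral_sub (hint fun j => max (φ j) 0) (hint fun j => max (-φ j) 0)).symm

end

end Vale.Agent.P046.Full
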