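import Mathlib
import Vale.Agent.P046.Full.Defs

/-!
# P046, exact constant: good states of the first phase and the one-step estimates
-/

open Finset Filter

namespace Vale.Agent.P046.Full

open Vale.Agent.P046

noncomputable section

/-- `(1 / r) ∑` over the live neighbours. -/
def avgOp {V : Type*} [DecidableEq V] (H : Finset (Finset V)) (A : Finset V) (r : ℝ) (w : V → ℝ) (f : V) :
    ℝ :=
  (∑ T ∈ star H A f, ∑ g ∈ T.erase f, w g) / r

/-- `P = A D - D`, the statistic that does not see the vertex-degree mode. -/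
def devP {V : Type*} [DecidableEq V] (H : Finset (Finset V)) (A : Finset V) (r : ℝ) (f : V) : ℝ :=
  avgOp H A r (devD H A r) f - devD H A r f

/-- Common live neighbours of three vertices. -/
def codeg3 {n : ℕ} (A : Finset (Edge n)) (x y z : Fin n) : ℝ :=
  (((Finset.univ : Finset (Fin n)).filter fun w =>
    (∃ e ∈ A, e.1 = {x, w}) ∧ (∃ e ∈ A, e.1 = {y, w}) ∧ ∃ e ∈ A, e.1 = {z, w}).card : ℝ)

/-- Reference degree at shifted time `σ`. -/
def refR (σ : ℝ) : ℝ := 1 / (2 * σ)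

/-- Reference triple codegree at shifted time `σ`. -/
def refK (n : ℕ) (σ : ℝ) : ℝ := refR σ * Real.sqrt (refR σ / ((n : ℝ) - 2))

/-- A good state at shifted time `σ`. -/
def GoodState (n : ℕ) (η σ : ℝ) (A : Finset (Edge n)) : Prop :=
  (∀ f ∈ A, |deg (triangles n) A f / refR σ - 1| ≤ Real.sqrt σ * (n : ℝ) ^ η) ∧
    ∀ x y z : Fin n, x ≠ y → x ≠ z → y ≠ z →
      |codeg3 A x y z - refK n σ| ≤
        (n : ℝ) ^ (3 * η) * (Real.sqrt (refK n σ + 1) + refK n σ * Real.sqrt σ)

/-- The lines whose firing leaves `f` alive. -/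
def others {n : ℕ} (A : Finset (Edge n)) (f : Edge n) : Finset (Finset (Edge n)) :=
  (alive (triangles n) A).filter fun T => f ∉ T

/-- One-step estimates of the four statistics on a good state. -/
def EstimateStmt : Prop :=
  ∃ C : ℝ, 0 < C ∧ ∀ θ η : ℝ, 0 < η → 50 * η ≤ θ → θ ≤ 1 / 4 → ∀ᶠ n : ℕ in atTop, ∀ σ : ℝ,
    1 / (2 * ((n : ℝ) - 2)) ≤ σ → σ ≤ 2 / (n : ℝ) ^ θ → ∀ A : Finset (Edge n), GoodState n η σ A →
      let H := triangles n
      let r := refR σ
      let a := fun f => deg H A f / r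
      let D := devD H A r
      let err := C * (r * σ * (n : ℝ) ^ (2 * η) + 1)
      (∀ f ∈ A,
        (∑ T ∈ others A f, (deg H (A \ T) f / r - a f) = -(r * (2 * a f + D f)) + 2 * a f) ∧
        |∑ T ∈ others A f, (devD H (A \ T) r f - D f) + 4 * r * a f + 4 * r * D f + r * avgOp H A r D f| ≤ err ∧
        |∑ T ∈ others A f, (devP H (A \ T) r f - devP H A r f) + 6 * r * avgOp H A r D f + 4 * r * a f +
            r * avgOp H A r (devP H A r) f| ≤ err ∧
        (∀ T ∈ others A f, |deg H (A \ T) f / r - a f| ≤ C / r ∧ |devD H (A \ T) r f - D f| ≤ C / r ∧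
          |devP H (A \ T) r f - devP H A r f| ≤ C / r) ∧
        (∑ T ∈ others A f, (deg H (A \ T) f / r - a f) ^ 2 ≤ C) ∧
        (∑ T ∈ others A f, (devD H (A \ T) r f - D f) ^ 2 ≤
          C * (Real.sqrt (r / ((n : ℝ) - 2)) + σ * (n : ℝ) ^ (14 * η))) ∧
        ∑ T ∈ others A f, (devP H (A \ T) r f - devP H A r f) ^ 2 ≤ C * σ * (n : ℝ) ^ (14 * η)) ∧
      ∀ x y z : Fin n, x ≠ y → x ≠ z → y ≠ z →
        let K := codeg3 A x y z
        |∑ T ∈ alive H A, (codeg3 (A \ T) x y z - K) + 3 * r * K| ≤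
            C * K * (r * Real.sqrt σ * (n : ℝ) ^ η + 1) ∧
          (∀ T ∈ alive H A, |codeg3 (A \ T) x y z - K| ≤ C) ∧
          ∑ T ∈ alive H A, (codeg3 (A \ T) x y z - K) ^ 2 ≤ C * r * K

end

end Vale.Agent.P046.Full
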