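import Mathlib
import Vale.Agent.P046.Full.PhaseADefs

/-!
# P046: first-order one-step estimates of degree, `D` and `A D` in a linear 3-graph
-/

open Finset

namespace Vale.Agent.P046.Full

open Vale.Agent.P046

noncomputable section

variable {V : Type*} [DecidableEq V] {H : Finset (Finset V)} {A : Finset V} {r ε : ℝ}

/-- The live lines not through `f`. -/
def estOt (H : Finset (Finset V)) (A : Finset V) (f : V) : Finset (Finset V) :=
  (alive H A).filter fun T => f ∉ T

/-- All live degrees are `r (1 ± ε)`. -/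
structure EstReg (H : Finset (Finset V)) (A : Finset V) (r ε : ℝ) : Prop where
  lin : Linear H
  r1 : 1 ≤ r
  e0 : 0 ≤ ε
  e1 : ε ≤ 1
  dev : ∀ g ∈ A, |deg H A g / r - 1| ≤ ε

lemma EstReg.rpos (h : EstReg H A r ε) : 0 < r := lt_of_lt_of_le one_pos h.r1

lemma EstReg.deg_le (h : EstReg H A r ε) {g : V} (hg : g ∈ A) : deg H A g ≤ 2 * r := by
  have h1 := (abs_le.1 (h.dev g hg)).2
  have h2 := h.e1
  have h3 : deg H A g / r ≤ 2 := by linarith
  rw [div_le_iff₀ h.rpos] at h3
  linarith

lemma est_star_erase_mem {S : Finset V} {f g : V} (hS : S ∈ star H A f) (hg : g ∈ S.erase f) :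
    g ∈ A ∧ g ∈ S ∧ g ≠ f :=
  ⟨(mem_star.1 hS).2.1 (Finset.mem_erase.1 hg).2, (Finset.mem_erase.1 hg).2,
    (Finset.mem_erase.1 hg).1⟩

lemma est_sum_one (hH : Linear H) {S : Finset V} {f : V} (hS : S ∈ star H A f) (c : ℝ) :
    ∑ _g ∈ S.erase f, c = 2 * c := by
  obtain ⟨a1, -, a3⟩ := mem_star.1 hS
  rw [Finset.sum_const, Finset.card_erase_of_mem a3, hH.card3 S a1]
  simp [nsmul_eq_mul]

lemma est_abs_inner_le (hH : Linear H) {S : Finset V} {f : V} (hS : S ∈ star H A f) {w : V → ℝ}
    {W : ℝ} (hW : ∀ g ∈ A, |w g| ≤ W) : |∑ g ∈ S.erase f, w g| ≤ 2 * W := by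
  refine (Finset.abs_sum_le_sum_abs _ _).trans ?_
  rw [← est_sum_one hH hS W]
  exact Finset.sum_le_sum fun g hg => hW g (est_star_erase_mem hS hg).1

/-- A bound for a sum over all lines at a point. -/
lemma est_star_sum_le (f : V) {F : Finset V → ℝ} {B : ℝ}
    (hF : ∀ S ∈ star H A f, |F S| ≤ B) : |∑ S ∈ star H A f, F S| ≤ deg H A f * B := by
  refine (Finset.abs_sum_le_sum_abs _ _).trans ((Finset.sum_le_sum hF).trans ?_)
  rw [Finset.sum_const, nsmul_eq_mul, deg]

lemma est_avgOp_le (h : EstReg H A r ε) {f : V} (hf : f ∈ A) {w : V → ℝ} {W : ℝ} (hW0 : 0 ≤ W)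
    (hW : ∀ g ∈ A, |w g| ≤ W) : |avgOp H A r w f| ≤ 4 * W := by
  rw [avgOp, abs_div, abs_of_pos h.rpos, div_le_iff₀ h.rpos]
  refine (est_star_sum_le f fun S hS => est_abs_inner_le h.lin hS hW).trans ?_
  have := mul_le_mul_of_nonneg_right (h.deg_le hf) (show 0 ≤ 2 * W by linarith)
  linarith

lemma est_avgOp_add (w v : V → ℝ) (f : V) :
    avgOp H A r (fun g => w g + v g) f = avgOp H A r w f + avgOp H A r v f := by
  simp only [avgOp, Finset.sum_add_distrib, add_div]

lemma est_avgOp_smul (c : ℝ) (w : V → ℝ) (f : V) :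
    avgOp H A r (fun g => c * w g) f = c * avgOp H A r w f := by
  simp only [avgOp, ← Finset.mul_sum, mul_div_assoc]

lemma est_avgOp_sub (w v : V → ℝ) (f : V) :
    avgOp H A r (fun g => w g - v g) f = avgOp H A r w f - avgOp H A r v f := by
  simp only [avgOp, Finset.sum_sub_distrib, sub_div]

lemma est_avgOp_const (hH : Linear H) (f : V) (c : ℝ) :
    avgOp H A r (fun _ => c) f = 2 * c * (deg H A f / r) := by
  rw [avgOp, Finset.sum_congr rfl fun S hS => est_sum_one hH hS c, Finset.sum_const, nsmul_eq_mul,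
    deg]
  ring

lemma est_avgOp_deg (hH : Linear H) (f : V) :
    avgOp H A r (fun g => deg H A g / r) f = devD H A r f + 2 * (deg H A f / r) := by
  have h : avgOp H A r (fun g => deg H A g / r - 1 + 1) f =
      devD H A r f + 2 * (deg H A f / r) := by
    rw [est_avgOp_add (fun g => deg H A g / r - 1) (fun _ => 1), est_avgOp_const hH]
    simp only [avgOp, devD, mul_one]
  simpa using h

/-- The lines, not through a point of `S`, that meet `S`. -/
lemma est_card_meet (hH : Linear H) {S : Finset V} {g : V} (hS : S ∈ star H A g) :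
    (((estOt H A g).filter fun T => ¬ Disjoint S T).card : ℝ) =
      ∑ z ∈ S.erase g, (deg H A z - 1) := by
  obtain ⟨hS1, hS2, hgS⟩ := mem_star.1 hS
  have hset : (estOt H A g).filter (fun T => ¬ Disjoint S T)
      = (S.erase g).biUnion (fun z => (star H A z).erase S) := by
    ext T
    simp only [estOt, Finset.mem_filter, Finset.mem_biUnion, Finset.mem_erase, mem_alive, mem_star]
    constructor
    · rintro ⟨⟨⟨h1, h2⟩, hgT⟩, hd⟩
      obtain ⟨z, hzS, hzT⟩ := Finset.not_disjoint_iff.1 hd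
      exact ⟨z, ⟨fun h => hgT (h ▸ hzT), hzS⟩, fun h => hgT (h ▸ hgS), h1, h2, hzT⟩
    · rintro ⟨z, ⟨hzg, hzS⟩, hne, h1, h2, hzT⟩
      refine ⟨⟨⟨h1, h2⟩, fun hgT => hne (hH.eq_of_two h1 hS1 hzg hzT hgT hzS hgS)⟩, ?_⟩
      exact Finset.not_disjoint_iff.2 ⟨z, hzS, hzT⟩
  rw [hset, Finset.card_biUnion ?_, Nat.cast_sum]
  · refine Finset.sum_congr rfl ?_
    intro z hz
    have hmem : S ∈ star H A z := mem_star.2 ⟨hS1, hS2, (Finset.mem_erase.1 hz).2⟩
    rw [Finset.card_erase_of_mem hmem, Nat.cast_sub (Finset.card_pos.2 ⟨S, hmem⟩)]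
    simp [deg]
  · intro z hz z' hz' hzz'
    rw [Function.onFun, Finset.disjoint_left]
    intro T hT hT'
    obtain ⟨hne, hT1⟩ := Finset.mem_erase.1 hT
    obtain ⟨a1, -, a3⟩ := mem_star.1 hT1
    obtain ⟨-, -, b3⟩ := mem_star.1 (Finset.mem_erase.1 hT').2
    exact hne (hH.eq_of_two a1 hS1 hzz' a3 b3
      (Finset.mem_erase.1 hz).2 (Finset.mem_erase.1 hz').2)

lemma est_card_meet_le (h : EstReg H A r ε) {S : Finset V} {g : V} (hS : S ∈ star H A g) :
    (((estOt H A g).filter fun T => ¬ Disjoint S T).card : ℝ) ≤ 4 * r := by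
  rw [est_card_meet h.lin hS]
  refine (Finset.sum_le_sum fun z hz =>
    (show deg H A z - 1 ≤ 2 * r by linarith [h.deg_le (est_star_erase_mem hS hz).1])).trans ?_
  rw [est_sum_one h.lin hS]
  linarith

lemma est_loss_le (h : EstReg H A r ε) {f : V} (hf : f ∈ A) : loss H A f ≤ 8 * r ^ 2 := by
  have h1 : |loss H A f| ≤ deg H A f * (4 * r) := est_star_sum_le f fun S hS => by
    rw [← est_card_meet h.lin hS, Nat.abs_cast]
    exact est_card_meet_le h hS
  refine (le_abs_self _).trans (h1.trans ?_)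
  have := mul_le_mul_of_nonneg_right (h.deg_le hf) (show 0 ≤ 4 * r by linarith [h.r1])
  linarith

/-- The change of an average over neighbours when `T` fires. -/
lemma est_op_diff (w w' : V → ℝ) (f : V) (T : Finset V) :
    avgOp H (A \ T) r w' f - avgOp H A r w f =
      (∑ S ∈ (star H A f).filter (fun S => Disjoint S T), ∑ g ∈ S.erase f, (w' g - w g) -
        ∑ S ∈ (star H A f).filter (fun S => ¬ Disjoint S T), ∑ g ∈ S.erase f, w g) / r := by
  unfold avgOp
  rw [star_sdiff, ← Finset.sum_filter_add_sum_filter_not (star H A f) (fun S => Disjoint S T)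
    (fun S => ∑ g ∈ S.erase f, w g)]
  simp only [Finset.sum_sub_distrib]
  ring

lemma est_sum_killed_le (hH : Linear H) {f : V} {T : Finset V} {w : V → ℝ} {W : ℝ}
    (hW : ∀ g ∈ A, |w g| ≤ W) :
    |∑ S ∈ (star H A f).filter (fun S => ¬ Disjoint S T), ∑ g ∈ S.erase f, w g| ≤
      hit H A f T * (2 * W) := by
  refine (Finset.abs_sum_le_sum_abs _ _).trans ((Finset.sum_le_sum fun S hS =>
    est_abs_inner_le hH (Finset.mem_filter.1 hS).1 hW).trans ?_)
  rw [Finset.sum_const, nsmul_eq_mul, hit]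

lemma est_disjoint_mem {S T : Finset V} {g : V} (hT : T ∈ alive H A) (hd : Disjoint S T)
    (hg : g ∈ S) : T ∈ estOt H A g :=
  Finset.mem_filter.2 ⟨hT, fun h => Finset.disjoint_left.1 hd hg h⟩

/-- The jump of an average. -/
lemma est_op_jump (h : EstReg H A r ε) {f : V} (hf : f ∈ A) {T : Finset V}
    (hT : T ∈ estOt H A f) {w w' : V → ℝ} {J W : ℝ} (hJ : 0 ≤ J) (hW0 : 0 ≤ W)
    (hJb : ∀ g ∈ A, T ∈ estOt H A g → |w' g - w g| ≤ J) (hW : ∀ g ∈ A, |w g| ≤ W) :
    |avgOp H (A \ T) r w' f - avgOp H A r w f| ≤ 4 * J + 6 * W / r := by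
  have hr := h.rpos
  obtain ⟨hTa, hfT⟩ := Finset.mem_filter.1 hT
  rw [est_op_diff, abs_div, abs_of_pos hr, div_le_iff₀ hr]
  have h1 : |∑ S ∈ (star H A f).filter (fun S => Disjoint S T),
      ∑ g ∈ S.erase f, (w' g - w g)| ≤ deg H A f * (2 * J) := by
    refine (Finset.abs_sum_le_sum_abs _ _).trans ((Finset.sum_le_sum (g := fun _ => 2 * J)
      fun S hS => ?_).trans ?_)
    · obtain ⟨hS1, hS2⟩ := Finset.mem_filter.1 hS
      refine (Finset.abs_sum_le_sum_abs _ _).trans ?_
      rw [← est_sum_one h.lin hS1 J]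
      exact Finset.sum_le_sum fun g hg => hJb g (est_star_erase_mem hS1 hg).1
        (est_disjoint_mem hTa hS2 (est_star_erase_mem hS1 hg).2.1)
    · rw [Finset.sum_const, nsmul_eq_mul, deg]
      exact mul_le_mul_of_nonneg_right (Nat.cast_le.2 (Finset.card_filter_le _ _)) (by linarith)
  have h2 := est_sum_killed_le (f := f) (T := T) h.lin hW
  have h3 : (hit H A f T : ℝ) ≤ 3 := by
    exact_mod_cast hit_le_three h.lin A (mem_alive.1 hTa).1 hfT
  have h4 := mul_le_mul_of_nonneg_right h3 (show 0 ≤ 2 * W by linarith)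
  have h5 := mul_le_mul_of_nonneg_right (h.deg_le hf) (show 0 ≤ 2 * J by linarith)
  refine (abs_sub _ _).trans ((add_le_add h1 h2).trans ?_)
  rw [add_mul, div_mul_cancel₀ _ hr.ne']
  linarith

/-- Degree: exact drift. -/
lemma est_deg_drift (h : EstReg H A r ε) (f : V) :
    ∑ T ∈ estOt H A f, (deg H (A \ T) f / r - deg H A f / r) =
      -(r * (2 * (deg H A f / r) + devD H A r f)) + 2 * (deg H A f / r) := by
  have hr := h.rpos.ne'
  have e : ∀ T, deg H (A \ T) f / r - deg H A f / r = -((hit H A f T : ℝ) / r) := fun T => by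
    rw [deg_sdiff]; ring
  simp only [e, Finset.sum_neg_distrib, ← Finset.sum_div, estOt, sum_hit h.lin]
  have hloss : loss H A f = r * avgOp H A r (fun g => deg H A g) f - 2 * deg H A f := by
    rw [avgOp, mul_div_cancel₀ _ hr, loss]
    simp only [Finset.sum_sub_distrib]
    rw [Finset.sum_congr rfl fun S hS => est_sum_one h.lin hS (1 : ℝ), Finset.sum_const,
      nsmul_eq_mul, deg]
    ring
  have hd : avgOp H A r (fun g => deg H A g) f =
      r * (devD H A r f + 2 * (deg H A f / r)) := by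
    rw [← est_avgOp_deg h.lin, ← est_avgOp_smul]
    congr 1
    funext g
    field_simp
  rw [hloss, hd]
  field_simp
  ring

lemma est_deg_jump (h : EstReg H A r ε) {f : V} {T : Finset V} (hT : T ∈ estOt H A f) :
    |deg H (A \ T) f / r - deg H A f / r| ≤ 3 / r := by
  obtain ⟨hTa, hfT⟩ := Finset.mem_filter.1 hT
  rw [deg_sdiff, sub_div, sub_sub_cancel_left, abs_neg, abs_div, Nat.abs_cast, abs_of_pos h.rpos]
  refine div_le_div_of_nonneg_right ?_ h.rpos.le
  exact_mod_cast hit_le_three h.lin A (mem_alive.1 hTa).1 hfT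

lemma est_deg_sq (h : EstReg H A r ε) {f : V} (hf : f ∈ A) :
    ∑ T ∈ estOt H A f, (deg H (A \ T) f / r - deg H A f / r) ^ 2 ≤ 24 := by
  have hr := h.rpos
  refine (Finset.sum_le_sum (g := fun T => 3 / r ^ 2 * (hit H A f T : ℝ)) fun T hT => ?_).trans ?_
  · obtain ⟨hTa, hfT⟩ := Finset.mem_filter.1 hT
    have h3 : (hit H A f T : ℝ) ≤ 3 := by
      exact_mod_cast hit_le_three h.lin A (mem_alive.1 hTa).1 hfT
    rw [deg_sdiff, sub_div, sub_sub_cancel_left, neg_sq, div_pow, div_mul_eq_mul_div]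
    refine div_le_div_of_nonneg_right ?_ (by positivity)
    rw [sq]
    exact mul_le_mul_of_nonneg_right h3 (Nat.cast_nonneg _)
  · rw [← Finset.mul_sum, estOt, sum_hit h.lin, div_mul_eq_mul_div, div_le_iff₀ (by positivity)]
    linarith [est_loss_le h hf]

/-- The drift of an average, given the drift of what is averaged. -/
theorem est_op_drift (h : EstReg H A r ε) {f : V} (hf : f ∈ A) {w : V → ℝ}
    {w' : Finset V → V → ℝ} {L : V → ℝ} {J E W : ℝ} (hJ : 0 ≤ J) (hE : 0 ≤ E) (hW0 : 0 ≤ W)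
    (hJb : ∀ g ∈ A, ∀ T ∈ estOt H A g, |w' T g - w g| ≤ J)
    (hLb : ∀ g ∈ A, |∑ T ∈ estOt H A g, (w' T g - w g) - L g| ≤ E)
    (hW : ∀ g ∈ A, |w g| ≤ W) :
    |∑ T ∈ estOt H A f, (avgOp H (A \ T) r (w' T) f - avgOp H A r w f) -
        (avgOp H A r L f - 2 * r * avgOp H A r w f)| ≤
      4 * E + 16 * (r * J) + 8 * W * (r * ε + 1) := by
  have hr := h.rpos
  set O := estOt H A f
  have swap1 : ∀ F : Finset V → Finset V → ℝ,
      ∑ T ∈ O, ∑ S ∈ (star H A f).filter (fun S => Disjoint S T), F T S =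
        ∑ S ∈ star H A f, ∑ T ∈ O.filter (fun T => Disjoint S T), F T S := fun F => by
    simp only [Finset.sum_filter]; exact Finset.sum_comm
  have swap2 : ∀ F : Finset V → Finset V → ℝ,
      ∑ T ∈ O, ∑ S ∈ (star H A f).filter (fun S => ¬ Disjoint S T), F T S =
        ∑ S ∈ star H A f, ∑ T ∈ O.filter (fun T => ¬ Disjoint S T), F T S := fun F => by
    simp only [Finset.sum_filter]; exact Finset.sum_comm
  have e0 : ∑ T ∈ O, (avgOp H (A \ T) r (w' T) f - avgOp H A r w f) =
      (∑ S ∈ star H A f, ∑ g ∈ S.erase f, ∑ T ∈ O.filter (fun T => Disjoint S T), (w' T g - w g) -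
        ∑ S ∈ star H A f, ((O.filter fun T => ¬ Disjoint S T).card : ℝ) * ∑ g ∈ S.erase f, w g) /
        r := by
    simp only [est_op_diff, ← Finset.sum_div, Finset.sum_sub_distrib (s := O)]
    rw [swap1, swap2]
    congr 2
    · exact Finset.sum_congr rfl fun S _ => Finset.sum_comm
    · exact Finset.sum_congr rfl fun S _ => by rw [Finset.sum_const, nsmul_eq_mul]
  rw [e0]
  -- the surviving part
  have h1 : |∑ S ∈ star H A f, ∑ g ∈ S.erase f, (∑ T ∈ O.filter (fun T => Disjoint S T),
      (w' T g - w g) - L g)| ≤ deg H A f * (2 * (E + 4 * r * J)) := by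
    refine est_star_sum_le f fun S hS => ?_
    refine (Finset.abs_sum_le_sum_abs _ _).trans ?_
    rw [← est_sum_one h.lin hS (E + 4 * r * J)]
    refine Finset.sum_le_sum fun g hg => ?_
    obtain ⟨hgA, hgS, -⟩ := est_star_erase_mem hS hg
    obtain ⟨hS1, hS2, hfS⟩ := mem_star.1 hS
    have hset : O.filter (fun T => Disjoint S T) = (estOt H A g).filter (fun T => Disjoint S T) := by
      ext T
      simp only [O, estOt, Finset.mem_filter]
      exact ⟨fun ⟨⟨a, _⟩, b⟩ => ⟨⟨a, fun c => Finset.disjoint_left.1 b hgS c⟩, b⟩,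
        fun ⟨⟨a, _⟩, b⟩ => ⟨⟨a, fun c => Finset.disjoint_left.1 b hfS c⟩, b⟩⟩
    have e := Finset.sum_filter_add_sum_filter_not (estOt H A g) (fun T => Disjoint S T)
      (fun T => w' T g - w g)
    have hrest : |∑ T ∈ (estOt H A g).filter (fun T => ¬ Disjoint S T), (w' T g - w g)| ≤
        4 * r * J := by
      refine (Finset.abs_sum_le_sum_abs _ _).trans ((Finset.sum_le_sum fun T hT =>
        hJb g hgA T (Finset.mem_filter.1 hT).1).trans ?_)
      rw [Finset.sum_const, nsmul_eq_mul]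
      exact mul_le_mul_of_nonneg_right (est_card_meet_le h (mem_star.2 ⟨hS1, hS2, hgS⟩)) hJ
    rw [hset]
    have hd := abs_le.1 (hLb g hgA)
    have hr' := abs_le.1 hrest
    rw [abs_le]
    constructor <;> linarith
  -- the killed part
  have h2 : |∑ S ∈ star H A f, (((O.filter fun T => ¬ Disjoint S T).card : ℝ) - 2 * r) *
      ∑ g ∈ S.erase f, w g| ≤ deg H A f * (2 * (r * ε + 1) * (2 * W)) := by
    refine est_star_sum_le f fun S hS => ?_
    rw [abs_mul]
    refine mul_le_mul ?_ (est_abs_inner_le h.lin hS hW) (abs_nonneg _) ?_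
    · rw [est_card_meet h.lin hS, ← est_sum_one h.lin hS r, ← Finset.sum_sub_distrib,
        ← est_sum_one h.lin hS (r * ε + 1)]
      refine (Finset.abs_sum_le_sum_abs _ _).trans (Finset.sum_le_sum fun z hz => ?_)
      have hd := h.dev z (est_star_erase_mem hS hz).1
      have : |deg H A z - r| ≤ r * ε := by
        have := mul_le_mul_of_nonneg_left hd hr.le
        rwa [← abs_of_pos hr, ← abs_mul, abs_of_pos hr, mul_sub, mul_div_cancel₀ _ hr.ne',
          mul_one] at this
      rw [abs_le] at this ⊢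
      constructor <;> linarith
    · have := h.e0; positivity
  have e1 : (∑ S ∈ star H A f, ∑ g ∈ S.erase f,
        ∑ T ∈ O.filter (fun T => Disjoint S T), (w' T g - w g) -
      ∑ S ∈ star H A f, ((O.filter fun T => ¬ Disjoint S T).card : ℝ) * ∑ g ∈ S.erase f, w g) / r -
      (avgOp H A r L f - 2 * r * avgOp H A r w f) =
      (∑ S ∈ star H A f, ∑ g ∈ S.erase f, (∑ T ∈ O.filter (fun T => Disjoint S T),
        (w' T g - w g) - L g) -
      ∑ S ∈ star H A f, (((O.filter fun T => ¬ Disjoint S T).card : ℝ) - 2 * r) *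
        ∑ g ∈ S.erase f, w g) / r := by
    simp only [avgOp, Finset.sum_sub_distrib, sub_mul, ← Finset.mul_sum]
    field_simp
    ring
  rw [e1, abs_div, abs_of_pos hr, div_le_iff₀ hr]
  refine (abs_sub _ _).trans ((add_le_add h1 h2).trans ?_)
  have hd := h.deg_le hf
  have b1 := mul_le_mul_of_nonneg_right hd (show 0 ≤ 2 * (E + 4 * r * J) by positivity)
  have b2 := mul_le_mul_of_nonneg_right hd
    (show 0 ≤ 2 * (r * ε + 1) * (2 * W) by have := h.e0; positivity)
  linarith

lemma est_devD_le (h : EstReg H A r ε) {f : V} (hf : f ∈ A) : |devD H A r f| ≤ 4 * ε :=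
  est_avgOp_le (w := fun g => deg H A g / r - 1) h hf h.e0 h.dev

lemma est_devD_jump (h : EstReg H A r ε) {f : V} (hf : f ∈ A) {T : Finset V}
    (hT : T ∈ estOt H A f) : |devD H (A \ T) r f - devD H A r f| ≤ 18 / r := by
  have hr := h.rpos
  refine (est_op_jump (w := fun g => deg H A g / r - 1)
    (w' := fun g => deg H (A \ T) g / r - 1) h hf hT (J := 3 / r) (by positivity) h.e0
    (fun g _ hg => ?_) h.dev).trans ?_
  · rw [sub_sub_sub_cancel_right]; exact est_deg_jump h hg
  · have := div_le_div_of_nonneg_right (show 6 * ε ≤ 6 by linarith [h.e1]) hr.le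
    linarith [show 4 * (3 / r) = 12 / r by ring, show 12 / r + 6 / r = 18 / r by ring]

/-- Drift of `D`. -/
theorem est_devD_drift (h : EstReg H A r ε) {f : V} (hf : f ∈ A) :
    |∑ T ∈ estOt H A f, (devD H (A \ T) r f - devD H A r f) + 4 * r * (deg H A f / r) +
        4 * r * devD H A r f + r * avgOp H A r (devD H A r) f| ≤ 80 + 8 * (r * ε ^ 2) := by
  have hr := h.rpos
  have hJ : r * (3 / r) = 3 := by field_simp
  have key := est_op_drift (w := fun g => deg H A g / r - 1)
    (w' := fun T g => deg H (A \ T) g / r - 1)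
    (L := fun g => (-(2 * r) + 2) * (deg H A g / r) - r * devD H A r g)
    (J := 3 / r) (E := 0) (W := ε) h hf (by positivity) le_rfl h.e0
    (fun g _ T hT => by rw [sub_sub_sub_cancel_right]; exact est_deg_jump h hT)
    (fun g _ => by
      simp only [sub_sub_sub_cancel_right]
      rw [est_deg_drift h g, abs_nonpos_iff]
      ring) h.dev
  have eL : avgOp H A r (fun g => (-(2 * r) + 2) * (deg H A g / r) - r * devD H A r g) f =
      (-(2 * r) + 2) * (devD H A r f + 2 * (deg H A f / r)) -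
        r * avgOp H A r (devD H A r) f := by
    rw [est_avgOp_sub (fun g => (-(2 * r) + 2) * (deg H A g / r)) (fun g => r * devD H A r g),
      est_avgOp_smul, est_avgOp_smul, est_avgOp_deg h.lin]
  rw [eL, hJ] at key
  have e2 : avgOp H A r (fun g => deg H A g / r - 1) f = devD H A r f := rfl
  have e3 : ∀ T, avgOp H (A \ T) r (fun g => deg H (A \ T) g / r - 1) f =
      devD H (A \ T) r f := fun T => rfl
  simp only [e2, e3] at key
  have hD := abs_le.1 (est_devD_le h hf)
  have ha := abs_le.1 (h.dev f hf)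
  have he := h.e1
  have he0 := h.e0
  rw [abs_le] at key ⊢
  constructor <;> linarith

lemma est_avgD_jump (h : EstReg H A r ε) {f : V} (hf : f ∈ A) {T : Finset V}
    (hT : T ∈ estOt H A f) :
    |avgOp H (A \ T) r (devD H (A \ T) r) f - avgOp H A r (devD H A r) f| ≤ 96 / r := by
  have hr := h.rpos
  refine (est_op_jump h hf hT (J := 18 / r) (W := 4 * ε) (by positivity) (by linarith [h.e0])
    (fun g hg hgT => est_devD_jump h hg hgT) fun g hg => est_devD_le h hg).trans ?_
  have := div_le_div_of_nonneg_right (show 6 * (4 * ε) ≤ 24 by linarith [h.e1]) hr.le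
  linarith [show 4 * (18 / r) = 72 / r by ring, show 72 / r + 24 / r = 96 / r by ring]

lemma est_devP_jump (h : EstReg H A r ε) {f : V} (hf : f ∈ A) {T : Finset V}
    (hT : T ∈ estOt H A f) : |devP H (A \ T) r f - devP H A r f| ≤ 114 / r := by
  have h1 := abs_le.1 (est_avgD_jump h hf hT)
  have h2 := abs_le.1 (est_devD_jump h hf hT)
  have e : 96 / r + 18 / r = 114 / r := by ring
  rw [devP, devP, abs_le]
  constructor <;> linarith

/-- Drift of `P = A D - D`. -/
theorem est_devP_drift (h : EstReg H A r ε) {f : V} (hf : f ∈ A) :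
    |∑ T ∈ estOt H A f, (devP H (A \ T) r f - devP H A r f) +
        6 * r * avgOp H A r (devD H A r) f + 4 * r * (deg H A f / r) +
        r * avgOp H A r (devP H A r) f| ≤ 800 + 80 * (r * ε ^ 2) := by
  have hr := h.rpos
  have hJ : r * (18 / r) = 18 := by field_simp
  have key := est_op_drift (w := devD H A r) (w' := fun T => devD H (A \ T) r)
    (L := fun g => (-(4 * r)) * (deg H A g / r) - ((4 * r) * devD H A r g +
      r * avgOp H A r (devD H A r) g))
    (J := 18 / r) (E := 80 + 8 * (r * ε ^ 2)) (W := 4 * ε) h hf (by positivity) (by positivity)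
    (by linarith [h.e0]) (fun g hg T hT => est_devD_jump h hg hT)
    (fun g hg => (le_of_eq (congrArg abs (by ring))).trans (est_devD_drift h hg))
    (fun g hg => est_devD_le h hg)
  have eL : avgOp H A r (fun g => (-(4 * r)) * (deg H A g / r) - ((4 * r) * devD H A r g +
      r * avgOp H A r (devD H A r) g)) f =
      (-(4 * r)) * (devD H A r f + 2 * (deg H A f / r)) - ((4 * r) * avgOp H A r (devD H A r) f +
        r * avgOp H A r (avgOp H A r (devD H A r)) f) := by
    rw [est_avgOp_sub (fun g => (-(4 * r)) * (deg H A g / r))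
      (fun g => (4 * r) * devD H A r g + r * avgOp H A r (devD H A r) g), est_avgOp_add,
      est_avgOp_smul, est_avgOp_smul, est_avgOp_smul, est_avgOp_deg h.lin]
  rw [eL, hJ] at key
  have eP : avgOp H A r (devP H A r) f = avgOp H A r (avgOp H A r (devD H A r)) f -
      avgOp H A r (devD H A r) f :=
    est_avgOp_sub (avgOp H A r (devD H A r)) (devD H A r) f
  have eS : ∑ T ∈ estOt H A f, (devP H (A \ T) r f - devP H A r f) =
      ∑ T ∈ estOt H A f, (avgOp H (A \ T) r (devD H (A \ T) r) f - avgOp H A r (devD H A r) f) -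
        ∑ T ∈ estOt H A f, (devD H (A \ T) r f - devD H A r f) := by
    rw [← Finset.sum_sub_distrib]
    exact Finset.sum_congr rfl fun T _ => by unfold devP; ring
  rw [eS, eP]
  have hD := est_devD_drift h hf
  have he := h.e1
  have he0 := h.e0
  have : 0 ≤ r * ε ^ 2 := by positivity
  rw [abs_le] at key hD ⊢
  constructor <;> linarith

end

end Vale.Agent.P046.Full
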