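import Mathlib
import Vale.Agent.P046.Full.EstimatesDrift

/-!
# P046: squared jumps of `D` and `A D - D` in a linear 3-graph
-/

open Finset

namespace Vale.Agent.P046.Full

open Vale.Agent.P046

noncomputable section

variable {V : Type*} [DecidableEq V] {H : Finset (Finset V)} {A : Finset V} {r ε : ℝ}

/-- Codegree of a point with the three points of a line. -/
def estN (H : Finset (Finset V)) (A : Finset V) (g : V) (T : Finset V) : ℝ :=
  ∑ z ∈ T, codeg H A g z

/-- The second-order codegree discrepancy. -/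
def estZ (H : Finset (Finset V)) (A : Finset V) (r : ℝ) (f z : V) : ℝ :=
  ∑ g ∈ nbr H A f, codeg H A g z - r * codeg H A f z

lemma est_codeg_nonneg (f z : V) : 0 ≤ codeg H A f z := Nat.cast_nonneg _

lemma est_codeg_le (h : EstReg H A r ε) {f : V} (hf : f ∈ A) (z : V) : codeg H A f z ≤ 4 * r := by
  linarith [codeg_le h.lin A f z, h.deg_le hf]

lemma est_sum_codeg (h : EstReg H A r ε) {f : V} (hf : f ∈ A) :
    ∑ z ∈ A, codeg H A f z ≤ 16 * r ^ 2 := by
  rw [sum_codeg h.lin]
  refine (Finset.sum_le_card_nsmul _ _ (4 * r) fun g hg => by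
    linarith [h.deg_le (nbr_sub A f hg)]).trans ?_
  rw [nsmul_eq_mul, card_nbr h.lin]
  have := mul_le_mul_of_nonneg_right (h.deg_le hf) h.rpos.le
  linarith

lemma est_sum_codeg_sq (h : EstReg H A r ε) {f : V} (hf : f ∈ A) :
    ∑ z ∈ A, codeg H A f z ^ 2 ≤ 64 * r ^ 3 := by
  refine (Finset.sum_le_sum (g := fun z => 4 * r * codeg H A f z) fun z _ => ?_).trans ?_
  · rw [sq]
    exact mul_le_mul_of_nonneg_right (est_codeg_le h hf z) (est_codeg_nonneg f z)
  · rw [← Finset.mul_sum]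
    have := mul_le_mul_of_nonneg_left (est_sum_codeg h hf) h.rpos.le
    linarith

lemma est_sum_abs_Z (h : EstReg H A r ε) {f : V} (hf : f ∈ A) :
    ∑ z ∈ A, |estZ H A r f z| ≤ 80 * r ^ 3 := by
  have hr := h.rpos
  have e : ∀ z, |estZ H A r f z| ≤ ∑ g ∈ nbr H A f, codeg H A g z + r * codeg H A f z := fun z => by
    have h1 : 0 ≤ ∑ g ∈ nbr H A f, codeg H A g z :=
      Finset.sum_nonneg fun g _ => est_codeg_nonneg g z
    have h2 := mul_nonneg hr.le (est_codeg_nonneg (H := H) (A := A) f z)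
    rw [estZ, abs_le]
    constructor <;> linarith
  refine (Finset.sum_le_sum fun z _ => e z).trans ?_
  rw [Finset.sum_add_distrib, Finset.sum_comm, ← Finset.mul_sum]
  have h1 : ∑ g ∈ nbr H A f, ∑ z ∈ A, codeg H A g z ≤ 2 * deg H A f * (16 * r ^ 2) := by
    refine (Finset.sum_le_card_nsmul _ _ _ fun g hg => est_sum_codeg h (nbr_sub A f hg)).trans ?_
    rw [nsmul_eq_mul, card_nbr h.lin]
  have h2 := mul_le_mul_of_nonneg_left (est_sum_codeg h hf) hr.le
  have h3 := mul_le_mul_of_nonneg_right (h.deg_le hf) (sq_nonneg r)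
  linarith

/-- `hit` is exact for a live line not through the point. -/
lemma est_hit_eq (hH : Linear H) {g : V} {T : Finset V} (hT : T ∈ H) (hg : g ∉ T) :
    (hit H A g T : ℝ) = ∑ z ∈ T, if g ∈ nbr H A z then (1 : ℝ) else 0 := by
  refine le_antisymm (hit_adj_le hH A hg) ?_
  rw [Finset.sum_boole, Nat.cast_le]
  refine Finset.card_le_card_of_forall_subsingleton (fun z S => z ∈ S) ?_ ?_
  · intro z hz
    obtain ⟨hzT, hzn⟩ := Finset.mem_filter.1 hz
    obtain ⟨-, S, hS, hzS⟩ := mem_nbr.1 (nbr_symm hzn)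
    exact ⟨S, Finset.mem_filter.2 ⟨hS, Finset.not_disjoint_iff.2 ⟨z, hzS, hzT⟩⟩, hzS⟩
  · intro S hS z hz z' hz'
    obtain ⟨hS1, -, hgS⟩ := mem_star.1 (Finset.mem_filter.1 hS).1
    by_contra hne
    exact hg (hH.eq_of_two hS1 hT hne hz.2 hz'.2 (Finset.mem_filter.1 hz.1).1
      (Finset.mem_filter.1 hz'.1).1 ▸ hgS)

lemma est_hit_sq (h : EstReg H A r ε) {f : V} (hf : f ∈ A) :
    ∑ T ∈ estOt H A f, (hit H A f T : ℝ) ^ 2 ≤ 24 * r ^ 2 := by
  refine (Finset.sum_le_sum (g := fun T => 3 * (hit H A f T : ℝ)) fun T hT => ?_).trans ?_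
  · obtain ⟨hTa, hfT⟩ := Finset.mem_filter.1 hT
    rw [sq]
    refine mul_le_mul_of_nonneg_right ?_ (Nat.cast_nonneg _)
    exact_mod_cast hit_le_three h.lin A (mem_alive.1 hTa).1 hfT
  · rw [← Finset.mul_sum, estOt, sum_hit h.lin]
    linarith [est_loss_le h hf]

/-- A sum over lines avoiding `f` of a sum over their points. -/
lemma est_sum_points (h : EstReg H A r ε) (f : V) {F : V → ℝ} (hF : ∀ z ∈ A, 0 ≤ F z) :
    ∑ T ∈ estOt H A f, ∑ z ∈ T, F z ≤ 2 * r * ∑ z ∈ A.erase f, F z := by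
  have e : ∀ T ∈ estOt H A f, ∑ z ∈ T, F z = ∑ z ∈ T, (if z = f then 0 else F z) := fun T hT =>
    Finset.sum_congr rfl fun z hz => by
      rw [if_neg]
      rintro rfl
      exact (Finset.mem_filter.1 hT).2 hz
  rw [Finset.sum_congr rfl e]
  refine (Finset.sum_le_sum_of_subset_of_nonneg (Finset.filter_subset _ _) fun T hT _ =>
    Finset.sum_nonneg fun z hz => ?_).trans ?_
  · split_ifs
    exacts [le_rfl, hF z ((mem_alive.1 hT).2 hz)]
  rw [← sum_deg A (fun z => if z = f then 0 else F z), Finset.mul_sum]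
  have e2 : ∑ z ∈ A, deg H A z * (if z = f then 0 else F z) = ∑ z ∈ A.erase f, deg H A z * F z := by
    rw [← Finset.filter_ne' A f, Finset.sum_filter]
    exact Finset.sum_congr rfl fun z _ => by split_ifs <;> simp_all
  rw [e2]
  exact Finset.sum_le_sum fun z hz => mul_le_mul_of_nonneg_right
    (h.deg_le (Finset.mem_erase.1 hz).2) (hF z (Finset.mem_erase.1 hz).2)

lemma est_sq_sum_three (hH : Linear H) {T : Finset V} (hT : T ∈ H) (F : V → ℝ) :
    (∑ z ∈ T, F z) ^ 2 ≤ 3 * ∑ z ∈ T, F z ^ 2 := by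
  have := sq_sum_le_card_mul_sum_sq (s := T) (f := F)
  rwa [hH.card3 T hT] at this

/-- Split a sum over the neighbours by survival. -/
lemma est_nbr_split (hH : Linear H) (f : V) (T : Finset V) (F : V → ℝ) :
    ∑ g ∈ nbr H A f, F g =
      ∑ S ∈ (star H A f).filter (fun S => Disjoint S T), ∑ g ∈ S.erase f, F g +
        ∑ S ∈ (star H A f).filter (fun S => ¬ Disjoint S T), ∑ g ∈ S.erase f, F g := by
  rw [sum_nbr hH, Finset.sum_filter_add_sum_filter_not]

/-- The jump of `D` at a point, to second order. -/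
lemma est_devD_jump_fine (h : EstReg H A r ε) {g : V} {T : Finset V}
    (hT : T ∈ estOt H A g) :
    |devD H (A \ T) r g - devD H A r g + estN H A g T / r ^ 2| ≤
      (hit H A g T : ℝ) * (6 / r ^ 2 + 2 * ε / r) := by
  have hr := h.rpos
  obtain ⟨hTa, hgT⟩ := Finset.mem_filter.1 hT
  have hTH := (mem_alive.1 hTa).1
  have hN : estN H A g T = ∑ g' ∈ nbr H A g, ∑ z ∈ T, (if g' ∈ nbr H A z then (1 : ℝ) else 0) := by
    rw [Finset.sum_comm, estN]
    refine Finset.sum_congr rfl fun z _ => ?_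
    rw [Finset.sum_boole, Finset.filter_mem_eq_inter, codeg, common]
  have hk : |∑ S ∈ (star H A g).filter (fun S => ¬ Disjoint S T), ∑ g' ∈ S.erase g,
      ∑ z ∈ T, (if g' ∈ nbr H A z then (1 : ℝ) else 0)| ≤ (hit H A g T : ℝ) * (2 * 3) := by
    refine est_sum_killed_le h.lin fun g' _ => ?_
    rw [Finset.sum_boole, Nat.abs_cast]
    exact_mod_cast (Finset.card_filter_le _ _).trans (h.lin.card3 T hTH).le
  have hw : |∑ S ∈ (star H A g).filter (fun S => ¬ Disjoint S T), ∑ g' ∈ S.erase g,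
      (deg H A g' / r - 1)| ≤ (hit H A g T : ℝ) * (2 * ε) := est_sum_killed_le h.lin h.dev
  have hs : ∑ S ∈ (star H A g).filter (fun S => Disjoint S T), ∑ g' ∈ S.erase g,
      ((deg H (A \ T) g' / r - 1) - (deg H A g' / r - 1)) =
      -((∑ S ∈ (star H A g).filter (fun S => Disjoint S T), ∑ g' ∈ S.erase g,
        ∑ z ∈ T, (if g' ∈ nbr H A z then (1 : ℝ) else 0)) / r) := by
    rw [Finset.sum_div, ← Finset.sum_neg_distrib]
    refine Finset.sum_congr rfl fun S hS => ?_
    rw [Finset.sum_div, ← Finset.sum_neg_distrib]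
    refine Finset.sum_congr rfl fun g' hg' => ?_
    have : g' ∉ T := fun hc => Finset.disjoint_left.1 (Finset.mem_filter.1 hS).2
      (Finset.mem_erase.1 hg').2 hc
    rw [deg_sdiff, est_hit_eq h.lin hTH this]
    ring
  have e0 : devD H (A \ T) r g - devD H A r g = _ :=
    est_op_diff (r := r) (fun g => deg H A g / r - 1) (fun g => deg H (A \ T) g / r - 1) g T
  rw [e0, hs, hN, est_nbr_split h.lin g T]
  calc _ = |(∑ S ∈ (star H A g).filter (fun S => ¬ Disjoint S T), ∑ g' ∈ S.erase g,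
          ∑ z ∈ T, (if g' ∈ nbr H A z then (1 : ℝ) else 0)) / r ^ 2 -
        (∑ S ∈ (star H A g).filter (fun S => ¬ Disjoint S T), ∑ g' ∈ S.erase g,
          (deg H A g' / r - 1)) / r| := by
        congr 1; field_simp; ring
    _ ≤ _ := by
      refine (abs_sub _ _).trans ?_
      rw [abs_div, abs_div, abs_of_pos hr, abs_of_pos (pow_pos hr 2)]
      have a := div_le_div_of_nonneg_right hk (pow_pos hr 2).le
      have b := div_le_div_of_nonneg_right hw hr.le
      calc _ ≤ _ := add_le_add a b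
        _ = _ := by ring

lemma est_estN_nonneg (g : V) (T : Finset V) : 0 ≤ estN H A g T :=
  Finset.sum_nonneg fun z _ => est_codeg_nonneg g z

lemma est_estN_le (h : EstReg H A r ε) {g : V} (hg : g ∈ A) {T : Finset V} (hT : T ∈ H) :
    estN H A g T ≤ 12 * r := by
  refine (Finset.sum_le_card_nsmul T _ (4 * r) fun z _ => est_codeg_le h hg z).trans ?_
  rw [h.lin.card3 T hT, nsmul_eq_mul]
  push_cast
  linarith

/-- Squared jumps of `D`. -/
theorem est_devD_sq (h : EstReg H A r ε) {f : V} (hf : f ∈ A) :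
    ∑ T ∈ estOt H A f, (devD H (A \ T) r f - devD H A r f) ^ 2 ≤
      5000 * (ε ^ 2 + 1 / r ^ 2) + 12 / r ^ 3 * ∑ z ∈ A.erase f, codeg H A f z ^ 2 := by
  have hr := h.rpos
  refine (Finset.sum_le_sum (g := fun T => 2 * (hit H A f T : ℝ) ^ 2 * (6 / r ^ 2 + 2 * ε / r) ^ 2 +
    6 / r ^ 4 * ∑ z ∈ T, codeg H A f z ^ 2) fun T hT => ?_).trans ?_
  · obtain ⟨hTa, -⟩ := Finset.mem_filter.1 hT
    have h1 := est_devD_jump_fine h hT
    have h2 := est_sq_sum_three h.lin (mem_alive.1 hTa).1 (codeg H A f)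
    have h3 : (devD H (A \ T) r f - devD H A r f + estN H A f T / r ^ 2) ^ 2 ≤
        ((hit H A f T : ℝ) * (6 / r ^ 2 + 2 * ε / r)) ^ 2 := by
      rw [← sq_abs]; exact pow_le_pow_left₀ (abs_nonneg _) h1 2
    have h4 : (estN H A f T / r ^ 2) ^ 2 ≤ 3 / r ^ 4 * ∑ z ∈ T, codeg H A f z ^ 2 := by
      rw [div_pow, div_mul_eq_mul_div, ← pow_mul]
      exact div_le_div_of_nonneg_right h2 (by positivity)
    have h5 : (devD H (A \ T) r f - devD H A r f) ^ 2 ≤
        2 * (devD H (A \ T) r f - devD H A r f + estN H A f T / r ^ 2) ^ 2 +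
          2 * (estN H A f T / r ^ 2) ^ 2 := by
      nlinarith [sq_nonneg (devD H (A \ T) r f - devD H A r f + 2 * (estN H A f T / r ^ 2))]
    rw [mul_pow] at h3
    linarith [show 6 / r ^ 4 * ∑ z ∈ T, codeg H A f z ^ 2 =
      2 * (3 / r ^ 4 * ∑ z ∈ T, codeg H A f z ^ 2) by ring]
  · rw [Finset.sum_add_distrib, ← Finset.sum_mul, ← Finset.mul_sum, ← Finset.mul_sum]
    refine add_le_add ?_ ?_
    · refine (mul_le_mul_of_nonneg_right (mul_le_mul_of_nonneg_left (est_hit_sq h hf) zero_le_two)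
        (sq_nonneg _)).trans ?_
      have e : 2 * (24 * r ^ 2) * (6 / r ^ 2 + 2 * ε / r) ^ 2 = 48 * (6 / r + 2 * ε) ^ 2 := by
        field_simp; ring
      rw [e, one_div, ← inv_pow, div_eq_mul_inv]
      nlinarith [sq_nonneg (6 * r⁻¹ - 2 * ε), sq_nonneg ε, sq_nonneg r⁻¹]
    · refine (mul_le_mul_of_nonneg_left (est_sum_points h f fun z _ => sq_nonneg _)
        (by positivity)).trans (le_of_eq ?_)
      field_simp
      ring

/-- The jump of `P`, to second order. -/
lemma est_devP_jump_fine (h : EstReg H A r ε) {f : V} {T : Finset V}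
    (hT : T ∈ estOt H A f) :
    |devP H (A \ T) r f - devP H A r f + (∑ z ∈ T, estZ H A r f z) / r ^ 3| ≤
      (estN H A f T / r + (hit H A f T : ℝ)) * (30 * (1 / r ^ 2 + ε / r)) := by
  have hr := h.rpos
  obtain ⟨hTa, hfT⟩ := Finset.mem_filter.1 hT
  have hTH := (mem_alive.1 hTa).1
  have hZ : ∑ z ∈ T, estZ H A r f z = ∑ g ∈ nbr H A f, estN H A g T - r * estN H A f T := by
    simp only [estZ, estN, Finset.sum_sub_distrib, ← Finset.mul_sum]
    rw [Finset.sum_comm]
  -- the first average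
  have h1 : |∑ S ∈ (star H A f).filter (fun S => Disjoint S T), ∑ g ∈ S.erase f,
      (devD H (A \ T) r g - devD H A r g + estN H A g T / r ^ 2)| ≤
      estN H A f T * (6 / r ^ 2 + 2 * ε / r) := by
    refine (Finset.abs_sum_le_sum_abs _ _).trans ((Finset.sum_le_sum fun S hS =>
      (Finset.abs_sum_le_sum_abs _ _).trans (Finset.sum_le_sum
        (g := fun g => (∑ z ∈ T, if g ∈ nbr H A z then (1 : ℝ) else 0) * (6 / r ^ 2 + 2 * ε / r))
        fun g hg => ?_)).trans ?_)
    · have hgT : g ∉ T := fun hc => Finset.disjoint_left.1 (Finset.mem_filter.1 hS).2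
        (Finset.mem_erase.1 hg).2 hc
      rw [← est_hit_eq h.lin hTH hgT]
      exact est_devD_jump_fine h (Finset.mem_filter.2 ⟨hTa, hgT⟩)
    · have hc : 0 ≤ 6 / r ^ 2 + 2 * ε / r := by have := h.e0; positivity
      simp only [← Finset.sum_mul]
      refine mul_le_mul_of_nonneg_right ?_ hc
      refine (Finset.sum_le_sum_of_subset_of_nonneg (Finset.filter_subset _ _)
        fun S _ _ => Finset.sum_nonneg fun g _ => Finset.sum_nonneg fun z _ => by
          split_ifs <;> norm_num).trans (le_of_eq ?_)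
      rw [← sum_nbr h.lin, Finset.sum_comm, estN]
      refine Finset.sum_congr rfl fun z _ => ?_
      rw [Finset.sum_boole, Finset.filter_mem_eq_inter, codeg, common]
  have h2 : |∑ S ∈ (star H A f).filter (fun S => ¬ Disjoint S T), ∑ g ∈ S.erase f,
      estN H A g T| ≤ (hit H A f T : ℝ) * (2 * (12 * r)) := est_sum_killed_le h.lin fun g hg => by
    rw [abs_of_nonneg (est_estN_nonneg g T)]
    exact est_estN_le h hg hTH
  have h3 : |∑ S ∈ (star H A f).filter (fun S => ¬ Disjoint S T), ∑ g ∈ S.erase f,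
      devD H A r g| ≤ (hit H A f T : ℝ) * (2 * (4 * ε)) :=
    est_sum_killed_le h.lin fun g hg => est_devD_le h hg
  have h4 := est_devD_jump_fine h hT
  have e0 := est_op_diff (H := H) (A := A) (r := r) (devD H A r) (devD H (A \ T) r) f T
  have e1 : devP H (A \ T) r f - devP H A r f + (∑ z ∈ T, estZ H A r f z) / r ^ 3 =
      (∑ S ∈ (star H A f).filter (fun S => Disjoint S T), ∑ g ∈ S.erase f,
        (devD H (A \ T) r g - devD H A r g + estN H A g T / r ^ 2)) / r +
      (∑ S ∈ (star H A f).filter (fun S => ¬ Disjoint S T), ∑ g ∈ S.erase f,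
        estN H A g T) / r ^ 3 -
      (∑ S ∈ (star H A f).filter (fun S => ¬ Disjoint S T), ∑ g ∈ S.erase f,
        devD H A r g) / r -
      (devD H (A \ T) r f - devD H A r f + estN H A f T / r ^ 2) := by
    have : devP H (A \ T) r f - devP H A r f =
        avgOp H (A \ T) r (devD H (A \ T) r) f - avgOp H A r (devD H A r) f -
          (devD H (A \ T) r f - devD H A r f) := by unfold devP; ring
    rw [this, e0, hZ, est_nbr_split h.lin f T]
    simp only [Finset.sum_add_distrib, ← Finset.sum_div]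
    field_simp
    ring
  rw [e1]
  refine (abs_sub _ _).trans ((add_le_add ((abs_sub _ _).trans
    (add_le_add (abs_add_le _ _) le_rfl)) h4).trans ?_)
  rw [abs_div, abs_div, abs_div, abs_of_pos hr, abs_of_pos (pow_pos hr 3)]
  refine (add_le_add (add_le_add (add_le_add (div_le_div_of_nonneg_right h1 hr.le)
    (div_le_div_of_nonneg_right h2 (pow_pos hr 3).le))
    (div_le_div_of_nonneg_right h3 hr.le)) le_rfl).trans ?_
  have hN := est_estN_nonneg (H := H) (A := A) f T
  have he := h.e0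
  have e2 : (estN H A f T / r + (hit H A f T : ℝ)) * (30 * (1 / r ^ 2 + ε / r)) -
      (estN H A f T * (6 / r ^ 2 + 2 * ε / r) / r + (hit H A f T : ℝ) * (2 * (12 * r)) / r ^ 3 +
        (hit H A f T : ℝ) * (2 * (4 * ε)) / r + (hit H A f T : ℝ) * (6 / r ^ 2 + 2 * ε / r)) =
      estN H A f T / r * (24 / r ^ 2 + 28 * ε / r) + (hit H A f T : ℝ) * (20 * ε / r) := by
    field_simp
    ring
  have : 0 ≤ estN H A f T / r * (24 / r ^ 2 + 28 * ε / r) + (hit H A f T : ℝ) * (20 * ε / r) := by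
    positivity
  linarith

/-- Squared jumps of `P`. -/
theorem est_devP_sq (h : EstReg H A r ε) {f : V} (hf : f ∈ A) :
    ∑ T ∈ estOt H A f, (devP H (A \ T) r f - devP H A r f) ^ 2 ≤
      3000000 * (ε ^ 2 + 1 / r ^ 2) + 12 / r ^ 5 * ∑ z ∈ A.erase f, estZ H A r f z ^ 2 := by
  have hr := h.rpos
  refine (Finset.sum_le_sum (g := fun T =>
    4 * (30 * (1 / r ^ 2 + ε / r)) ^ 2 *
      (3 / r ^ 2 * ∑ z ∈ T, codeg H A f z ^ 2 + (hit H A f T : ℝ) ^ 2) +
    6 / r ^ 6 * ∑ z ∈ T, estZ H A r f z ^ 2) fun T hT => ?_).trans ?_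
  · obtain ⟨hTa, -⟩ := Finset.mem_filter.1 hT
    have h1 := est_devP_jump_fine h hT
    have h2 : (estN H A f T / r) ^ 2 ≤ 3 / r ^ 2 * ∑ z ∈ T, codeg H A f z ^ 2 := by
      rw [div_pow, div_mul_eq_mul_div]
      exact div_le_div_of_nonneg_right (est_sq_sum_three h.lin (mem_alive.1 hTa).1 (codeg H A f))
        (by positivity)
    have h3 : ((∑ z ∈ T, estZ H A r f z) / r ^ 3) ^ 2 ≤
        3 / r ^ 6 * ∑ z ∈ T, estZ H A r f z ^ 2 := by
      rw [div_pow, div_mul_eq_mul_div, ← pow_mul]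
      exact div_le_div_of_nonneg_right (est_sq_sum_three h.lin (mem_alive.1 hTa).1 (estZ H A r f))
        (by positivity)
    have h4 := pow_le_pow_left₀ (abs_nonneg _) h1 2
    rw [sq_abs, mul_pow] at h4
    have h5 : (devP H (A \ T) r f - devP H A r f) ^ 2 ≤
        2 * (devP H (A \ T) r f - devP H A r f + (∑ z ∈ T, estZ H A r f z) / r ^ 3) ^ 2 +
          2 * ((∑ z ∈ T, estZ H A r f z) / r ^ 3) ^ 2 := by
      nlinarith [sq_nonneg
        (devP H (A \ T) r f - devP H A r f + 2 * ((∑ z ∈ T, estZ H A r f z) / r ^ 3))]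
    have h6 : (estN H A f T / r + (hit H A f T : ℝ)) ^ 2 ≤
        2 * (3 / r ^ 2 * ∑ z ∈ T, codeg H A f z ^ 2 + (hit H A f T : ℝ) ^ 2) := by
      nlinarith [sq_nonneg (estN H A f T / r - (hit H A f T : ℝ))]
    have h7 := mul_le_mul_of_nonneg_right h6 (sq_nonneg (30 * (1 / r ^ 2 + ε / r)))
    linarith [show 6 / r ^ 6 * ∑ z ∈ T, estZ H A r f z ^ 2 =
      2 * (3 / r ^ 6 * ∑ z ∈ T, estZ H A r f z ^ 2) by ring]
  · simp only [Finset.sum_add_distrib, ← Finset.mul_sum]
    refine add_le_add ?_ ?_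
    · have a : ∑ T ∈ estOt H A f, ∑ z ∈ T, codeg H A f z ^ 2 ≤ 128 * r ^ 4 := by
        refine (est_sum_points h f fun z _ => sq_nonneg _).trans ?_
        have := (Finset.sum_le_sum_of_subset_of_nonneg (Finset.erase_subset f A)
          (fun z _ _ => sq_nonneg (codeg H A f z))).trans (est_sum_codeg_sq h hf)
        have := mul_le_mul_of_nonneg_left this hr.le
        linarith
      refine (mul_le_mul_of_nonneg_left (add_le_add (mul_le_mul_of_nonneg_left a (by positivity))
        (est_hit_sq h hf)) (by positivity)).trans ?_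
      have e : 4 * (30 * (1 / r ^ 2 + ε / r)) ^ 2 * (3 / r ^ 2 * (128 * r ^ 4) + 24 * r ^ 2) =
          1468800 * (1 / r + ε) ^ 2 := by
        field_simp; ring
      rw [e, one_div, one_div, ← inv_pow]
      nlinarith [sq_nonneg (r⁻¹ - ε), sq_nonneg ε, sq_nonneg r⁻¹]
    · refine (mul_le_mul_of_nonneg_left (est_sum_points h f fun z _ => sq_nonneg _)
        (by positivity)).trans (le_of_eq ?_)
      field_simp
      ring

end

end Vale.Agent.P046.Full
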