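import Mathlib
import Vale.Agent.P046.Full.EstimatesQuad

/-!
# P046: codegrees of edges of the complete graph and the triple-codegree drift
-/

open Finset

namespace Vale.Agent.P046.Full

open Vale.Agent.P046

noncomputable section

variable {n : ℕ} {A : Finset (Edge n)} {r ε κ δ : ℝ}

/-- The pair `a, b` is a live edge. -/
abbrev estAdj (A : Finset (Edge n)) (a b : Fin n) : Prop := ∃ e ∈ A, e.1 = {a, b}

/-- The common live neighbours of three vertices. -/
def estS (A : Finset (Edge n)) (x y z : Fin n) : Finset (Fin n) :=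
  Finset.univ.filter fun w => estAdj A x w ∧ estAdj A y w ∧ estAdj A z w

lemma est_codeg3_eq (A : Finset (Edge n)) (x y z : Fin n) :
    codeg3 A x y z = ((estS A x y z).card : ℝ) := rfl

lemma est_mem_S {x y z w : Fin n} :
    w ∈ estS A x y z ↔ estAdj A x w ∧ estAdj A y w ∧ estAdj A z w := by simp [estS]

lemma est_pair_ne {e : Edge n} {a b : Fin n} (h : e.1 = {a, b}) : a ≠ b := by
  rintro rfl
  have := e.2
  rw [h] at this
  simp at this

lemma est_adj_ne {a b : Fin n} (h : estAdj A a b) : a ≠ b := by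
  obtain ⟨e, -, he⟩ := h
  exact est_pair_ne he

lemma est_adj_comm {a b : Fin n} (h : estAdj A a b) : estAdj A b a := by
  obtain ⟨e, h1, he⟩ := h
  exact ⟨e, h1, he.trans (Finset.pair_comm a b)⟩

lemma est_pair_of_mem {e : Edge n} {a : Fin n} (ha : a ∈ e.1) : ∃ b, e.1 = {a, b} := by
  obtain ⟨p, q, -, h⟩ := Finset.card_eq_two.1 e.2
  rw [h, Finset.mem_insert, Finset.mem_singleton] at ha
  rcases ha with rfl | rfl
  · exact ⟨q, h⟩
  · exact ⟨p, h.trans (Finset.pair_comm p a)⟩

lemma est_pair_inj {x u v : Fin n} (hu : x ≠ u) (h : ({x, u} : Finset (Fin n)) = {x, v}) : u = v := by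
  have : u ∈ ({x, v} : Finset (Fin n)) := h ▸ by simp
  simpa [Ne.symm hu] using this

lemma est_sub3 {x y u : Fin n} {e : Edge n} (h : e.1 ⊆ {x, y, u}) :
    e.1 = {x, y} ∨ e.1 = {x, u} ∨ e.1 = {y, u} := by
  obtain ⟨a, b, hne, he⟩ := Finset.card_eq_two.1 e.2
  rw [he] at h ⊢
  have ha := h (Finset.mem_insert_self a {b})
  have hb := h (Finset.mem_insert_of_mem (Finset.mem_singleton_self b))
  simp only [Finset.mem_insert, Finset.mem_singleton] at ha hb
  rcases ha with rfl | rfl | rfl <;> rcases hb with rfl | rfl | rfl <;>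
    simp_all [Finset.pair_comm]

lemma est_union_card {e e' : Edge n} (h : e ≠ e') : 3 ≤ (e.1 ∪ e'.1).card := by
  by_contra hlt
  have h1 : e.1 = e.1 ∪ e'.1 :=
    Finset.eq_of_subset_of_card_le Finset.subset_union_left (by rw [e.2]; omega)
  have h2 : e'.1 = e.1 ∪ e'.1 :=
    Finset.eq_of_subset_of_card_le Finset.subset_union_right (by rw [e'.2]; omega)
  exact h (Subtype.ext (h1.trans h2.symm))

lemma est_mem_triangles {T : Finset (Edge n)} : T ∈ triangles n ↔
    ∃ t : Finset (Fin n), t.card = 3 ∧ Finset.univ.filter (fun e : Edge n => e.1 ⊆ t) = T := by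
  simp [triangles, Finset.mem_powersetCard]

lemma est_triangles_linear (n : ℕ) : Linear (triangles n) := by
  refine ⟨fun T hT => ?_, fun T hT T' hT' hne => ?_⟩
  · obtain ⟨t, ht, rfl⟩ := est_mem_triangles.1 hT
    have e : (Finset.univ.filter fun e : Edge n => e.1 ⊆ t).image Subtype.val =
        t.powersetCard 2 := by
      ext s
      simp only [Finset.mem_image, Finset.mem_filter, Finset.mem_univ, true_and,
        Finset.mem_powersetCard]
      exact ⟨by rintro ⟨e, he, rfl⟩; exact ⟨he, e.2⟩, fun ⟨a, b⟩ => ⟨⟨s, b⟩, a, rfl⟩⟩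
    rw [← Finset.card_image_of_injective _ Subtype.val_injective, e, Finset.card_powersetCard, ht]
    rfl
  · obtain ⟨t, ht, rfl⟩ := est_mem_triangles.1 hT
    obtain ⟨t', ht', rfl⟩ := est_mem_triangles.1 hT'
    rw [Finset.card_le_one]
    intro e he e' he'
    simp only [Finset.mem_inter, Finset.mem_filter, Finset.mem_univ, true_and] at he he'
    by_contra hee
    have h3 := est_union_card hee
    have a := Finset.eq_of_subset_of_card_le (Finset.union_subset he.1 he'.1) (by omega)
    have b := Finset.eq_of_subset_of_card_le (Finset.union_subset he.2 he'.2) (by omega)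
    exact hne (by rw [← a, b])

lemma est_mem_nbr {f g : Edge n} (h : g ∈ nbr (triangles n) A f) :
    g ≠ f ∧ (f.1 ∪ g.1).card = 3 ∧ ∀ e : Edge n, e.1 ⊆ f.1 ∪ g.1 → e ∈ A := by
  obtain ⟨hne, T, hT, hgT⟩ := mem_nbr.1 h
  obtain ⟨hT1, hT2, hfT⟩ := mem_star.1 hT
  obtain ⟨t, ht, rfl⟩ := est_mem_triangles.1 hT1
  simp only [Finset.mem_filter, Finset.mem_univ, true_and] at hfT hgT
  have h3 := est_union_card hne.symm
  have e := Finset.eq_of_subset_of_card_le (Finset.union_subset hfT hgT) (by omega)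
  refine ⟨hne, by rw [e, ht], fun d hd => hT2 ?_⟩
  simpa [← e] using hd

lemma est_nbr_meet {f g : Edge n} (h : g ∈ nbr (triangles n) A f) : ¬ Disjoint f.1 g.1 := by
  intro hd
  have := (est_mem_nbr h).2.1
  rw [Finset.card_union_of_disjoint hd, f.2, g.2] at this
  omega

lemma est_nbr_share {f g : Edge n} {x y u : Fin n} (hf : f.1 = {x, y}) (hg : g.1 = {x, u}) :
    g ∈ nbr (triangles n) A f ↔ f ∈ A ∧ g ∈ A ∧ u ≠ y ∧ estAdj A y u := by
  constructor
  · intro h
    obtain ⟨hne, -, hA⟩ := est_mem_nbr h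
    have huy : u ≠ y := fun e => hne (Subtype.ext (by rw [hg, hf, e]))
    refine ⟨hA f Finset.subset_union_left, hA g Finset.subset_union_right, huy,
      ⟨{y, u}, Finset.card_pair huy.symm⟩, hA _ ?_, rfl⟩
    intro a ha
    simp only [Finset.mem_insert, Finset.mem_singleton] at ha
    rcases ha with rfl | rfl <;> simp [hf, hg]
  · rintro ⟨hfA, hgA, huy, e3, he3A, he3⟩
    have hxy := est_pair_ne hf
    have hxu := est_pair_ne hg
    refine mem_nbr.2 ⟨fun e => huy ?_, Finset.univ.filter (fun e : Edge n => e.1 ⊆ {x, y, u}),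
      mem_star.2 ⟨est_mem_triangles.2 ⟨_, Finset.card_eq_three.2 ⟨x, y, u, hxy, hxu, huy.symm, rfl⟩,
        rfl⟩, ?_, ?_⟩, ?_⟩
    · exact est_pair_inj hxu (by rw [← hf, ← hg, e])
    · intro d hd
      rcases est_sub3 (Finset.mem_filter.1 hd).2 with h | h | h
      · rwa [Subtype.ext (h.trans hf.symm)]
      · rwa [Subtype.ext (h.trans hg.symm)]
      · rwa [Subtype.ext (h.trans he3.symm)]
    · simp [hf, Finset.subset_iff]
    · simp [hg, Finset.subset_iff]

/-- The codegree of two edges with a common vertex is their triple codegree. -/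
lemma est_codeg_share {f z : Edge n} {x y w : Fin n} (hf : f.1 = {x, y}) (hz : z.1 = {x, w})
    (hfA : f ∈ A) (hzA : z ∈ A) (hyw : y ≠ w) :
    codeg3 A x y w ≤ codeg (triangles n) A f z ∧
      codeg (triangles n) A f z ≤ codeg3 A x y w + 1 := by
  have hinj : Set.InjOn (fun u => ({x, u} : Finset (Fin n))) (estS A x y w : Set (Fin n)) := by
    intro u hu v _ h
    exact est_pair_inj (est_adj_ne (est_mem_S.1 hu).1) h
  have hlo : (estS A x y w).image (fun u => ({x, u} : Finset (Fin n))) ⊆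
      (common (triangles n) A f z).image Subtype.val := by
    intro s hs
    obtain ⟨u, hu, rfl⟩ := Finset.mem_image.1 hs
    obtain ⟨⟨g, hgA, hg⟩, h2, h3⟩ := est_mem_S.1 hu
    refine Finset.mem_image.2 ⟨g, Finset.mem_inter.2 ⟨?_, ?_⟩, hg⟩
    · exact (est_nbr_share hf hg).2 ⟨hfA, hgA, (est_adj_ne h2).symm, h2⟩
    · exact (est_nbr_share hz hg).2 ⟨hzA, hgA, (est_adj_ne h3).symm, h3⟩
  have hhi : (common (triangles n) A f z).image Subtype.val ⊆
      insert {y, w} ((estS A x y w).image (fun u => ({x, u} : Finset (Fin n)))) := by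
    intro s hs
    obtain ⟨g, hg, rfl⟩ := Finset.mem_image.1 hs
    obtain ⟨h1, h2⟩ := Finset.mem_inter.1 hg
    by_cases hx : x ∈ g.1
    · obtain ⟨u, hu⟩ := est_pair_of_mem hx
      obtain ⟨-, hgA, -, a1⟩ := (est_nbr_share hf hu).1 h1
      obtain ⟨-, -, -, a2⟩ := (est_nbr_share hz hu).1 h2
      exact Finset.mem_insert_of_mem
        (Finset.mem_image.2 ⟨u, est_mem_S.2 ⟨⟨g, hgA, hu⟩, a1, a2⟩, hu.symm⟩)
    · obtain ⟨p, hp, hp'⟩ := Finset.not_disjoint_iff.1 (est_nbr_meet h1)
      obtain ⟨q, hq, hq'⟩ := Finset.not_disjoint_iff.1 (est_nbr_meet h2)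
      have hpy : p = y := by
        rw [hf, Finset.mem_insert, Finset.mem_singleton] at hp
        rcases hp with rfl | rfl
        exacts [absurd hp' hx, rfl]
      have hqw : q = w := by
        rw [hz, Finset.mem_insert, Finset.mem_singleton] at hq
        rcases hq with rfl | rfl
        exacts [absurd hq' hx, rfl]
      subst hpy hqw
      refine Finset.mem_insert.2 (Or.inl (Finset.eq_of_subset_of_card_le ?_ ?_).symm)
      · simp [Finset.subset_iff, hp', hq']
      · rw [g.2, Finset.card_pair hyw]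
  rw [est_codeg3_eq, codeg]
  refine ⟨?_, ?_⟩
  · rw [← Finset.card_image_of_injOn hinj, Nat.cast_le]
    exact (Finset.card_le_card hlo).trans Finset.card_image_le
  · rw [← Finset.card_image_of_injective _ Subtype.val_injective]
    refine (Nat.cast_le.2 (Finset.card_le_card hhi)).trans ?_
    refine (Nat.cast_le.2 ((Finset.card_insert_le _ _).trans
      (Nat.add_le_add_right Finset.card_image_le 1))).trans ?_
    push_cast
    linarith

/-- Edges meeting two disjoint edges. -/
lemma est_meet_two {f z : Edge n} (hd : Disjoint f.1 z.1) {S : Finset (Edge n)}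
    (h : ∀ g ∈ S, ¬ Disjoint f.1 g.1 ∧ ¬ Disjoint z.1 g.1) : S.card ≤ 4 := by
  have hsub : S.image Subtype.val ⊆ (f.1 ×ˢ z.1).image (fun p => ({p.1, p.2} : Finset (Fin n))) := by
    intro s hs
    obtain ⟨g, hg, rfl⟩ := Finset.mem_image.1 hs
    obtain ⟨a, ha, ha'⟩ := Finset.not_disjoint_iff.1 (h g hg).1
    obtain ⟨b, hb, hb'⟩ := Finset.not_disjoint_iff.1 (h g hg).2
    refine Finset.mem_image.2 ⟨(a, b), Finset.mem_product.2 ⟨ha, hb⟩,
      Finset.eq_of_subset_of_card_le ?_ ?_⟩
    · simp [Finset.subset_iff, ha', hb']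
    · have : a ≠ b := fun e => Finset.disjoint_left.1 hd ha (e ▸ hb)
      rw [g.2, Finset.card_pair this]
  rw [← Finset.card_image_of_injective S Subtype.val_injective]
  refine (Finset.card_le_card hsub).trans (Finset.card_image_le.trans ?_)
  rw [Finset.card_product, f.2, z.2]

lemma est_codeg_disjoint {f z : Edge n} (hd : Disjoint f.1 z.1) :
    codeg (triangles n) A f z ≤ 4 := by
  unfold codeg
  exact_mod_cast est_meet_two (S := common (triangles n) A f z) hd fun g hg =>
    ⟨est_nbr_meet (Finset.mem_inter.1 hg).1, est_nbr_meet (Finset.mem_inter.1 hg).2⟩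

lemma est_share_cases {f z : Edge n} (hne : z ≠ f) (hd : ¬ Disjoint f.1 z.1) :
    ∃ x y w, f.1 = {x, y} ∧ z.1 = {x, w} ∧ y ≠ w := by
  obtain ⟨x, hx, hx'⟩ := Finset.not_disjoint_iff.1 hd
  obtain ⟨y, hy⟩ := est_pair_of_mem hx
  obtain ⟨w, hw⟩ := est_pair_of_mem hx'
  exact ⟨x, y, w, hy, hw, fun e => hne (Subtype.ext (by rw [hy, hw, e]))⟩

/-- The third vertex of a line at an edge. -/
lemma est_star_line {f : Edge n} {x y : Fin n} (hf : f.1 = {x, y}) {T : Finset (Edge n)}
    (hT : T ∈ star (triangles n) A f) :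
    ∃ u, ∃ g1 g2 : Edge n, g1.1 = {x, u} ∧ g2.1 = {y, u} ∧ g1 ≠ g2 ∧ g1 ∈ A ∧ g2 ∈ A ∧
      u ≠ x ∧ u ≠ y ∧ T.erase f = {g1, g2} := by
  obtain ⟨hT1, hT2, hfT⟩ := mem_star.1 hT
  obtain ⟨t, ht, rfl⟩ := est_mem_triangles.1 hT1
  simp only [Finset.mem_filter, Finset.mem_univ, true_and] at hfT
  have hxy := est_pair_ne hf
  obtain ⟨u, hu⟩ := Finset.card_eq_one.1
    (show (t \ f.1).card = 1 by rw [Finset.card_sdiff_of_subset hfT, ht, f.2])
  have hut : u ∈ t ∧ u ∉ f.1 := Finset.mem_sdiff.1 (hu ▸ Finset.mem_singleton_self u)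
  have hux : u ≠ x := fun e => hut.2 (by simp [hf, e])
  have huy : u ≠ y := fun e => hut.2 (by simp [hf, e])
  have hxt : x ∈ t := hfT (by simp [hf])
  have hyt : y ∈ t := hfT (by simp [hf])
  have ht3 : t = {x, y, u} := (Finset.eq_of_subset_of_card_le
    (by simp [Finset.subset_iff, hxt, hyt, hut.1])
    (by rw [ht, Finset.card_eq_three.2 ⟨x, y, u, hxy, hux.symm, huy.symm, rfl⟩])).symm
  refine ⟨u, ⟨{x, u}, Finset.card_pair hux.symm⟩, ⟨{y, u}, Finset.card_pair huy.symm⟩, rfl, rfl,
    ?_, ?_, ?_, hux, huy, ?_⟩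
  · intro e
    exact hxy (est_pair_inj hux ((Finset.pair_comm u x).trans
      ((congrArg Subtype.val e).trans (Finset.pair_comm y u))))
  · exact hT2 (by simp [Finset.subset_iff, hxt, hut.1])
  · exact hT2 (by simp [Finset.subset_iff, hyt, hut.1])
  · ext d
    simp only [Finset.mem_erase, Finset.mem_filter, Finset.mem_univ, true_and, Finset.mem_insert,
      Finset.mem_singleton]
    constructor
    · rintro ⟨hdf, hd⟩
      rcases est_sub3 (ht3 ▸ hd) with h | h | h
      exacts [absurd (Subtype.ext (h.trans hf.symm)) hdf, Or.inl (Subtype.ext h),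
        Or.inr (Subtype.ext h)]
    · rintro (rfl | rfl) <;> refine ⟨fun e => hut.2 ?_, by simp [Finset.subset_iff, hxt, hyt, hut.1]⟩ <;>
        rw [← e] <;> simp

/-- Degrees `r (1 ± ε)` and triple codegrees `κ ± δ`. -/
structure EstGraph (A : Finset (Edge n)) (r ε κ δ : ℝ) : Prop where
  reg : EstReg (triangles n) A r ε
  k0 : 0 ≤ κ
  d0 : 0 ≤ δ
  ek : ε * κ ≤ δ
  k : ∀ x y z : Fin n, x ≠ y → x ≠ z → y ≠ z → |codeg3 A x y z - κ| ≤ δ

lemma est_Z_share (h : EstGraph A r ε κ δ) {f z : Edge n} {x y w : Fin n} (hf : f.1 = {x, y})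
    (hz : z.1 = {x, w}) (hfA : f ∈ A) (hzA : z ∈ A) (hyw : y ≠ w) :
    |estZ (triangles n) A r f z| ≤ r * (7 * δ + 24) := by
  have hr := h.reg.rpos
  have hxy := est_pair_ne hf
  have hxw := est_pair_ne hz
  set H := triangles n
  set K := codeg3 A x y w with hKdef
  have hK := abs_le.1 (h.k x y w hxy hxw hyw)
  have hc := est_codeg_share hf hz hfA hzA hyw
  have hc4 := est_codeg_le h.reg hfA z
  have hK0 : 0 ≤ K := Nat.cast_nonneg _
  have hone : ((star H A f).filter (fun T => z ∈ T)).card ≤ 1 := by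
    rw [Finset.card_le_one]
    intro T hT T' hT'
    obtain ⟨a1, -, a3⟩ := mem_star.1 (Finset.mem_filter.1 hT).1
    obtain ⟨b1, -, b3⟩ := mem_star.1 (Finset.mem_filter.1 hT').1
    refine h.reg.lin.eq_of_two a1 b1 (fun e => hyw ?_) a3 (Finset.mem_filter.1 hT).2 b3
      (Finset.mem_filter.1 hT').2
    exact est_pair_inj hxy (by rw [← hf, ← hz, e])
  have hT : ∀ T ∈ star H A f, |∑ g ∈ T.erase f, codeg H A g z - K| ≤
      (2 * δ + 5) + 8 * r * (if z ∈ T then 1 else 0) := by
    intro T hT
    obtain ⟨u, g1, g2, hg1, hg2, hne, hg1A, hg2A, hux, huy, he⟩ := est_star_line hf hT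
    rw [he, Finset.sum_pair hne]
    by_cases hzT : z ∈ T
    · rw [if_pos hzT]
      have a1 := est_codeg_le h.reg hg1A z
      have a2 := est_codeg_le h.reg hg2A z
      have b1 := est_codeg_nonneg (H := H) (A := A) g1 z
      have b2 := est_codeg_nonneg (H := H) (A := A) g2 z
      have := h.d0
      rw [abs_le]
      constructor <;> linarith
    · have hg1T : g1 ∈ T := (Finset.mem_erase.1 (he ▸ Finset.mem_insert_self g1 {g2})).2
      have huw : u ≠ w := fun e => hzT
        ((Subtype.ext (by rw [hz, hg1, e]) : z = g1) ▸ hg1T)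
      rw [if_neg hzT, mul_zero, add_zero]
      have a := est_codeg_share hg1 hz hg1A hzA huw
      have b := est_codeg_disjoint (A := A) (f := g2) (z := z) (by
        simp [hg2, hz, Finset.disjoint_left, hxy.symm, hux, hyw, huw])
      have b0 := est_codeg_nonneg (H := H) (A := A) g2 z
      have c := abs_le.1 (h.k x u w hux.symm hxw huw)
      rw [abs_le]
      constructor <;> linarith
  have hsum : |∑ T ∈ star H A f, (∑ g ∈ T.erase f, codeg H A g z - K)| ≤
      deg H A f * (2 * δ + 5) + 8 * r := by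
    refine (Finset.abs_sum_le_sum_abs _ _).trans ((Finset.sum_le_sum hT).trans ?_)
    rw [Finset.sum_add_distrib, Finset.sum_const, nsmul_eq_mul, ← Finset.mul_sum, Finset.sum_boole]
    refine add_le_add le_rfl (mul_le_of_le_one_right (by linarith) ?_)
    exact_mod_cast hone
  have hZ : estZ H A r f z = ∑ T ∈ star H A f, (∑ g ∈ T.erase f, codeg H A g z - K) +
      (deg H A f - r) * K - r * (codeg H A f z - K) := by
    rw [estZ, sum_nbr h.reg.lin, Finset.sum_sub_distrib, Finset.sum_const, nsmul_eq_mul, deg]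
    ring
  have hd : |deg H A f - r| ≤ r * ε := by
    have e : deg H A f - r = r * (deg H A f / r - 1) := by field_simp
    rw [e, abs_mul, abs_of_pos hr]
    exact mul_le_mul_of_nonneg_left (h.reg.dev f hfA) hr.le
  have h1 : |(deg H A f - r) * K| ≤ 2 * (r * δ) := by
    rw [abs_mul, abs_of_nonneg hK0]
    refine (mul_le_mul hd (show K ≤ κ + δ by linarith) hK0 (by have := h.reg.e0; positivity)).trans ?_
    have a := mul_le_mul_of_nonneg_left h.ek hr.le
    have b := mul_le_mul_of_nonneg_left (mul_le_mul_of_nonneg_right h.reg.e1 h.d0) hr.le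
    linarith
  have h2 : |r * (codeg H A f z - K)| ≤ r := by
    rw [abs_mul, abs_of_pos hr, abs_of_nonneg (by linarith)]
    exact mul_le_of_le_one_right hr.le (by linarith)
  have h3 := mul_le_mul_of_nonneg_right (h.reg.deg_le hfA) (show 0 ≤ 2 * δ + 5 by linarith [h.d0])
  have := mul_nonneg hr.le h.d0
  rw [hZ]
  refine (abs_sub _ _).trans ((add_le_add ((abs_add_le _ _).trans (add_le_add hsum h1)) h2).trans ?_)
  linarith

lemma est_Z_disjoint (h : EstGraph A r ε κ δ) {f z : Edge n} (hd : Disjoint f.1 z.1) (hfA : f ∈ A) :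
    |estZ (triangles n) A r f z| ≤ 32 * r := by
  have hr := h.reg.rpos
  set H := triangles n
  have h1 : ∑ g ∈ nbr H A f, codeg H A g z ≤
      4 * (2 * deg H A f) + 4 * r * (((nbr H A f).filter fun g => ¬ Disjoint z.1 g.1).card : ℝ) := by
    rw [← card_nbr h.reg.lin, ← Finset.sum_boole, Finset.mul_sum, mul_comm (4 : ℝ),
      ← nsmul_eq_mul, ← Finset.sum_const, ← Finset.sum_add_distrib]
    refine Finset.sum_le_sum fun g hg => ?_
    by_cases hgz : Disjoint z.1 g.1
    · rw [if_neg (not_not_intro hgz), mul_zero, add_zero]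
      exact est_codeg_disjoint hgz.symm
    · rw [if_pos hgz]
      linarith [est_codeg_le h.reg (nbr_sub A f hg) z]
  have h2 : (((nbr H A f).filter fun g => ¬ Disjoint z.1 g.1).card : ℝ) ≤ 4 := by
    exact_mod_cast est_meet_two hd fun g hg =>
      ⟨est_nbr_meet (Finset.mem_filter.1 hg).1, (Finset.mem_filter.1 hg).2⟩
  have h0 : 0 ≤ ∑ g ∈ nbr H A f, codeg H A g z := Finset.sum_nonneg fun g _ => est_codeg_nonneg g z
  have h3 := mul_le_mul_of_nonneg_left (est_codeg_disjoint (A := A) hd) hr.le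
  have h4 := mul_nonneg hr.le (est_codeg_nonneg (H := H) (A := A) f z)
  have h5 := mul_le_mul_of_nonneg_left h2 hr.le
  have h6 := h.reg.deg_le hfA
  rw [estZ, abs_le]
  constructor <;> linarith

/-- The squared codegrees at an edge. -/
theorem est_codeg_sq_graph (h : EstGraph A r ε κ δ) {f : Edge n} (hf : f ∈ A) :
    ∑ z ∈ A.erase f, codeg (triangles n) A f z ^ 2 ≤ (κ + δ + 5) * (16 * r ^ 2) := by
  refine (Finset.sum_le_sum (g := fun z => (κ + δ + 5) * codeg (triangles n) A f z)
    fun z hz => ?_).trans ?_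
  · obtain ⟨hne, hzA⟩ := Finset.mem_erase.1 hz
    rw [sq]
    refine mul_le_mul_of_nonneg_right ?_ (est_codeg_nonneg f z)
    by_cases hd : Disjoint f.1 z.1
    · linarith [est_codeg_disjoint (A := A) hd, h.k0, h.d0]
    · obtain ⟨x, y, w, hfx, hzx, hyw⟩ := est_share_cases hne hd
      have := abs_le.1 (h.k x y w (est_pair_ne hfx) (est_pair_ne hzx) hyw)
      linarith [(est_codeg_share hfx hzx hf hzA hyw).2]
  · rw [← Finset.mul_sum]
    refine mul_le_mul_of_nonneg_left ?_ (by linarith [h.k0, h.d0])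
    exact (Finset.sum_le_sum_of_subset_of_nonneg (Finset.erase_subset f A)
      fun z _ _ => est_codeg_nonneg f z).trans (est_sum_codeg h.reg hf)

/-- The squared second-order discrepancies at an edge. -/
theorem est_Z_sq_graph (h : EstGraph A r ε κ δ) {f : Edge n} (hf : f ∈ A) {M : ℝ} (hM : 36 ≤ M)
    (hcase : 7 * δ + 24 ≤ M ∨ (7 * δ + 24) ^ 2 ≤ M * (κ - δ)) :
    ∑ z ∈ A.erase f, estZ (triangles n) A r f z ^ 2 ≤ 100 * r ^ 4 * M := by
  have hr := h.reg.rpos
  refine (Finset.sum_le_sum (g := fun z => r * M * |estZ (triangles n) A r f z| +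
    r ^ 2 * M * codeg (triangles n) A f z) fun z hz => ?_).trans ?_
  · obtain ⟨hne, hzA⟩ := Finset.mem_erase.1 hz
    have ha := abs_nonneg (estZ (triangles n) A r f z)
    have hc0 : 0 ≤ r ^ 2 * M * codeg (triangles n) A f z := by
      have := est_codeg_nonneg (H := triangles n) (A := A) f z
      positivity
    have hrM : 0 ≤ r * M * |estZ (triangles n) A r f z| := by positivity
    rw [← sq_abs]
    by_cases hd : Disjoint f.1 z.1
    · have := mul_le_mul_of_nonneg_right ((est_Z_disjoint h hd hf).trans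
        (show 32 * r ≤ r * M by rw [mul_comm r M]; exact mul_le_mul_of_nonneg_right (by linarith) hr.le)) ha
      rw [sq]
      linarith
    · obtain ⟨x, y, w, hfx, hzx, hyw⟩ := est_share_cases hne hd
      have hb := est_Z_share h hfx hzx hf hzA hyw
      rcases hcase with hc | hc
      · have := mul_le_mul_of_nonneg_right (hb.trans (mul_le_mul_of_nonneg_left hc hr.le)) ha
        rw [sq]
        linarith
      · have hk := abs_le.1 (h.k x y w (est_pair_ne hfx) (est_pair_ne hzx) hyw)
        have hle : κ - δ ≤ codeg (triangles n) A f z := by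
          linarith [(est_codeg_share hfx hzx hf hzA hyw).1]
        have := pow_le_pow_left₀ ha hb 2
        rw [mul_pow] at this
        have h2 := mul_le_mul_of_nonneg_left (hc.trans (mul_le_mul_of_nonneg_left hle (by linarith)))
          (sq_nonneg r)
        linarith
  · rw [Finset.sum_add_distrib, ← Finset.mul_sum, ← Finset.mul_sum]
    have a := (Finset.sum_le_sum_of_subset_of_nonneg (Finset.erase_subset f A)
      fun z _ _ => abs_nonneg (estZ (triangles n) A r f z)).trans (est_sum_abs_Z h.reg hf)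
    have b := (Finset.sum_le_sum_of_subset_of_nonneg (Finset.erase_subset f A)
      fun z _ _ => est_codeg_nonneg (H := triangles n) (A := A) f z).trans (est_sum_codeg h.reg hf)
    have a' := mul_le_mul_of_nonneg_left a (show 0 ≤ r * M by positivity)
    have b' := mul_le_mul_of_nonneg_left b (show 0 ≤ r ^ 2 * M by positivity)
    have : 0 ≤ r ^ 4 * M := by positivity
    linarith

/-- The common neighbours of three vertices lost when `T` fires. -/
def estBad (T : Finset (Edge n)) (x y z w : Fin n) : Prop :=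
  (∃ e ∈ T, e.1 = {x, w}) ∨ (∃ e ∈ T, e.1 = {y, w}) ∨ ∃ e ∈ T, e.1 = {z, w}

instance (T : Finset (Edge n)) (x y z : Fin n) : DecidablePred (estBad T x y z) :=
  fun _ => by unfold estBad; infer_instance

lemma est_adj_sdiff (T : Finset (Edge n)) (a b : Fin n) :
    estAdj (A \ T) a b ↔ estAdj A a b ∧ ¬ ∃ e ∈ T, e.1 = {a, b} := by
  constructor
  · rintro ⟨e, he, hab⟩
    obtain ⟨h1, h2⟩ := Finset.mem_sdiff.1 he
    exact ⟨⟨e, h1, hab⟩, fun ⟨d, hd, hab'⟩ => h2 (Subtype.ext (hab.trans hab'.symm) ▸ hd)⟩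
  · rintro ⟨⟨e, he, hab⟩, h2⟩
    exact ⟨e, Finset.mem_sdiff.2 ⟨he, fun hT => h2 ⟨e, hT, hab⟩⟩, hab⟩

lemma est_codeg3_sdiff (T : Finset (Edge n)) (x y z : Fin n) :
    codeg3 (A \ T) x y z - codeg3 A x y z =
      -(((estS A x y z).filter (estBad T x y z)).card : ℝ) := by
  have e : estS (A \ T) x y z = (estS A x y z).filter (fun w => ¬ estBad T x y z w) := by
    ext w
    simp only [est_mem_S, Finset.mem_filter, est_adj_sdiff, estBad, not_or]
    tauto
  rw [est_codeg3_eq, est_codeg3_eq, e,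
    ← Finset.card_filter_add_card_filter_not (estBad T x y z) (s := estS A x y z)]
  push_cast
  ring

lemma est_bad_le_six {T : Finset (Edge n)} (hT : T ∈ triangles n) (x y z : Fin n) :
    (((estS A x y z).filter (estBad T x y z)).card : ℝ) ≤ 6 := by
  have h1 : (estS A x y z).filter (estBad T x y z) ⊆ T.biUnion Subtype.val := by
    intro w hw
    rcases (Finset.mem_filter.1 hw).2 with ⟨e, he, h⟩ | ⟨e, he, h⟩ | ⟨e, he, h⟩ <;>
      exact Finset.mem_biUnion.2 ⟨e, he, by simp [h]⟩
  have h2 : (T.biUnion Subtype.val).card ≤ T.card * 2 := Finset.card_biUnion_le_card_mul _ _ _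
    fun e _ => e.2.le
  rw [(est_triangles_linear n).card3 T hT] at h2
  exact_mod_cast (Finset.card_le_card h1).trans h2

/-- The lines through one of three distinct points. -/
lemma est_union_star {V : Type*} [DecidableEq V] {H : Finset (Finset V)} (hH : Linear H)
    (A : Finset V) {a b c : V} (hab : a ≠ b) (hac : a ≠ c) (hbc : b ≠ c) :
    deg H A a + deg H A b + deg H A c - 3 ≤
        (((alive H A).filter fun T => a ∈ T ∨ b ∈ T ∨ c ∈ T).card : ℝ) ∧
      (((alive H A).filter fun T => a ∈ T ∨ b ∈ T ∨ c ∈ T).card : ℝ) ≤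
        deg H A a + deg H A b + deg H A c := by
  have hi : ∀ p q : V, p ≠ q → (star H A p ∩ star H A q).card ≤ 1 := fun p q hpq => by
    rw [Finset.card_le_one]
    intro T hT T' hT'
    obtain ⟨hp, hq⟩ := Finset.mem_inter.1 hT
    obtain ⟨hp', hq'⟩ := Finset.mem_inter.1 hT'
    exact hH.eq_of_two (mem_star.1 hp).1 (mem_star.1 hp').1 hpq (mem_star.1 hp).2.2
      (mem_star.1 hq).2.2 (mem_star.1 hp').2.2 (mem_star.1 hq').2.2
  have e : (alive H A).filter (fun T => a ∈ T ∨ b ∈ T ∨ c ∈ T) =
      star H A a ∪ star H A b ∪ star H A c := by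
    simp only [star, ← Finset.filter_or, or_assoc]
  have h1 := Finset.card_union_add_card_inter (star H A a) (star H A b)
  have h2 := Finset.card_union_add_card_inter (star H A a ∪ star H A b) (star H A c)
  have h3 : ((star H A a ∪ star H A b) ∩ star H A c).card ≤ 2 := by
    rw [Finset.union_inter_distrib_right]
    refine (Finset.card_union_le _ _).trans ?_
    have := hi a c hac
    have := hi b c hbc
    omega
  have h4 := hi a b hab
  rw [e, sub_le_iff_le_add]
  unfold deg
  constructor <;> norm_cast <;> omega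

/-- Drift, jump and squared jumps of a triple codegree. -/
theorem est_K_drift (h : EstReg (triangles n) A r ε) {x y z : Fin n} (hxy : x ≠ y) (hxz : x ≠ z)
    (hyz : y ≠ z) :
    |∑ T ∈ alive (triangles n) A, (codeg3 (A \ T) x y z - codeg3 A x y z) +
        3 * r * codeg3 A x y z| ≤ codeg3 A x y z * (3 * (r * ε) + 3) ∧
      (∀ T ∈ alive (triangles n) A, |codeg3 (A \ T) x y z - codeg3 A x y z| ≤ 6) ∧
      ∑ T ∈ alive (triangles n) A, (codeg3 (A \ T) x y z - codeg3 A x y z) ^ 2 ≤
        36 * r * codeg3 A x y z := by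
  have hr := h.rpos
  set H := triangles n
  have hper : ∀ w ∈ estS A x y z,
      |(((alive H A).filter fun T => estBad T x y z w).card : ℝ) - 3 * r| ≤ 3 * (r * ε) + 3 ∧
        (((alive H A).filter fun T => estBad T x y z w).card : ℝ) ≤ 6 * r := by
    intro w hw
    obtain ⟨⟨a, haA, ha⟩, ⟨b, hbA, hb⟩, c, hcA, hc⟩ := est_mem_S.1 hw
    have ne : ∀ (p q : Edge n) (s t : Fin n), p.1 = {s, w} → q.1 = {t, w} → s ≠ t → p ≠ q := by
      intro p q s t hp hq hst e
      refine hst (est_pair_inj (est_pair_ne hp).symm ?_)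
      rw [Finset.pair_comm w s, Finset.pair_comm w t, ← hp, ← hq, e]
    have e : (alive H A).filter (fun T => estBad T x y z w) =
        (alive H A).filter (fun T => a ∈ T ∨ b ∈ T ∨ c ∈ T) := by
      refine Finset.filter_congr fun T _ => ?_
      have key : ∀ (p : Edge n) (s : Fin n), p.1 = {s, w} →
          ((∃ e ∈ T, e.1 = {s, w}) ↔ p ∈ T) := fun p s hp =>
        ⟨fun ⟨d, hd, hd'⟩ => Subtype.ext (hd'.trans hp.symm) ▸ hd, fun hpT => ⟨p, hpT, hp⟩⟩
      rw [estBad, key a x ha, key b y hb, key c z hc]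
    obtain ⟨hlo, hhi⟩ := est_union_star h.lin A (ne a b x y ha hb hxy) (ne a c x z ha hc hxz)
      (ne b c y z hb hc hyz)
    have dd : ∀ p ∈ A, |deg H A p - r| ≤ r * ε := fun p hp => by
      have e : deg H A p - r = r * (deg H A p / r - 1) := by field_simp
      rw [e, abs_mul, abs_of_pos hr]
      exact mul_le_mul_of_nonneg_left (h.dev p hp) hr.le
    have da := abs_le.1 (dd a haA)
    have db := abs_le.1 (dd b hbA)
    have dc := abs_le.1 (dd c hcA)
    rw [e]
    refine ⟨abs_le.2 ⟨by linarith, by linarith⟩, ?_⟩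
    linarith [h.deg_le haA, h.deg_le hbA, h.deg_le hcA]
  have hswap : ∑ T ∈ alive H A, (((estS A x y z).filter (estBad T x y z)).card : ℝ) =
      ∑ w ∈ estS A x y z, (((alive H A).filter fun T => estBad T x y z w).card : ℝ) := by
    simp only [← Finset.sum_boole]
    exact Finset.sum_comm
  have hK : codeg3 A x y z = ((estS A x y z).card : ℝ) := est_codeg3_eq A x y z
  refine ⟨?_, fun T hT => ?_, ?_⟩
  · have e : ∑ T ∈ alive H A, (codeg3 (A \ T) x y z - codeg3 A x y z) + 3 * r * codeg3 A x y z =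
        -∑ w ∈ estS A x y z, ((((alive H A).filter fun T => estBad T x y z w).card : ℝ) - 3 * r) := by
      rw [Finset.sum_congr rfl fun T _ => est_codeg3_sdiff T x y z, Finset.sum_neg_distrib, hswap,
        Finset.sum_sub_distrib, Finset.sum_const, nsmul_eq_mul, hK]
      ring
    rw [e, abs_neg, hK]
    refine (Finset.abs_sum_le_sum_abs _ _).trans
      ((Finset.sum_le_sum fun w hw => (hper w hw).1).trans ?_)
    rw [Finset.sum_const, nsmul_eq_mul]
  · rw [est_codeg3_sdiff, abs_neg, Nat.abs_cast]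
    exact est_bad_le_six (mem_alive.1 hT).1 x y z
  · refine (Finset.sum_le_sum (g := fun T => 6 *
      (((estS A x y z).filter (estBad T x y z)).card : ℝ)) fun T hT => ?_).trans ?_
    · rw [est_codeg3_sdiff, neg_sq, sq]
      exact mul_le_mul_of_nonneg_right (est_bad_le_six (mem_alive.1 hT).1 x y z) (Nat.cast_nonneg _)
    · rw [← Finset.mul_sum, hswap, hK]
      refine (mul_le_mul_of_nonneg_left (Finset.sum_le_sum fun w hw => (hper w hw).2)
        (by norm_num)).trans ?_
      rw [Finset.sum_const, nsmul_eq_mul]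
      linarith

end

end Vale.Agent.P046.Full
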