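import Mathlib
import Vale.Agent.P046.Full.EstimatesGraph

/-!
# P046: the one-step estimates of the first phase
-/

open Finset Filter

namespace Vale.Agent.P046.Full

open Vale.Agent.P046

noncomputable section

variable {n : ℕ} {A : Finset (Edge n)}

/-- Numerical facts about the parameters of a good state. -/
structure EstParam (N σ r p κ δ : ℝ) : Prop where
  N2 : 2 ≤ N
  σ0 : 0 < σ
  hr : r * σ = 1 / 2
  r1 : 1 ≤ r
  p0 : 0 ≤ p
  p1 : p ≤ 1
  hκ : κ = r * p
  small : Real.sqrt σ * N ^ 3 ≤ 1 / 4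
  hδ : δ = N ^ 3 * (Real.sqrt (κ + 1) + κ * Real.sqrt σ)

variable {N σ r p κ δ : ℝ}

lemma EstParam.k0 (h : EstParam N σ r p κ δ) : 0 ≤ κ := by
  rw [h.hκ]; exact mul_nonneg (by linarith [h.r1]) h.p0

lemma EstParam.ek (h : EstParam N σ r p κ δ) : Real.sqrt σ * N * κ ≤ δ := by
  have hN : N ≤ N ^ 3 := le_self_pow₀ (by linarith [h.N2]) (by norm_num)
  have a := mul_le_mul_of_nonneg_left hN (mul_nonneg h.k0 (Real.sqrt_nonneg σ))
  have b : 0 ≤ N ^ 3 * Real.sqrt (κ + 1) := by have := h.N2; positivity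
  rw [h.hδ]; linarith

lemma EstParam.delta_le (h : EstParam N σ r p κ δ) : δ ≤ N ^ 6 + 2 * κ + 1 := by
  have a : N ^ 3 * Real.sqrt (κ + 1) ≤ N ^ 6 + κ + 1 := by
    nlinarith [sq_nonneg (N ^ 3 - Real.sqrt (κ + 1)), Real.sq_sqrt (show 0 ≤ κ + 1 by linarith [h.k0]),
      sq_nonneg N, pow_nonneg (show 0 ≤ N by linarith [h.N2]) 6, Real.sqrt_nonneg (κ + 1)]
  have b := mul_le_mul_of_nonneg_right h.small h.k0
  rw [h.hδ]
  linarith [h.k0]

lemma EstParam.case_bound (h : EstParam N σ r p κ δ) :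
    7 * δ + 24 ≤ 4000 * N ^ 12 ∨ (7 * δ + 24) ^ 2 ≤ 4000 * N ^ 12 * (κ - δ) := by
  have hN := h.N2
  have h12 : 1 ≤ N ^ 12 := one_le_pow₀ (by linarith)
  have h6 : N ^ 6 ≤ N ^ 12 := pow_le_pow_right₀ (by linarith) (by norm_num)
  rcases le_or_gt κ (N ^ 12) with hc | hc
  · left
    linarith [h.delta_le]
  · right
    have hk := h.k0
    set s := Real.sqrt (κ + 1)
    have hs : s ^ 2 = κ + 1 := Real.sq_sqrt (by linarith)
    set t := Real.sqrt σ
    have ht : t ^ 2 = σ := Real.sq_sqrt h.σ0.le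
    have h8 : 8 ≤ N ^ 3 := by
      calc (8 : ℝ) = 2 ^ 3 := by norm_num
        _ ≤ _ := pow_le_pow_left₀ (by norm_num) hN 3
    have hs6 : N ^ 6 ≤ s := by
      refine Real.le_sqrt_of_sq_le ?_
      rw [← pow_mul]
      norm_num
      linarith
    have a : 8 * (N ^ 3 * s) ≤ κ + 1 := by
      have h1 : 8 * N ^ 3 ≤ s := by
        have := mul_le_mul_of_nonneg_right h8 (show 0 ≤ N ^ 3 by linarith)
        linarith [show N ^ 3 * N ^ 3 = N ^ 6 by ring]
      have := mul_le_mul_of_nonneg_right h1 (Real.sqrt_nonneg (κ + 1))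
      linarith [show s * s = κ + 1 by rw [← sq]; exact hs]
    have b := mul_le_mul_of_nonneg_right h.small hk
    have hδe : δ = N ^ 3 * (s + κ * t) := h.hδ
    have hd0 : 0 ≤ δ := by rw [hδe]; positivity
    have hhalf : δ ≤ κ / 2 := by rw [hδe]; linarith
    have hsq : δ ^ 2 ≤ 5 * (N ^ 6 * κ) := by
      have h1 : (s + κ * t) ^ 2 ≤ 2 * s ^ 2 + 2 * (κ * t) ^ 2 := by
        nlinarith [sq_nonneg (s - κ * t)]
      have h2 : (κ * t) ^ 2 ≤ κ / 2 := by
        rw [mul_pow, ht]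
        have : κ * σ ≤ 1 / 2 := by
          have e : κ * σ = p * (r * σ) := by rw [h.hκ]; ring
          rw [e, h.hr]
          linarith [h.p1]
        calc κ ^ 2 * σ = κ * (κ * σ) := by ring
          _ ≤ κ * (1 / 2) := mul_le_mul_of_nonneg_left this hk
          _ = κ / 2 := by ring
      rw [hδe, mul_pow, ← pow_mul]
      have := mul_le_mul_of_nonneg_left (show (s + κ * t) ^ 2 ≤ 5 * κ by linarith)
        (show 0 ≤ N ^ 6 by positivity)
      norm_num
      linarith
    have h3 : (7 * δ + 24) ^ 2 ≤ 98 * δ ^ 2 + 1152 := by nlinarith [sq_nonneg (7 * δ - 24)]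
    have h4 : N ^ 6 * κ ≤ N ^ 12 * κ := mul_le_mul_of_nonneg_right h6 hk
    have h5 : 1 ≤ N ^ 12 * κ := by
      have := mul_le_mul_of_nonneg_right h12 hk
      linarith
    have h7 := mul_le_mul_of_nonneg_left hhalf (show 0 ≤ 4000 * N ^ 12 by positivity)
    linarith

/-- The estimates at one edge and at one triple, with numerical parameters. -/
theorem est_assemble (h : EstParam N σ r p κ δ) (hG : EstGraph A r (Real.sqrt σ * N) κ δ)
    {f : Edge n} (hf : f ∈ A) :
    ∑ T ∈ others A f, (devD (triangles n) (A \ T) r f - devD (triangles n) A r f) ^ 2 ≤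
        20000000 * (p + σ * N ^ 14) ∧
      ∑ T ∈ others A f, (devP (triangles n) (A \ T) r f - devP (triangles n) A r f) ^ 2 ≤
        20000000 * σ * N ^ 14 := by
  have hN := h.N2
  have hr : 0 < r := by linarith [h.r1]
  have hinv : 1 / r = 2 * σ := by
    rw [div_eq_iff hr.ne']
    linarith [h.hr]
  have hinv2 : 1 / r ^ 2 ≤ 2 * σ := by
    rw [← hinv]
    exact one_div_le_one_div_of_le hr (le_self_pow₀ h.r1 (by norm_num))
  have m : ∀ k, k ≤ 14 → σ * N ^ k ≤ σ * N ^ 14 := fun k hk =>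
    mul_le_mul_of_nonneg_left (pow_le_pow_right₀ (by linarith) hk) h.σ0.le
  have m0 := m 0 (by norm_num)
  have m2 := m 2 (by norm_num)
  have m6 := m 6 (by norm_num)
  have m12 := m 12 (by norm_num)
  rw [pow_zero, mul_one] at m0
  have e2 : (Real.sqrt σ * N) ^ 2 = σ * N ^ 2 := by rw [mul_pow, Real.sq_sqrt h.σ0.le]
  constructor
  · refine (est_devD_sq hG.reg hf).trans ?_
    refine (add_le_add le_rfl (mul_le_mul_of_nonneg_left (est_codeg_sq_graph hG hf)
      (by positivity))).trans ?_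
    have e : 12 / r ^ 3 * ((κ + δ + 5) * (16 * r ^ 2)) = 192 * ((κ + δ + 5) * (1 / r)) := by
      field_simp; ring
    rw [e, hinv, e2]
    have a := mul_le_mul_of_nonneg_right (show κ + δ + 5 ≤ 3 * κ + N ^ 6 + 6 by linarith [h.delta_le])
      (show 0 ≤ 2 * σ by linarith [h.σ0])
    have b : κ * σ = p / 2 := by rw [h.hκ, mul_right_comm, h.hr]; ring
    linarith [h.σ0, h.p0]
  · refine (est_devP_sq hG.reg hf).trans ?_
    refine (add_le_add le_rfl (mul_le_mul_of_nonneg_left (est_Z_sq_graph hG hf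
      (M := 4000 * N ^ 12) (by linarith [one_le_pow₀ (n := 12) (show 1 ≤ N by linarith)])
      h.case_bound) (by positivity))).trans ?_
    have e : 12 / r ^ 5 * (100 * r ^ 4 * (4000 * N ^ 12)) = 4800000 * (N ^ 12 * (1 / r)) := by
      field_simp; ring
    rw [e, hinv, e2]
    linarith [h.σ0]

lemma est_rpow_mul_nat (n : ℕ) (η : ℝ) (k : ℕ) : (n : ℝ) ^ ((k : ℝ) * η) = ((n : ℝ) ^ η) ^ k := by
  rw [mul_comm, Real.rpow_mul_natCast (Nat.cast_nonneg n)]

/-- The one-step estimates of the four statistics on a good state. -/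
theorem estimate_stmt : EstimateStmt := by
  refine ⟨20000000, by norm_num, fun θ η hη hθ _ => ?_⟩
  have ev : ∀ c : ℝ, 0 < c → ∀ B : ℝ, ∀ᶠ n : ℕ in atTop, B ≤ (n : ℝ) ^ c := fun c hc B =>
    ((tendsto_rpow_atTop hc).comp tendsto_natCast_atTop_atTop).eventually_ge_atTop B
  filter_upwards [ev η hη 2, ev θ (by linarith) 4, ev (θ - 6 * η) (by linarith) 32,
    eventually_ge_atTop 3] with n hN hθn hgap hn3
  intro σ hσlo hσhi A hgood
  have hn2 : 0 < (n : ℝ) - 2 := by
    have : (3 : ℝ) ≤ n := by exact_mod_cast hn3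
    linarith
  have hσ0 : 0 < σ := lt_of_lt_of_le (by positivity) hσlo
  set N := (n : ℝ) ^ η with hNdef
  have e3 : (n : ℝ) ^ (3 * η) = N ^ 3 := by exact_mod_cast est_rpow_mul_nat n η 3
  have e2 : (n : ℝ) ^ (2 * η) = N ^ 2 := by exact_mod_cast est_rpow_mul_nat n η 2
  have e14 : (n : ℝ) ^ (14 * η) = N ^ 14 := by exact_mod_cast est_rpow_mul_nat n η 14
  have e6 : (n : ℝ) ^ (6 * η) = N ^ 6 := by exact_mod_cast est_rpow_mul_nat n η 6
  obtain ⟨hdev, hK⟩ := hgood
  rw [e3] at hK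
  simp only [e2, e14]
  set r := refR σ with hrdef
  have hr : r * σ = 1 / 2 := by rw [hrdef, refR]; field_simp
  have hσhalf : σ ≤ 1 / 2 := by
    refine hσhi.trans ?_
    rw [div_le_iff₀ (by linarith)]
    linarith
  have hr1 : 1 ≤ r := by
    rw [hrdef, refR, le_div_iff₀ (by positivity)]
    linarith
  have hsmall : Real.sqrt σ * N ^ 3 ≤ 1 / 4 := by
    have hsplit : (n : ℝ) ^ θ = (n : ℝ) ^ (θ - 6 * η) * N ^ 6 := by
      rw [← e6, ← Real.rpow_add (by linarith)]
      ring_nf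
    have h1 : σ * N ^ 6 ≤ 1 / 16 := by
      rw [hsplit] at hσhi
      have h2 : σ * ((n : ℝ) ^ (θ - 6 * η) * N ^ 6) ≤ 2 := by
        rwa [← le_div_iff₀ (mul_pos (by linarith) (pow_pos (by linarith) 6))]
      have h3 := mul_le_mul_of_nonneg_left hgap (show 0 ≤ σ * N ^ 6 by positivity)
      linarith
    have e : (Real.sqrt σ * N ^ 3) ^ 2 ≤ (1 / 4) ^ 2 := by
      rw [mul_pow, Real.sq_sqrt hσ0.le, ← pow_mul]
      norm_num
      linarith
    exact (abs_le_of_sq_le_sq' e (by norm_num)).2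
  set p := Real.sqrt (r / ((n : ℝ) - 2)) with hpdef
  have hp1 : p ≤ 1 := by
    rw [hpdef, Real.sqrt_le_one, div_le_one hn2, hrdef, refR, div_le_iff₀ (by positivity)]
    rw [div_le_iff₀ (by positivity)] at hσlo
    linarith
  set κ := refK n σ with hκdef
  set δ := N ^ 3 * (Real.sqrt (κ + 1) + κ * Real.sqrt σ)
  have hP : EstParam N σ r p κ δ :=
    ⟨hN, hσ0, hr, hr1, Real.sqrt_nonneg _, hp1, rfl, hsmall, rfl⟩
  have he : Real.sqrt σ * N ≤ 1 := by
    have := mul_le_mul_of_nonneg_left (le_self_pow₀ (show 1 ≤ N by linarith) (show 3 ≠ 0 by norm_num))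
      (Real.sqrt_nonneg σ)
    linarith
  have hN0 : 0 ≤ N := by linarith
  have hG : EstGraph A r (Real.sqrt σ * N) κ δ :=
    ⟨⟨est_triangles_linear n, hr1, by positivity, he, hdev⟩, hP.k0, by have := hP.k0; positivity,
      hP.ek, hK⟩
  have hr0 : 0 < r := by linarith
  have eε : r * (Real.sqrt σ * N) ^ 2 = r * σ * N ^ 2 := by
    rw [mul_pow, Real.sq_sqrt hσ0.le, mul_assoc]
  have hpos : 0 ≤ r * σ * N ^ 2 := by positivity
  refine ⟨fun f hf => ?_, fun x y z hxy hxz hyz => ?_⟩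
  · have hD := est_devD_drift hG.reg hf
    have hPd := est_devP_drift hG.reg hf
    rw [eε] at hD hPd
    obtain ⟨hQD, hQP⟩ := est_assemble hP hG hf
    refine ⟨est_deg_drift hG.reg f, hD.trans ?_, hPd.trans ?_,
      fun T hT => ⟨?_, ?_, ?_⟩, (est_deg_sq hG.reg hf).trans (by norm_num), hQD, hQP⟩
    · linarith
    · linarith
    · exact (est_deg_jump hG.reg hT).trans (div_le_div_of_nonneg_right (by norm_num) hr0.le)
    · exact (est_devD_jump hG.reg hf hT).trans (div_le_div_of_nonneg_right (by norm_num) hr0.le)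
    · exact (est_devP_jump hG.reg hf hT).trans (div_le_div_of_nonneg_right (by norm_num) hr0.le)
  · obtain ⟨h1, h2, h3⟩ := est_K_drift hG.reg hxy hxz hyz
    have hK0 : 0 ≤ codeg3 A x y z := Nat.cast_nonneg _
    refine ⟨h1.trans ?_, fun T hT => (h2 T hT).trans (by norm_num), h3.trans ?_⟩
    · have : 0 ≤ codeg3 A x y z * (r * Real.sqrt σ * N) := by positivity
      linarith
    · have : 0 ≤ r * codeg3 A x y z := by positivity
      linarith

end

end Vale.Agent.P046.Full
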