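import Vale.Agent.P046.Full.FixFlow
import Vale.Agent.P046.LineMoment

/-!
# P046: the moment bound for the deviation of the tree recursion, and continuation in time
-/

open Finset

namespace Vale.Agent.P046.Full

open Vale.Agent.P046

noncomputable section

lemma fix_young {m : ℕ} (hm : Even m) (a b : ℝ) (hm1 : 1 ≤ m) :
    |a| ^ (m - 1) * |b| ≤ a ^ m + b ^ m := by
  rw [← hm.pow_abs a, ← hm.pow_abs b]
  have e : ∀ x : ℝ, x ^ m = x ^ (m - 1) * x := fun x => by
    rw [← pow_succ]; congr 1; omega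
  rcases le_total |b| |a| with h | h
  · have h1 := mul_le_mul_of_nonneg_left h (pow_nonneg (abs_nonneg a) (m - 1))
    rw [← e] at h1
    linarith [pow_nonneg (abs_nonneg b) m]
  · have h1 := mul_le_mul_of_nonneg_right (pow_le_pow_left₀ (abs_nonneg a) h (m - 1)) (abs_nonneg b)
    rw [← e] at h1
    linarith [pow_nonneg (abs_nonneg a) m]

lemma fix_forcing {m : ℕ} (hm : Even m) (hm1 : 1 ≤ m) (a : ℝ) {K c : ℝ} (hK : 0 ≤ K) (hc : 0 < c) :
    |a| ^ (m - 1) * K ≤ c * a ^ m + c * (K / c) ^ m := by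
  have h := mul_le_mul_of_nonneg_left (fix_young hm a (K / c) hm1) hc.le
  rw [abs_of_nonneg (div_nonneg hK hc.le)] at h
  calc |a| ^ (m - 1) * K = c * (|a| ^ (m - 1) * (K / c)) := by field_simp
    _ ≤ _ := by linarith

lemma fix_cross {k e : ℝ} (he : 0 ≤ e) (hek : e ≤ k) (a b x y : ℝ) (hb : |b| ≤ k)
    (ha' : |a| ≤ e + |x|) (hb' : |b| ≤ e + |y|) : |a * b| ≤ e ^ 2 + k * |x| + k * |y| := by
  rw [abs_mul]
  calc |a| * |b| ≤ (e + |x|) * |b| := mul_le_mul_of_nonneg_right ha' (abs_nonneg b)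
    _ = e * |b| + |x| * |b| := by ring
    _ ≤ e * (e + |y|) + |x| * k :=
        add_le_add (mul_le_mul_of_nonneg_left hb' he) (mul_le_mul_of_nonneg_left hb (abs_nonneg x))
    _ ≤ _ := by nlinarith [mul_le_mul_of_nonneg_right hek (abs_nonneg y)]

lemma fix_line_err {k e T a b c τ x y z : ℝ} (hk : k ≤ 1 / 4) (he : 0 ≤ e) (hek : e ≤ k)
    (ha : |a| ≤ k) (hb : |b| ≤ k) (hc : |c| ≤ k) (ha' : |a| ≤ e + |x|) (hb' : |b| ≤ e + |y|)
    (hc' : |c| ≤ e + |z|) (hτ : |τ - 1| ≤ T) :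
    |(1 + a) * (1 + b) * (1 + c) * τ - (1 + a) - (b + c)| ≤
      4 * e ^ 2 + 3 * k * (|x| + |y| + |z|) + 8 * T := by
  have e1 : (1 + a) * (1 + b) * (1 + c) * τ - (1 + a) - (b + c) =
      a * b + a * c + (1 + a) * (b * c) + (1 + a) * (1 + b) * (1 + c) * (τ - 1) := by ring
  have h2 : ∀ v, |v| ≤ k → |1 + v| ≤ 2 := fun v hv =>
    abs_le.2 ⟨by linarith [(abs_le.1 hv).1], by linarith [(abs_le.1 hv).2]⟩
  have h3 : |(1 + a) * (b * c)| ≤ 2 * (e ^ 2 + k * |y| + k * |z|) := by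
    rw [abs_mul]
    exact mul_le_mul (h2 a ha) (fix_cross he hek b c y z hc hb' hc') (abs_nonneg _) zero_le_two
  have h4 : |(1 + a) * (1 + b) * (1 + c) * (τ - 1)| ≤ 2 * 2 * 2 * T := by
    rw [abs_mul, abs_mul, abs_mul]
    exact mul_le_mul (mul_le_mul (mul_le_mul (h2 a ha) (h2 b hb) (abs_nonneg _) zero_le_two)
      (h2 c hc) (abs_nonneg _) (by norm_num)) hτ (abs_nonneg _) (by norm_num)
  have hk0 : 0 ≤ k := he.trans hek
  have := fix_cross he hek a b x y hb ha' hb'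
  have := fix_cross he hek a c x z hc ha' hc'
  have := mul_nonneg hk0 (abs_nonneg x)
  rw [e1]
  linarith [abs_add_le (a * b + a * c + (1 + a) * (b * c)) ((1 + a) * (1 + b) * (1 + c) * (τ - 1)),
    abs_add_le (a * b + a * c) ((1 + a) * (b * c)), abs_add_le (a * b) (a * c)]

variable {V : Type*} [DecidableEq V]

/-- The parameters of the bootstrap. -/
structure FixPar (H : Finset (Finset V)) (A : Finset V) (R : ℝ) (m : ℕ) (γ k e ε δ : ℝ) : Prop where
  even : Even m
  pos : 1 ≤ m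
  line : ∀ a b c : ℝ, -(a ^ (m - 1) * (b + c) + b ^ (m - 1) * (a + c) + c ^ (m - 1) * (a + b)) ≤
    (2 - γ) * (a ^ m + b ^ m + c ^ m)
  gam_le : γ ≤ 1
  k_pos : 0 < k
  k_le : k ≤ 1 / 4
  k_gam : 2 * ε + 40 * k ≤ γ / 2
  R_pos : 0 < R
  dev : ∀ f ∈ A, |deg H A f / R - 1| ≤ ε
  devD : ∀ f ∈ A, |devD H A R f| ≤ δ
  eps_le : ε ≤ k
  e_le : e ≤ k
  e_def : (fixPhi R 1 + 1) * ε = e
  eps_nonneg : 0 ≤ ε
  delta_nonneg : 0 ≤ δ

/-- The bootstrap hypothesis at one time. -/
def FixGood (H : Finset (Finset V)) (A : Finset V) (Y : V → Finset V → ℝ → ℝ) (R k s : ℝ) : Prop :=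
  ∀ f ∈ A, |fixDev H A Y R f s| ≤ k ∧ ∀ U ∈ star H A f, lineInt Y f U s ≤ k

/-- The bound for the line integrals. -/
def fixJ (R : ℝ) : ℝ := 4 * fixPhi R 1 / R

/-- The forcing. -/
def fixK (R e δ : ℝ) : ℝ := fixPhi R 1 * δ + 9 * e ^ 2 + 16 * (20 * fixJ R)

variable {H : Finset (Finset V)} {A : Finset V} {Y : V → Finset V → ℝ → ℝ} {R : ℝ} {m : ℕ}
  {γ k e ε δ : ℝ}

lemma FixPar.line_set (P : FixPar H A R m γ k e ε δ) {U : Finset V} (hU : U.card = 3) (v : V → ℝ) :
    -∑ f ∈ U, v f ^ (m - 1) * ∑ g ∈ U.erase f, v g ≤ (2 - γ) * ∑ f ∈ U, v f ^ m ∧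
    ∑ f ∈ U, |v f| ^ (m - 1) * ∑ g ∈ U, |v g| ≤ 6 * ∑ f ∈ U, v f ^ m := by
  obtain ⟨a, b, c, hab, hac, hbc, rfl⟩ := Finset.card_eq_three.1 hU
  constructor
  · have h := P.line (v a) (v b) (v c)
    simp [Finset.sum_insert, hab, hac, hbc,
      Finset.erase_insert_eq_erase, Finset.erase_insert_of_ne] at h ⊢
    linarith
  · simp_rw [Finset.mul_sum]
    refine (Finset.sum_le_sum fun f _ => Finset.sum_le_sum fun g _ =>
      fix_young P.even (v f) (v g) P.pos).trans ?_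
    simp [Finset.sum_insert, hab, hac, hbc]
    linarith

lemma fix_Y_eq (hY : IsFix H A Y) (hR : 0 ≤ R) {f : V} (hf : f ∈ A) {U : Finset V}
    (hU : U ∈ star H A f) {t : ℝ} (ht : t ∈ Set.Icc (0 : ℝ) 1) (hI : lineInt Y f U t < 1) :
    Y f U t = (1 + fixDev H A Y R f t) / (1 - lineInt Y f U t) / Real.sqrt (1 + 2 * R * t) := by
  have hs := (fix_sqrt_pos hR ht.1).ne'
  have h1 : 1 - lineInt Y f U t ≠ 0 := by linarith
  rw [fixDev, fix_root_split hY hf hU ht]
  field_simp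
  ring

lemma fix_lineInt_le (hH : Linear H) (hY : IsFix H A Y) (hc : ∀ f T, Continuous (Y f T))
    (P : FixPar H A R m γ k e ε δ) {f : V} (_hf : f ∈ A) {U : Finset V} (hU : U ∈ star H A f) {t : ℝ}
    (ht : t ∈ Set.Icc (0 : ℝ) 1) (hgood : ∀ s ∈ Set.Ico 0 t, FixGood H A Y R k s) :
    lineInt Y f U t ≤ fixJ R := by
  have hR := P.R_pos
  have hUa := star_sub A f hU
  have hsub : Set.Icc 0 t ⊆ Set.Icc (0 : ℝ) 1 := Set.Icc_subset_Icc le_rfl ht.2
  have hanti : AntitoneOn (fun s => lineInt Y f U s - 4 / R * fixPhi R s) (Set.Icc 0 t) := by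
    refine antitoneOn_of_hasDerivWithinAt_nonpos (convex_Icc _ _)
      (f' := fun s => ∏ g ∈ U.erase f, Y g U s - 4 / R * (R / (1 + 2 * R * s)))
      ((continuous_lineInt hc f U).continuousOn.sub
        (continuousOn_const.mul ((continuousOn_fixPhi hR.le).mono hsub)))
      (fun s hs => ?_) fun s hs => ?_
    · rw [interior_Icc] at hs
      exact ((lineInt_deriv hc f U s).sub ((fixPhi_deriv hR.le hs.1.le).const_mul _)).hasDerivWithinAt
    · rw [interior_Icc] at hs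
      have hs' : s ∈ Set.Icc (0 : ℝ) 1 := ⟨hs.1.le, hs.2.le.trans ht.2⟩
      have hg := hgood s ⟨hs.1.le, hs.2⟩
      have hsq := fix_sqrt_pos hR.le hs'.1
      have hb : ∀ g ∈ U, 0 ≤ Y g U s ∧ Y g U s ≤ 2 / Real.sqrt (1 + 2 * R * s) := by
        intro g hgU
        obtain ⟨hgA, hgS⟩ := mem_star_of hUa hgU
        obtain ⟨hw, hI⟩ := hg g hgA
        have hI' := hI U hgS
        refine ⟨(hY.mem g U s hs').1, ?_⟩
        rw [fix_Y_eq hY hR.le hgA hgS hs' (by linarith [P.k_le])]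
        refine div_le_div_of_nonneg_right ?_ hsq.le
        rw [div_le_iff₀ (by linarith [P.k_le])]
        linarith [(abs_le.1 hw).2, P.k_le]
      have hp : ∏ g ∈ U.erase f, Y g U s ≤ (2 / Real.sqrt (1 + 2 * R * s)) ^ (U.erase f).card := by
        rw [← Finset.prod_const]
        exact Finset.prod_le_prod (fun g hgU => (hb g (Finset.mem_of_mem_erase hgU)).1)
          fun g hgU => (hb g (Finset.mem_of_mem_erase hgU)).2
      rw [Finset.card_erase_of_mem (mem_star.1 hU).2.2, hH.card3 U (mem_star.1 hU).1, div_pow,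
        Real.sq_sqrt (by have := hs'.1; positivity)] at hp
      have e4 : 4 / R * (R / (1 + 2 * R * s)) = 4 / (1 + 2 * R * s) := by field_simp
      rw [e4]
      norm_num at hp
      linarith
  have h := hanti (Set.left_mem_Icc.2 ht.1) (Set.right_mem_Icc.2 ht.1) ht.1
  simp only [fixPhi, mul_zero, add_zero, Real.log_one, zero_div, lineInt,
    intervalIntegral.integral_same, sub_zero] at h
  have h2 : 4 / R * fixPhi R t ≤ 4 / R * fixPhi R 1 :=
    mul_le_mul_of_nonneg_left (fixPhi_mem hR.le ht).2 (by positivity)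
  rw [fixJ, mul_div_right_comm]
  simp only [fixPhi, lineInt] at h2 ⊢
  linarith

lemma fix_abs_dev_le (P : FixPar H A R m γ k e ε δ) {g : V} (hg : g ∈ A) {s : ℝ}
    (hs : s ∈ Set.Icc (0 : ℝ) 1) :
    |fixDev H A Y R g s| ≤ e + |fixEta H A Y R g s| := by
  have h1 : fixDev H A Y R g s = fixEta H A Y R g s - fixPhi R s * (deg H A g / R - 1) := by
    simp [fixEta]
  obtain ⟨h2, h3⟩ := fixPhi_mem P.R_pos.le hs
  have h4 : |fixPhi R s * (deg H A g / R - 1)| ≤ fixPhi R 1 * ε := by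
    rw [abs_mul, abs_of_nonneg h2]
    exact mul_le_mul h3 (P.dev g hg) (abs_nonneg _) (h2.trans h3)
  have := P.e_def
  have := P.eps_nonneg
  rw [h1]
  linarith [abs_sub (fixEta H A Y R g s) (fixPhi R s * (deg H A g / R - 1))]

/-- The differential inequality of the moment. -/
lemma fix_drift_le (hH : Linear H) (hY : IsFix H A Y) (hc : ∀ f T, Continuous (Y f T))
    (P : FixPar H A R m γ k e ε δ) {s : ℝ} (hs : s ∈ Set.Icc (0 : ℝ) 1)
    (hJk : fixJ R ≤ 1 / 4) (hpre : ∀ x ∈ Set.Ico 0 s, FixGood H A Y R k x)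
    (hgood : FixGood H A Y R k s) :
    -∑ f ∈ A, fixEta H A Y R f s ^ (m - 1) * fixDrift H A Y R f s ≤
      (2 - γ / 2) * ∑ f ∈ A, fixEta H A Y R f s ^ m + A.card * (k * (fixK R e δ / k) ^ m) := by
  have hR := P.R_pos
  set v := fun g => fixEta H A Y R g s with hv
  have hJ0 : 0 ≤ fixJ R := by
    have := (fixPhi_mem hR.le (Set.right_mem_Icc.2 zero_le_one)).1
    unfold fixJ; positivity
  have hL0 := (fixPhi_mem hR.le hs).1
  have hK0 : 0 ≤ fixK R e δ := by
    have := (fixPhi_mem hR.le (Set.right_mem_Icc.2 zero_le_one)).1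
    have := P.delta_nonneg
    unfold fixK; positivity
  have he0 : 0 ≤ e := P.e_def ▸ mul_nonneg
    (by linarith [(fixPhi_mem hR.le (Set.right_mem_Icc.2 zero_le_one)).1]) P.eps_nonneg
  have herr : ∀ f ∈ A, ∀ U ∈ star H A f, |fixErr H A Y R f U s| ≤
      4 * e ^ 2 + 3 * k * ∑ g ∈ U, |v g| + 8 * (20 * fixJ R) := by
    intro f hf U hU
    obtain ⟨hUH, -, hfU⟩ := mem_star.1 hU
    have hcard : (U.erase f).card = 2 := by rw [Finset.card_erase_of_mem hfU, hH.card3 U hUH]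
    obtain ⟨a, b, hab, he⟩ := Finset.card_eq_two.1 hcard
    have hsum : ∀ F : V → ℝ, ∑ g ∈ U, F g = F f + (F a + F b) := fun F => by
      rw [← Finset.add_sum_erase _ _ hfU, he, Finset.sum_pair hab]
    have hprod : ∀ F : V → ℝ, ∏ g ∈ U, F g = F f * (F a * F b) := fun F => by
      rw [← Finset.mul_prod_erase _ _ hfU, he, Finset.prod_pair hab]
    have hθ : |fixTheta Y U s - 1| ≤ 20 * fixJ R := by
      have hb : ∀ g ∈ U, 1 ≤ 1 / (1 - lineInt Y g U s) ∧ 1 / (1 - lineInt Y g U s) ≤ 1 + 2 * fixJ R := by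
        intro g hg
        obtain ⟨hgA, hgS⟩ := mem_star_of (star_sub A f hU) hg
        have h1 := lineInt_nonneg hY g U hs
        have h2 := fix_lineInt_le hH hY hc P hgA hgS hs hpre
        have h3 : 0 < 1 - lineInt Y g U s := by linarith
        constructor
        · rw [le_div_iff₀ h3]; linarith
        · rw [div_le_iff₀ h3]; nlinarith
      have h1 : 1 ≤ fixTheta Y U s :=
        le_trans (le_of_eq Finset.prod_const_one.symm)
          (Finset.prod_le_prod (fun g _ => zero_le_one) fun g hg => (hb g hg).1)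
      have h2 : fixTheta Y U s ≤ ∏ _g ∈ U, (1 + 2 * fixJ R) :=
        Finset.prod_le_prod (fun g hg => zero_le_one.trans (hb g hg).1) fun g hg => (hb g hg).2
      rw [Finset.prod_const, hH.card3 U hUH] at h2
      rw [abs_of_nonneg (by linarith)]
      nlinarith [mul_le_mul_of_nonneg_left hJk hJ0]
    have hA' : ∀ g ∈ U, g ∈ A := fun g hg => (mem_star.1 hU).2.1 hg
    have haU : a ∈ U := Finset.mem_of_mem_erase (he ▸ Finset.mem_insert_self a {b})
    have hbU : b ∈ U := Finset.mem_of_mem_erase (he ▸ Finset.mem_insert_of_mem (Finset.mem_singleton_self b))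
    rw [fixErr, hprod, hsum, he, Finset.sum_pair hab]
    have := fix_line_err P.k_le he0 P.e_le (hgood f hf).1 (hgood a (hA' a haU)).1
      (hgood b (hA' b hbU)).1 (fix_abs_dev_le P hf hs) (fix_abs_dev_le P (hA' a haU) hs)
      (fix_abs_dev_le P (hA' b hbU) hs) hθ
    simp only [v]
    refine (le_of_eq (congrArg abs ?_)).trans (this.trans_eq ?_) <;> ring
  have hpt : ∀ f ∈ A, -(v f ^ (m - 1) * fixDrift H A Y R f s) ≤
      -(∑ U ∈ star H A f, v f ^ (m - 1) * ∑ g ∈ U.erase f, v g) / R +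
        2 * k * v f ^ m + k * (fixK R e δ / k) ^ m +
        3 * k * (∑ U ∈ star H A f, |v f| ^ (m - 1) * ∑ g ∈ U, |v g|) / R := by
    intro f hf
    set u := deg H A f / R - 1
    set E := (∑ U ∈ star H A f, fixErr H A Y R f U s) / R
    have hu := P.dev f hf
    have hdeg : deg H A f / R ≤ 2 := by linarith [(abs_le.1 hu).2, P.eps_le, P.k_le]
    have hE : |E| ≤ 2 * (4 * e ^ 2 + 8 * (20 * fixJ R)) +
        3 * k * (∑ U ∈ star H A f, ∑ g ∈ U, |v g|) / R := by
      rw [abs_div, abs_of_pos hR]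
      refine (div_le_div_of_nonneg_right ((Finset.abs_sum_le_sum_abs _ _).trans
        (Finset.sum_le_sum (herr f hf))) hR.le).trans (le_of_eq_of_le ?_ (add_le_add_left
          (mul_le_mul_of_nonneg_right hdeg (by positivity : (0 : ℝ) ≤ 4 * e ^ 2 + 8 * (20 * fixJ R))) _))
      simp only [Finset.sum_add_distrib, Finset.sum_const, nsmul_eq_mul, ← Finset.mul_sum, deg]
      ring
    have hw : |u * fixDev H A Y R f s| ≤ e ^ 2 + k * |v f| := by
      rw [abs_mul]
      have h1 : ε ≤ e := by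
        rw [← P.e_def]
        exact le_mul_of_one_le_left P.eps_nonneg
          (by linarith [(fixPhi_mem hR.le (Set.right_mem_Icc.2 zero_le_one)).1])
      calc |u| * |fixDev H A Y R f s| ≤ ε * (e + |v f|) :=
            mul_le_mul hu (fix_abs_dev_le P hf hs) (abs_nonneg _) P.eps_nonneg
        _ ≤ _ := by nlinarith [mul_le_mul_of_nonneg_right h1 he0,
            mul_le_mul_of_nonneg_right P.eps_le (abs_nonneg (v f))]
    have hD : |fixPhi R s * devD H A R f| ≤ fixPhi R 1 * δ := by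
      rw [abs_mul, abs_of_nonneg hL0]
      exact mul_le_mul (fixPhi_mem hR.le hs).2 (P.devD f hf) (abs_nonneg _)
        (hL0.trans (fixPhi_mem hR.le hs).2)
    have hrest : |-(fixPhi R s * devD H A R f) + u * fixDev H A Y R f s + E| ≤
        fixK R e δ + k * |v f| + 3 * k * (∑ U ∈ star H A f, ∑ g ∈ U, |v g|) / R := by
      refine (abs_add_three _ _ _).trans ?_
      rw [abs_neg, fixK]
      linarith
    have h1 := (neg_le_abs _).trans_eq (abs_mul (v f ^ (m - 1))
      (-(fixPhi R s * devD H A R f) + u * fixDev H A Y R f s + E))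
    rw [abs_pow] at h1
    have h2 := mul_le_mul_of_nonneg_left hrest (pow_nonneg (abs_nonneg (v f)) (m - 1))
    have h3 := fix_forcing P.even P.pos (v f) hK0 P.k_pos
    have h4 : |v f| ^ (m - 1) * |v f| = v f ^ m := by
      rw [← pow_succ, ← P.even.pow_abs (v f)]; congr 1; have := P.pos; omega
    have h5 : fixDrift H A Y R f s = (∑ U ∈ star H A f, ∑ g ∈ U.erase f, v g) / R +
        (-(fixPhi R s * devD H A R f) + u * fixDev H A Y R f s + E) := by
      simp only [fixDrift, v, u, E]; ring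
    rw [h5, ← Finset.mul_sum, ← Finset.mul_sum]
    calc _ = -(v f ^ (m - 1) * ((∑ U ∈ star H A f, ∑ g ∈ U.erase f, v g) / R)) +
          -(v f ^ (m - 1) * (-(fixPhi R s * devD H A R f) + u * fixDev H A Y R f s + E)) := by ring
      _ ≤ -(v f ^ (m - 1) * ((∑ U ∈ star H A f, ∑ g ∈ U.erase f, v g) / R)) +
          |v f| ^ (m - 1) * (fixK R e δ + k * |v f| +
            3 * k * (∑ U ∈ star H A f, ∑ g ∈ U, |v g|) / R) := add_le_add le_rfl (h1.trans h2)
      _ = -(v f ^ (m - 1) * (∑ U ∈ star H A f, ∑ g ∈ U.erase f, v g)) / R +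
          |v f| ^ (m - 1) * fixK R e δ + k * (|v f| ^ (m - 1) * |v f|) +
          3 * k * (|v f| ^ (m - 1) * ∑ U ∈ star H A f, ∑ g ∈ U, |v g|) / R := by ring
      _ ≤ _ := by rw [h4]; linarith
  rw [← Finset.sum_neg_distrib]
  refine (Finset.sum_le_sum hpt).trans ?_
  simp only [Finset.sum_add_distrib, ← Finset.mul_sum, ← Finset.sum_div, Finset.sum_neg_distrib,
    Finset.sum_const, nsmul_eq_mul]
  set S := ∑ f ∈ A, v f ^ m
  have hS : ∀ f, 0 ≤ v f ^ m := fun f => P.even.pow_nonneg _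
  have hdeg : ∑ f ∈ A, deg H A f * v f ^ m ≤ R * (1 + ε) * S := by
    rw [Finset.mul_sum]
    refine Finset.sum_le_sum fun f hf => mul_le_mul_of_nonneg_right ?_ (hS f)
    have := (abs_le.1 (P.dev f hf)).2
    rw [mul_comm, ← div_le_iff₀ hR]; linarith
  rw [sum_deg] at hdeg
  have hl1 : -∑ f ∈ A, ∑ U ∈ star H A f, v f ^ (m - 1) * ∑ g ∈ U.erase f, v g ≤
      (2 - γ) * (R * (1 + ε) * S) := by
    rw [sum_star_swap A (fun f U => v f ^ (m - 1) * ∑ g ∈ U.erase f, v g), ← Finset.sum_neg_distrib]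
    refine (Finset.sum_le_sum fun U hU =>
      (P.line_set (hH.card3 U (mem_alive.1 hU).1) v).1).trans ?_
    rw [← Finset.mul_sum]
    exact mul_le_mul_of_nonneg_left hdeg (by linarith [P.gam_le])
  have hl2 : ∑ f ∈ A, ∑ U ∈ star H A f, |v f| ^ (m - 1) * ∑ g ∈ U, |v g| ≤
      6 * (R * (1 + ε) * S) := by
    rw [sum_star_swap A (fun f U => |v f| ^ (m - 1) * ∑ g ∈ U, |v g|)]
    refine (Finset.sum_le_sum fun U hU =>
      (P.line_set (hH.card3 U (mem_alive.1 hU).1) v).2).trans ?_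
    rw [← Finset.mul_sum]
    exact mul_le_mul_of_nonneg_left hdeg (by norm_num)
  simp only [← Finset.mul_sum] at hl1 hl2
  have h1 := div_le_div_of_nonneg_right hl1 hR.le
  have h2 := div_le_div_of_nonneg_right (mul_le_mul_of_nonneg_left hl2
    (by linarith [P.k_pos] : 0 ≤ 3 * k)) hR.le
  have e1 : (2 - γ) * (R * (1 + ε) * S) / R = (2 - γ) * (1 + ε) * S := by field_simp
  have e2 : 3 * k * (6 * (R * (1 + ε) * S)) / R = 18 * k * (1 + ε) * S := by field_simp; ring
  rw [e1] at h1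
  rw [e2] at h2
  have hco : (2 - γ) * (1 + ε) + 2 * k + 18 * k * (1 + ε) ≤ 2 - γ / 2 := by
    have hg : 0 < γ := by linarith [P.k_gam, P.k_pos, P.eps_nonneg]
    nlinarith [P.k_gam, P.eps_nonneg, P.eps_le, P.k_le, P.k_pos, mul_nonneg hg.le P.eps_nonneg]
  have h3 := mul_le_mul_of_nonneg_right hco (Finset.sum_nonneg fun f _ => hS f : 0 ≤ S)
  linarith

/-- The moment bound. -/
theorem fix_moment (hH : Linear H) (hY : IsFix H A Y) (hc : ∀ f T, Continuous (Y f T))
    (P : FixPar H A R m γ k e ε δ) (hJk : fixJ R ≤ 1 / 4) {t : ℝ} (ht : t ∈ Set.Icc (0 : ℝ) 1)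
    (hgood : ∀ s ∈ Set.Ico 0 t, FixGood H A Y R k s) :
    ∑ f ∈ A, fixEta H A Y R f t ^ m ≤
      Real.exp (m * (2 - γ / 2) * fixPhi R 1) * (m * fixPhi R 1 * (A.card * (k * (fixK R e δ / k) ^ m))) := by
  have hR := P.R_pos
  have hB : 0 ≤ (m : ℝ) * (2 - γ / 2) := mul_nonneg m.cast_nonneg (by linarith [P.gam_le])
  set B := (m : ℝ) * (2 - γ / 2)
  set C := (A.card : ℝ) * (k * (fixK R e δ / k) ^ m)
  have hC : 0 ≤ C := mul_nonneg (Nat.cast_nonneg _) (mul_nonneg P.k_pos.le (P.even.pow_nonneg _))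
  set S := fun s => ∑ f ∈ A, fixEta H A Y R f s ^ m
  have hsub : Set.Icc 0 t ⊆ Set.Icc (0 : ℝ) 1 := Set.Icc_subset_Icc le_rfl ht.2
  have hanti : AntitoneOn (fun s => S s * Real.exp (-(B * fixPhi R s)) - m * C * fixPhi R s)
      (Set.Icc 0 t) := by
    refine antitoneOn_of_hasDerivWithinAt_nonpos (convex_Icc _ _)
      (f' := fun s => (R / (1 + 2 * R * s)) * (Real.exp (-(B * fixPhi R s)) *
        (m * -∑ f ∈ A, fixEta H A Y R f s ^ (m - 1) * fixDrift H A Y R f s - B * S s) - m * C))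
      (((continuousOn_finsetSum _ fun f _ => ((continuousOn_fixEta hc hR.le f).mono hsub).pow m).mul
        ((continuousOn_const.mul ((continuousOn_fixPhi hR.le).mono hsub)).neg.rexp)).sub
        (continuousOn_const.mul ((continuousOn_fixPhi hR.le).mono hsub)))
      (fun s hs => ?_) fun s hs => ?_
    · rw [interior_Icc] at hs
      have hs' : s ∈ Set.Icc (0 : ℝ) 1 := ⟨hs.1.le, hs.2.le.trans ht.2⟩
      have hI : ∀ f ∈ A, ∀ U ∈ star H A f, ∀ g ∈ U, lineInt Y g U s < 1 := by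
        intro f _ U hU g hg
        obtain ⟨hgA, hgS⟩ := mem_star_of (star_sub A f hU) hg
        linarith [(hgood s ⟨hs.1.le, hs.2⟩ g hgA).2 U hgS, P.k_le]
      have hd : HasDerivAt S (∑ f ∈ A, (m : ℝ) * fixEta H A Y R f s ^ (m - 1) *
          (-(R / (1 + 2 * R * s)) * fixDrift H A Y R f s)) s :=
        HasDerivAt.fun_sum fun f hf => (fixEta_deriv hH hY hc hR hf hs' (hI f hf)).pow m
      refine (((hd.mul (((fixPhi_deriv hR.le hs'.1).const_mul B).neg.exp)).sub
        ((fixPhi_deriv hR.le hs'.1).const_mul _)).congr_deriv ?_).hasDerivWithinAt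
      have : ∑ f ∈ A, (m : ℝ) * fixEta H A Y R f s ^ (m - 1) *
          (-(R / (1 + 2 * R * s)) * fixDrift H A Y R f s) = (R / (1 + 2 * R * s)) *
          (m * -∑ f ∈ A, fixEta H A Y R f s ^ (m - 1) * fixDrift H A Y R f s) := by
        rw [mul_neg, mul_neg, Finset.mul_sum, Finset.mul_sum, ← Finset.sum_neg_distrib]
        exact Finset.sum_congr rfl fun f _ => by ring
      rw [this]
      simp only [Pi.neg_apply]
      ring
    · rw [interior_Icc] at hs
      have hs' : s ∈ Set.Icc (0 : ℝ) 1 := ⟨hs.1.le, hs.2.le.trans ht.2⟩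
      have h := fix_drift_le hH hY hc P hs' hJk
        (fun x hx => hgood x ⟨hx.1, hx.2.trans hs.2⟩) (hgood s ⟨hs.1.le, hs.2⟩)
      refine mul_nonpos_of_nonneg_of_nonpos (by have := hs'.1; positivity) ?_
      set X := -∑ f ∈ A, fixEta H A Y R f s ^ (m - 1) * fixDrift H A Y R f s
      have h1 : m * X - B * S s ≤ m * C := by
        have := mul_le_mul_of_nonneg_left h m.cast_nonneg
        simp only [B, S, C] at this ⊢
        linarith
      have h2 := mul_le_mul_of_nonneg_left h1 (Real.exp_nonneg (-(B * fixPhi R s)))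
      have h3 : Real.exp (-(B * fixPhi R s)) * (m * C) ≤ 1 * (m * C) :=
        mul_le_mul_of_nonneg_right (Real.exp_le_one_iff.2 (by
          have := (fixPhi_mem hR.le hs').1; nlinarith)) (mul_nonneg m.cast_nonneg hC)
      linarith
  have h := hanti (Set.left_mem_Icc.2 ht.1) (Set.right_mem_Icc.2 ht.1) ht.1
  have h0 : S 0 = 0 := Finset.sum_eq_zero fun f _ => by
    have : fixEta H A Y R f 0 = 0 := by
      simp [fixEta, fixDev, fixPhi, rootY, lineInt]
    rw [this, zero_pow (by have := P.pos; omega)]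
  have p0 : fixPhi R 0 = 0 := by simp [fixPhi]
  simp only [h0, p0, mul_zero, sub_zero, zero_mul] at h
  obtain ⟨hp1, hp2⟩ := fixPhi_mem hR.le ht
  have h1 : S t * Real.exp (-(B * fixPhi R t)) ≤ m * C * fixPhi R 1 := by
    linarith [mul_le_mul_of_nonneg_left hp2 (mul_nonneg m.cast_nonneg hC)]
  have h2 : S t = Real.exp (B * fixPhi R t) * (S t * Real.exp (-(B * fixPhi R t))) := by
    rw [mul_left_comm, ← Real.exp_add, add_neg_cancel, Real.exp_zero, mul_one]
  show S t ≤ _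
  rw [h2]
  calc _ ≤ Real.exp (B * fixPhi R t) * (m * C * fixPhi R 1) :=
        mul_le_mul_of_nonneg_left h1 (Real.exp_nonneg _)
    _ ≤ Real.exp (B * fixPhi R 1) * (m * C * fixPhi R 1) :=
        mul_le_mul_of_nonneg_right (Real.exp_le_exp.2 (mul_le_mul_of_nonneg_left hp2 hB))
          (mul_nonneg (mul_nonneg m.cast_nonneg hC) (hp1.trans hp2))
    _ = _ := by ring

/-- Continuation: the bootstrap hypothesis holds at all times. -/
theorem fix_uniform (hH : Linear H) (hY : IsFix H A Y) (hc : ∀ f T, Continuous (Y f T))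
    (P : FixPar H A R m γ k e ε δ) (he : e < k / 2) (hJ : fixJ R < k)
    (hbig : Real.exp (m * (2 - γ / 2) * fixPhi R 1) *
      (m * fixPhi R 1 * (A.card * (k * (fixK R e δ / k) ^ m))) < (k / 2) ^ m) :
    ∀ t ∈ Set.Icc (0 : ℝ) 1, FixGood H A Y R k t := by
  classical
  set Z : Finset (V × Finset V) := A ×ˢ (alive H A)
  set bad : Set ℝ := {t ∈ Set.Icc (0 : ℝ) 1 | (∃ f ∈ A, k ≤ |fixDev H A Y R f t|) ∨
    ∃ p ∈ Z, p.2 ∈ star H A p.1 ∧ k ≤ lineInt Y p.1 p.2 t}
  have hclosed : IsClosed bad := by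
    have : bad = Set.Icc (0 : ℝ) 1 ∩ ((⋃ f ∈ A, {t | k ≤ |fixDev H A Y R f t|}) ∪
        ⋃ p ∈ Z.filter (fun p => p.2 ∈ star H A p.1), {t | k ≤ lineInt Y p.1 p.2 t}) := by
      ext t
      simp [bad, and_assoc, and_or_left]
    rw [this]
    exact isClosed_Icc.inter ((A.finite_toSet.isClosed_biUnion fun f _ =>
      isClosed_le continuous_const (continuous_fixDev hc f).abs).union
      ((Finset.finite_toSet _).isClosed_biUnion fun p _ =>
        isClosed_le continuous_const (continuous_lineInt hc p.1 p.2)))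
  have hgoodof : ∀ s ∈ Set.Icc (0 : ℝ) 1, s ∉ bad → FixGood H A Y R k s := by
    intro s hs hb f hf
    refine ⟨le_of_not_gt fun h => hb ⟨hs, Or.inl ⟨f, hf, h.le⟩⟩, fun U hU => le_of_not_gt fun h =>
      hb ⟨hs, Or.inr ⟨(f, U), Finset.mem_product.2 ⟨hf, star_sub A f hU⟩, hU, h.le⟩⟩⟩
  rcases bad.eq_empty_or_nonempty with he0 | hne
  · exact fun t ht => hgoodof t ht (he0 ▸ Set.notMem_empty t)
  exfalso
  have hbdd : BddBelow bad := ⟨0, fun t ht => ht.1.1⟩
  obtain ⟨ht, hcase⟩ := hclosed.csInf_mem hne hbdd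
  set t₀ := sInf bad
  have hpre : ∀ s ∈ Set.Ico 0 t₀, FixGood H A Y R k s := fun s hs =>
    hgoodof s ⟨hs.1, hs.2.le.trans ht.2⟩ (notMem_of_lt_csInf hs.2 hbdd)
  rcases hcase with ⟨f, hf, hbad⟩ | ⟨⟨f, U⟩, hp, hU, hbad⟩
  · have hm := (Finset.single_le_sum (f := fun g => fixEta H A Y R g t₀ ^ m)
      (fun g _ => P.even.pow_nonneg _) hf).trans
        (fix_moment hH hY hc P (by linarith [P.k_le]) ht hpre)
    have h1 : |fixEta H A Y R f t₀| < k / 2 := by
      refine lt_of_pow_lt_pow_left₀ m (by linarith [P.k_pos]) ?_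
      rw [P.even.pow_abs]
      linarith
    linarith [fix_abs_dev_le (Y := Y) P hf ht]
  · have := fix_lineInt_le hH hY hc P (Finset.mem_product.1 hp).1 hU ht hpre
    linarith

end

end Vale.Agent.P046.Full
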