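import Vale.Agent.P046.Full.Statements

/-!
# P046: a continuous solution of the tree recursion
-/

open Finset MeasureTheory
open scoped NNReal

namespace Vale.Agent.P046.Full

open Vale.Agent.P046

noncomputable section

variable {V : Type*} [Fintype V] [DecidableEq V]

/-- The state of the recursion: one coordinate for each point and line. -/
abbrev FixIdx (V : Type*) := V × Finset V → ℝ

/-- Clamping to the cube. -/
def fixClamp (x : FixIdx V) : FixIdx V := fun p => max 0 (min 1 (x p))

/-- The polynomial vector field of the recursion. -/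
def fixField (H : Finset (Finset V)) (A : Finset V) (x : FixIdx V) : FixIdx V :=
  fun p => ∏ g ∈ p.2.erase p.1, ∏ U ∈ (star H A g).erase p.2, (1 - x (g, U))

omit [Fintype V] [DecidableEq V] in
lemma fixClamp_mem (x : FixIdx V) : fixClamp x ∈ Set.Icc (0 : FixIdx V) 1 :=
  ⟨fun _ => le_max_left _ _, fun _ => max_le zero_le_one (min_le_left _ _)⟩

omit [DecidableEq V] in
lemma fixClamp_lip : LipschitzWith 1 (fixClamp (V := V)) := by
  refine LipschitzWith.of_dist_le_mul fun x y => ?_
  rw [NNReal.coe_one, one_mul, dist_pi_le_iff dist_nonneg]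
  intro p
  refine le_trans ?_ (dist_le_pi_dist x y p)
  simp only [fixClamp, Real.dist_eq]
  exact (abs_max_sub_max_le_max _ _ _ _).trans
    ((max_le (by simp) le_rfl).trans ((abs_min_sub_min_le_max _ _ _ _).trans (max_le (by simp) le_rfl)))

omit [Fintype V] in
lemma fixField_mem (H : Finset (Finset V)) (A : Finset V) (x : FixIdx V)
    (hx : x ∈ Set.Icc (0 : FixIdx V) 1) (p : V × Finset V) :
    fixField H A x p ∈ Set.Icc (0 : ℝ) 1 :=
  have h : ∀ q, 0 ≤ 1 - x q ∧ 1 - x q ≤ 1 := fun q => by
    have h1 : 0 ≤ x q := hx.1 q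
    have h2 : x q ≤ 1 := hx.2 q
    constructor <;> linarith
  ⟨prod_nonneg fun _ _ => prod_nonneg fun _ _ => (h _).1,
    prod_le_one (fun _ _ => prod_nonneg fun _ _ => (h _).1)
      fun _ _ => prod_le_one (fun _ _ => (h _).1) fun _ _ => (h _).2⟩

/-- Existence of a continuous solution of the recursion. -/
theorem fix_exists (H : Finset (Finset V)) (A : Finset V) :
    ∃ Y, IsFix H A Y ∧ ∀ f T, Continuous (Y f T) := by
  set F : FixIdx V → FixIdx V := fun x => fixField H A (fixClamp x) with hF
  obtain ⟨K, hK⟩ : ∃ K, LipschitzOnWith K (fixField H A) (Set.Icc (0 : FixIdx V) 1) := by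
    refine ContDiffOn.exists_lipschitzOnWith (n := 1) ?_ one_ne_zero (convex_Icc _ _) isCompact_Icc
    refine (contDiff_pi.2 fun p => ?_).contDiffOn
    exact contDiff_prod fun g _ => contDiff_prod fun U _ =>
      contDiff_const.sub (contDiff_apply ℝ ℝ (g, U))
  have hlip : LipschitzWith (K * 1) F := by
    rw [← lipschitzOnWith_univ]
    exact hK.comp fixClamp_lip.lipschitzOnWith fun x _ => fixClamp_mem x
  have hb : ∀ x p, F x p ∈ Set.Icc (0 : ℝ) 1 := fun x p => fixField_mem H A _ (fixClamp_mem x) p
  have hpl : IsPicardLindelof (fun _ => F) (tmin := 0) (tmax := 1) ⟨0, by simp⟩ (0 : FixIdx V)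
      1 0 1 (K * 1) := by
    refine IsPicardLindelof.of_time_independent (fun x _ => ?_) hlip.lipschitzOnWith (by simp)
    rw [NNReal.coe_one, pi_norm_le_iff_of_nonneg zero_le_one]
    exact fun p => by rw [Real.norm_eq_abs, abs_of_nonneg (hb x p).1]; exact (hb x p).2
  obtain ⟨α, hα⟩ := ODE.FunSpace.exists_isFixedPt_next hpl (Metric.mem_closedBall_self le_rfl)
  set I := α.compProj with hI
  have hIc : Continuous I := ODE.FunSpace.continuous_compProj α
  have hFc : Continuous fun t => F (I t) := hlip.continuous.comp hIc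
  have hint : ∀ t ∈ Set.Icc (0 : ℝ) 1, ∀ p, I t p = ∫ s in (0 : ℝ)..t, F (I s) p := by
    intro t ht p
    have h : I t = ∫ s in (0 : ℝ)..t, F (I s) := by
      conv_lhs => rw [hI, ODE.FunSpace.compProj_of_mem ht, ← hα.eq, ODE.FunSpace.next_apply]
      simp [ODE.picard, hI]
    rw [h]
    exact (ContinuousLinearMap.proj (R := ℝ) (φ := fun _ : V × Finset V => ℝ) p).intervalIntegral_comp_comm
      (hFc.intervalIntegrable _ _) |>.symm
  have hImem : ∀ t ∈ Set.Icc (0 : ℝ) 1, fixClamp (I t) = I t := by
    intro t ht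
    funext p
    have h0 : 0 ≤ I t p := by
      rw [hint t ht p]; exact intervalIntegral.integral_nonneg ht.1 fun s _ => (hb _ p).1
    have h1 : I t p ≤ 1 := by
      rw [hint t ht p]
      refine (intervalIntegral.integral_mono_on ht.1 (((continuous_apply p).comp hFc).intervalIntegrable _ _)
        intervalIntegrable_const fun s _ => (hb _ p).2).trans ?_
      simpa using ht.2
    simp [fixClamp, h0, h1]
  set Y : V → Finset V → ℝ → ℝ :=
    fun f T t => ∏ U ∈ (star H A f).erase T, (1 - fixClamp (I t) (f, U)) with hY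
  have hYc : ∀ f T, Continuous (Y f T) := fun f T =>
    continuous_finsetProd _ fun U _ => continuous_const.sub
      (((continuous_apply _).comp fixClamp_lip.continuous).comp hIc)
  refine ⟨Y, ⟨fun f T => (hYc f T).continuousOn, fun f T t _ => ?_, fun f _ T _ t ht => ?_⟩, hYc⟩
  · have h : ∀ U, 0 ≤ 1 - fixClamp (I t) (f, U) ∧ 1 - fixClamp (I t) (f, U) ≤ 1 := fun U => by
      have h1 : 0 ≤ fixClamp (I t) (f, U) := (fixClamp_mem (I t)).1 _
      have h2 : fixClamp (I t) (f, U) ≤ 1 := (fixClamp_mem (I t)).2 _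
      constructor <;> linarith
    exact ⟨prod_nonneg fun U _ => (h U).1, prod_le_one (fun U _ => (h U).1) fun U _ => (h U).2⟩
  · refine prod_congr rfl fun U _ => ?_
    rw [hImem t ht, hint t ht (f, U)]
    exact congrArg (1 - ·) (intervalIntegral.integral_congr fun s _ => rfl)

end

end Vale.Agent.P046.Full
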