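import Vale.Agent.P046.Full.Statements

/-!
# P046: the linearised flow of the tree recursion

With `q_f = rootY_f / ybar`, `w = q - 1`, `φ = ∫ ρ`, `η = w + φ u` one has
`η' = -ρ (A η - φ D + u w + higher order)`.
-/

open Finset MeasureTheory

namespace Vale.Agent.P046.Full

open Vale.Agent.P046

noncomputable section

variable {V : Type*} [DecidableEq V] {H : Finset (Finset V)} {A : Finset V}
  {Y : V → Finset V → ℝ → ℝ} {R : ℝ}

/-- The clock of the regular tree. -/
def fixPhi (R t : ℝ) : ℝ := Real.log (1 + 2 * R * t) / 2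

/-- Relative deviation of the root value. -/
def fixDev (H : Finset (Finset V)) (A : Finset V) (Y : V → Finset V → ℝ → ℝ) (R : ℝ) (f : V)
    (t : ℝ) : ℝ :=
  rootY H A Y f t * Real.sqrt (1 + 2 * R * t) - 1

/-- The deviation with its first order part removed. -/
def fixEta (H : Finset (Finset V)) (A : Finset V) (Y : V → Finset V → ℝ → ℝ) (R : ℝ) (f : V)
    (t : ℝ) : ℝ :=
  fixDev H A Y R f t + fixPhi R t * (deg H A f / R - 1)

/-- The correction factor of one line. -/
def fixTheta (Y : V → Finset V → ℝ → ℝ) (U : Finset V) (t : ℝ) : ℝ :=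
  ∏ g ∈ U, (1 / (1 - lineInt Y g U t))

/-- The higher order part of one line. -/
def fixErr (H : Finset (Finset V)) (A : Finset V) (Y : V → Finset V → ℝ → ℝ) (R : ℝ) (f : V)
    (U : Finset V) (t : ℝ) : ℝ :=
  (∏ g ∈ U, (1 + fixDev H A Y R g t)) * fixTheta Y U t - (1 + fixDev H A Y R f t) -
    ∑ g ∈ U.erase f, fixDev H A Y R g t

/-- The drift of `η`. -/
def fixDrift (H : Finset (Finset V)) (A : Finset V) (Y : V → Finset V → ℝ → ℝ) (R : ℝ) (f : V)
    (t : ℝ) : ℝ :=
  (∑ U ∈ star H A f, ∑ g ∈ U.erase f, fixEta H A Y R g t) / R - fixPhi R t * devD H A R f +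
    (deg H A f / R - 1) * fixDev H A Y R f t + (∑ U ∈ star H A f, fixErr H A Y R f U t) / R

lemma lineInt_deriv (hc : ∀ f T, Continuous (Y f T)) (f : V) (U : Finset V) (t : ℝ) :
    HasDerivAt (lineInt Y f U) (∏ g ∈ U.erase f, Y g U t) t := by
  have h : Continuous fun s => ∏ g ∈ U.erase f, Y g U s := continuous_finsetProd _ fun g _ => hc g U
  exact intervalIntegral.integral_hasDerivAt_right (h.intervalIntegrable _ _)
    (h.stronglyMeasurableAtFilter _ _) h.continuousAt

lemma continuous_lineInt (hc : ∀ f T, Continuous (Y f T)) (f : V) (U : Finset V) :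
    Continuous (lineInt Y f U) :=
  continuous_iff_continuousAt.2 fun t => (lineInt_deriv hc f U t).continuousAt

lemma lineInt_nonneg (hY : IsFix H A Y) (f : V) (U : Finset V) {t : ℝ} (ht : t ∈ Set.Icc (0 : ℝ) 1) :
    0 ≤ lineInt Y f U t :=
  intervalIntegral.integral_nonneg ht.1 fun s hs =>
    prod_nonneg fun g _ => (hY.mem g U s ⟨hs.1, hs.2.trans ht.2⟩).1

lemma mem_star_of {U : Finset V} (hU : U ∈ alive H A) {g : V} (hg : g ∈ U) : g ∈ A ∧ U ∈ star H A g :=
  ⟨(mem_alive.1 hU).2 hg, mem_star.2 ⟨(mem_alive.1 hU).1, (mem_alive.1 hU).2, hg⟩⟩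

lemma fix_root_split (hY : IsFix H A Y) {f : V} (hf : f ∈ A) {U : Finset V} (hU : U ∈ star H A f)
    {t : ℝ} (ht : t ∈ Set.Icc (0 : ℝ) 1) :
    rootY H A Y f t = (1 - lineInt Y f U t) * Y f U t := by
  rw [hY.eqn f hf U hU t ht, rootY]
  exact (Finset.mul_prod_erase _ _ hU).symm

lemma rootY_deriv (hY : IsFix H A Y) (hc : ∀ f T, Continuous (Y f T)) {f : V} (hf : f ∈ A)
    {t : ℝ} (ht : t ∈ Set.Icc (0 : ℝ) 1) :
    HasDerivAt (rootY H A Y f) (-∑ U ∈ star H A f, ∏ g ∈ U, Y g U t) t := by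
  refine (HasDerivAt.fun_finsetProd fun U _ => (lineInt_deriv hc f U t).const_sub 1).congr_deriv ?_
  rw [← Finset.sum_neg_distrib]
  refine Finset.sum_congr rfl fun U hU => ?_
  rw [smul_eq_mul, ← hY.eqn f hf U hU t ht, ← Finset.mul_prod_erase _ _ (mem_star.1 hU).2.2]
  ring

lemma continuous_rootY (hc : ∀ f T, Continuous (Y f T)) (f : V) : Continuous (rootY H A Y f) :=
  continuous_finsetProd _ fun U _ => continuous_const.sub (continuous_lineInt hc f U)

lemma fix_sqrt_pos (hR : 0 ≤ R) {t : ℝ} (ht : 0 ≤ t) : 0 < Real.sqrt (1 + 2 * R * t) :=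
  Real.sqrt_pos.2 (by positivity)

lemma fixPhi_deriv (hR : 0 ≤ R) {t : ℝ} (ht : 0 ≤ t) :
    HasDerivAt (fixPhi R) (R / (1 + 2 * R * t)) t := by
  have h : HasDerivAt (fun s => 1 + 2 * R * s) (2 * R) t := by
    simpa using ((hasDerivAt_id t).const_mul (2 * R)).const_add 1
  refine ((h.log (by positivity)).div_const 2).congr_deriv ?_
  field_simp

lemma fixPhi_mem (hR : 0 ≤ R) {t : ℝ} (ht : t ∈ Set.Icc (0 : ℝ) 1) :
    0 ≤ fixPhi R t ∧ fixPhi R t ≤ fixPhi R 1 := by
  have h0 : 0 ≤ 2 * R * t := by have := ht.1; positivity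
  have h1 : 2 * R * t ≤ 2 * R * 1 := mul_le_mul_of_nonneg_left ht.2 (by positivity)
  exact ⟨div_nonneg (Real.log_nonneg (by linarith)) zero_le_two,
    div_le_div_of_nonneg_right (Real.log_le_log (by linarith) (by linarith)) zero_le_two⟩

lemma continuousOn_fixPhi (hR : 0 ≤ R) : ContinuousOn (fixPhi R) (Set.Icc 0 1) := fun _ hs =>
  (fixPhi_deriv hR hs.1).continuousAt.continuousWithinAt

lemma continuous_fixDev (hc : ∀ f T, Continuous (Y f T)) (f : V) :
    Continuous (fixDev H A Y R f) :=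
  ((continuous_rootY hc f).mul (Real.continuous_sqrt.comp (by fun_prop))).sub continuous_const

lemma continuousOn_fixEta (hc : ∀ f T, Continuous (Y f T)) (hR : 0 ≤ R) (f : V) :
    ContinuousOn (fixEta H A Y R f) (Set.Icc 0 1) :=
  (continuous_fixDev hc f).continuousOn.add ((continuousOn_fixPhi hR).mul continuousOn_const)

lemma fix_prod_eq (hY : IsFix H A Y) {U : Finset V} (hU : U ∈ alive H A) {t : ℝ}
    (ht : t ∈ Set.Icc (0 : ℝ) 1) (hI : ∀ g ∈ U, lineInt Y g U t < 1) :
    (∏ g ∈ U, Y g U t) * Real.sqrt (1 + 2 * R * t) ^ U.card =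
      (∏ g ∈ U, (1 + fixDev H A Y R g t)) * fixTheta Y U t := by
  rw [← Finset.prod_const, fixTheta, ← Finset.prod_mul_distrib, ← Finset.prod_mul_distrib]
  refine Finset.prod_congr rfl fun g hg => ?_
  obtain ⟨hgA, hgS⟩ := mem_star_of hU hg
  have h1 : 1 - lineInt Y g U t ≠ 0 := by linarith [hI g hg]
  rw [fixDev, fix_root_split hY hgA hgS ht]
  field_simp
  ring

theorem fixEta_deriv (hH : Linear H) (hY : IsFix H A Y) (hc : ∀ f T, Continuous (Y f T))
    (hR : 0 < R) {f : V} (hf : f ∈ A) {t : ℝ} (ht : t ∈ Set.Icc (0 : ℝ) 1)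
    (hI : ∀ U ∈ star H A f, ∀ g ∈ U, lineInt Y g U t < 1) :
    HasDerivAt (fixEta H A Y R f) (-(R / (1 + 2 * R * t)) * fixDrift H A Y R f t) t := by
  have hpos : 0 < 1 + 2 * R * t := by have := ht.1; positivity
  have hs := fix_sqrt_pos hR.le ht.1
  set s := Real.sqrt (1 + 2 * R * t) with hsd
  have hs2 : s ^ 2 = 1 + 2 * R * t := Real.sq_sqrt hpos.le
  have hS : HasDerivAt (fun x => Real.sqrt (1 + 2 * R * x)) (R / s) t := by
    have h : HasDerivAt (fun x => 1 + 2 * R * x) (2 * R) t := by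
      simpa using ((hasDerivAt_id t).const_mul (2 * R)).const_add 1
    refine (h.sqrt hpos.ne').congr_deriv ?_
    rw [← hsd]; field_simp
  refine ((((rootY_deriv hY hc hf ht).mul hS).sub_const 1).add
    ((fixPhi_deriv hR.le ht.1).mul_const _)).congr_deriv ?_
  set w := fun g => fixDev H A Y R g t with hw
  have hroot : rootY H A Y f t * s = 1 + w f := by simp [hw, fixDev, hsd]
  have hsum : (∑ U ∈ star H A f, ∏ g ∈ U, Y g U t) * s ^ 3 =
      deg H A f * (1 + w f) + ∑ U ∈ star H A f, ∑ g ∈ U.erase f, w g +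
        ∑ U ∈ star H A f, fixErr H A Y R f U t := by
    rw [Finset.sum_mul, deg, ← nsmul_eq_mul, ← Finset.sum_const, ← Finset.sum_add_distrib,
      ← Finset.sum_add_distrib]
    refine Finset.sum_congr rfl fun U hU => ?_
    have h := fix_prod_eq (R := R) hY (star_sub A f hU) ht (hI U hU)
    rw [hH.card3 U (mem_star.1 hU).1] at h
    rw [hsd, h, fixErr]
    ring
  have heta : ∑ U ∈ star H A f, ∑ g ∈ U.erase f, fixEta H A Y R g t =
      ∑ U ∈ star H A f, ∑ g ∈ U.erase f, w g + fixPhi R t * (devD H A R f * R) := by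
    rw [devD, div_mul_cancel₀ _ hR.ne', Finset.mul_sum, ← Finset.sum_add_distrib]
    refine Finset.sum_congr rfl fun U _ => ?_
    rw [Finset.mul_sum, ← Finset.sum_add_distrib]
    exact Finset.sum_congr rfl fun g _ => rfl
  rw [fixDrift, heta]
  have hP : (∑ U ∈ star H A f, ∏ g ∈ U, Y g U t) = (deg H A f * (1 + w f) +
      ∑ U ∈ star H A f, ∑ g ∈ U.erase f, w g + ∑ U ∈ star H A f, fixErr H A Y R f U t) / s ^ 3 := by
    rw [← hsum, mul_div_assoc, div_self (pow_ne_zero 3 hs.ne'), mul_one]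
  have hr : rootY H A Y f t = (1 + w f) / s := by rw [← hroot]; field_simp
  rw [hP, hr]
  rw [show fixDev H A Y R f t = w f from rfl, ← hsd, ← hs2]
  field_simp
  ring

end

end Vale.Agent.P046.Full
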