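import Vale.Agent.P046.Full.FixExist
import Vale.Agent.P046.Full.FixBound

/-!
# P046: the unfolded tree is uniformly close to the regular tree
-/

open Finset Filter
open scoped Topology

namespace Vale.Agent.P046.Full

open Vale.Agent.P046

noncomputable section

/-- The parameters are admissible for large `R`. -/
lemma fix_eventually {P μ γ k : ℝ} {m : ℕ} (hμ : 0 < μ) (hμ' : μ ≤ 1 / 10)
    (hk : 0 < k) (hγ : γ ≤ 1) (hγ0 : 0 < γ)
    (hexp : P + m * (1 - γ / 4) - m * (1 - 2 * μ) ≤ -1) :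
    ∀ᶠ R : ℝ in atTop, 3 ≤ R ∧ R ^ (-(1 / 2 - μ)) ≤ min k (γ / 8) ∧
      (fixPhi R 1 + 1) * R ^ (-(1 / 2 - μ)) < k / 2 ∧ fixJ R < k ∧
      Real.exp (m * (2 - γ / 2) * fixPhi R 1) * (m * fixPhi R 1 * (R ^ P *
        (k * (fixK R ((fixPhi R 1 + 1) * R ^ (-(1 / 2 - μ))) (R ^ (-(1 - μ))) / k) ^ m))) < (k / 2) ^ m := by
  set Cm := (3 : ℝ) ^ ((m : ℝ) * (1 - γ / 4)) * m * k * (1400 / k) ^ m with hCm
  have t1 : Tendsto (fun R : ℝ => R ^ (-(1 / 2 - μ))) atTop (𝓝 0) :=
    tendsto_rpow_neg_atTop (by linarith)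
  have t2 : Tendsto (fun R : ℝ => Real.log R * R ^ (-(1 / 2 - μ))) atTop (𝓝 0) := by
    refine (isLittleO_log_rpow_atTop (by linarith : 0 < 1 / 2 - μ)).tendsto_div_nhds_zero.congr' ?_
    filter_upwards [eventually_gt_atTop 0] with R hR
    rw [Real.rpow_neg hR.le, div_eq_mul_inv]
  have t3 : Tendsto (fun R : ℝ => Real.log R * R⁻¹) atTop (𝓝 0) := by
    refine (isLittleO_log_rpow_atTop one_pos).tendsto_div_nhds_zero.congr' ?_
    filter_upwards with R
    rw [Real.rpow_one, div_eq_mul_inv]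
  have t4 : Tendsto (fun R : ℝ => Cm * (Real.log R ^ (2 * m + 1) * R⁻¹)) atTop (𝓝 0) := by
    simpa [div_eq_mul_inv] using ((Real.isLittleO_pow_log_id_atTop (n := 2 * m + 1)).tendsto_div_nhds_zero).const_mul Cm
  filter_upwards [eventually_ge_atTop 3, t1.eventually (ge_mem_nhds (lt_min hk (by positivity : 0 < γ / 8))),
    t2.eventually (gt_mem_nhds (by positivity : (0 : ℝ) < k / 4)),
    t3.eventually (gt_mem_nhds (by positivity : (0 : ℝ) < k / 4)),
    t4.eventually (gt_mem_nhds (pow_pos (half_pos hk) m))] with R h3 h1 h2 hJ h4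
  have hR0 : (0 : ℝ) < R := by linarith
  have hl1 : 1 ≤ Real.log R := by
    rw [Real.le_log_iff_exp_le hR0]; linarith [Real.exp_one_lt_d9]
  have hφ0 : 0 ≤ fixPhi R 1 := (fixPhi_mem hR0.le (Set.right_mem_Icc.2 zero_le_one)).1
  have hφ : fixPhi R 1 ≤ Real.log R := by
    have h : Real.log (1 + 2 * R * 1) ≤ Real.log (R * R) :=
      Real.log_le_log (by linarith) (by nlinarith)
    rw [Real.log_mul hR0.ne' hR0.ne'] at h
    unfold fixPhi; linarith
  set x := R ^ (-(1 / 2 - μ))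
  have hx : 0 < x := Real.rpow_pos_of_pos hR0 _
  have he : (fixPhi R 1 + 1) * x ≤ 2 * Real.log R * x :=
    mul_le_mul_of_nonneg_right (by linarith) hx.le
  have hJ' : fixJ R ≤ 4 * (Real.log R * R⁻¹) := by
    rw [fixJ, div_eq_mul_inv, mul_assoc]
    exact mul_le_mul_of_nonneg_left (mul_le_mul_of_nonneg_right hφ (inv_nonneg.2 hR0.le)) (by norm_num)
  refine ⟨h3, h1, by linarith, by linarith, ?_⟩
  set a := R ^ (-(1 - 2 * μ))
  have ha : 0 < a := Real.rpow_pos_of_pos hR0 _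
  have hx2 : x ^ 2 = a := by
    simp only [x, a]
    rw [← Real.rpow_natCast, ← Real.rpow_mul hR0.le]; congr 1; push_cast; ring
  have hδ : R ^ (-(1 - μ)) ≤ a :=
    Real.rpow_le_rpow_of_exponent_le (by linarith) (by linarith)
  have hinv : R⁻¹ ≤ a := by
    rw [← Real.rpow_neg_one]; exact Real.rpow_le_rpow_of_exponent_le (by linarith) (by linarith)
  set l := Real.log R
  have hl2 : l ≤ l ^ 2 := by nlinarith
  have hJ0 : 0 ≤ fixJ R := by unfold fixJ; positivity
  set K := fixK R ((fixPhi R 1 + 1) * x) (R ^ (-(1 - μ))) with hKdef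
  have hK0 : 0 ≤ K := by
    have := Real.rpow_nonneg hR0.le (-(1 - μ))
    rw [hKdef, fixK]; positivity
  have hK : K ≤ 1400 * l ^ 2 * a := by
    have h5 : fixPhi R 1 * R ^ (-(1 - μ)) ≤ l * a :=
      mul_le_mul hφ hδ (Real.rpow_nonneg hR0.le _) (by linarith)
    have h6 : ((fixPhi R 1 + 1) * x) ^ 2 ≤ 4 * l ^ 2 * a := by
      refine (pow_le_pow_left₀ (by positivity) he 2).trans_eq ?_
      rw [← hx2]; ring
    have h7 : l * R⁻¹ ≤ l ^ 2 * a :=
      mul_le_mul hl2 hinv (inv_nonneg.2 hR0.le) (by positivity)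
    have : l * a ≤ l ^ 2 * a := mul_le_mul_of_nonneg_right hl2 ha.le
    have : 0 ≤ l ^ 2 * a := by positivity
    rw [hKdef, fixK]
    linarith
  have hexp' : Real.exp (m * (2 - γ / 2) * fixPhi R 1) ≤ (3 * R) ^ ((m : ℝ) * (1 - γ / 4)) := by
    have e : Real.exp (m * (2 - γ / 2) * fixPhi R 1) = (1 + 2 * R * 1) ^ ((m : ℝ) * (1 - γ / 4)) := by
      rw [Real.rpow_def_of_pos (by linarith), fixPhi]; ring_nf
    rw [e]
    exact Real.rpow_le_rpow (by linarith) (by linarith) (mul_nonneg m.cast_nonneg (by linarith))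
  have hRexp : R ^ ((m : ℝ) * (1 - γ / 4)) * R ^ P * a ^ m ≤ R⁻¹ := by
    simp only [a]
    rw [← Real.rpow_natCast (R ^ (-(1 - 2 * μ))) m, ← Real.rpow_mul hR0.le, ← Real.rpow_add hR0,
      ← Real.rpow_add hR0, ← Real.rpow_neg_one R]
    exact Real.rpow_le_rpow_of_exponent_le (by linarith) (by linarith)
  calc Real.exp (m * (2 - γ / 2) * fixPhi R 1) * (m * fixPhi R 1 * (R ^ P * (k * (K / k) ^ m)))
      ≤ (3 * R) ^ ((m : ℝ) * (1 - γ / 4)) * (m * l * (R ^ P * (k * (1400 * l ^ 2 * a / k) ^ m))) := by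
        gcongr
    _ = Cm * (l ^ (2 * m + 1) * (R ^ ((m : ℝ) * (1 - γ / 4)) * R ^ P * a ^ m)) := by
        rw [Real.mul_rpow (by norm_num) hR0.le, hCm, div_pow, mul_pow, mul_pow, div_pow, ← pow_mul,
          pow_succ]
        ring
    _ ≤ Cm * (l ^ (2 * m + 1) * R⁻¹) := by gcongr
    _ < _ := h4

/-- The unfolded tree is close to the regular tree. -/
theorem fix_stmt : FixStmt := by
  intro P hP
  obtain ⟨M, hM⟩ := eventually_atTop.1 (exists_line_moment (16 * P) (by linarith))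
  obtain ⟨n0, hn0⟩ := exists_nat_ge (16 * P)
  set m := 2 * (M + n0 + 1) with hm
  have hme : Even m := even_two_mul _
  have hmP : 16 * P ≤ m := hn0.trans (by exact_mod_cast (by omega : n0 ≤ m))
  have hm0 : (0 : ℝ) < m := by linarith
  have hline := hM m (by omega) hme
  set γ := 16 * P / m with hγ
  have hγ0 : 0 < γ := div_pos (by linarith) hm0
  have hγ1 : γ ≤ 1 := (div_le_one hm0).2 hmP
  have hγm : (m : ℝ) * γ = 16 * P := by rw [hγ]; field_simp
  refine ⟨min (1 / 10) (P / (2 * m)), lt_min (by norm_num) (by positivity), min_le_left _ _,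
    fun κ hκ => ?_⟩
  set μ := min (1 / 10 : ℝ) (P / (2 * m)) with hμ
  have hμ0 : 0 < μ := lt_min (by norm_num) (by positivity)
  have hμm : 2 * μ * m ≤ P := by
    have := mul_le_mul_of_nonneg_right (min_le_right (1 / 10 : ℝ) (P / (2 * m))) (by positivity : (0 : ℝ) ≤ 2 * m)
    rw [div_mul_cancel₀ _ (by positivity)] at this
    linarith
  set k := min (γ / 160) (κ / 4)
  have hk : 0 < k := lt_min (by positivity) (by positivity)
  have hkg : k ≤ γ / 160 := min_le_left _ _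
  have hkκ : k ≤ κ / 4 := min_le_right _ _
  obtain ⟨R₀, hR₀⟩ := eventually_atTop.1
    (fix_eventually (P := P) (m := m) hμ0 (min_le_left _ _) hk hγ1 hγ0 (by nlinarith))
  refine ⟨R₀, fun V _ _ H A R hH hR hA hreg => ?_⟩
  obtain ⟨hR3, hεk, he, hJ, hbig⟩ := hR₀ R hR
  have hR0 : 0 < R := by linarith
  obtain ⟨Y, hY, hc⟩ := fix_exists H A
  refine ⟨Y, hY, fun f hf t ht => ?_⟩
  have hε0 : 0 ≤ R ^ (-(1 / 2 - μ)) := Real.rpow_nonneg hR0.le _
  have hδ0 : 0 ≤ R ^ (-(1 - μ)) := Real.rpow_nonneg hR0.le _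
  have Ppar : FixPar H A R m γ k ((fixPhi R 1 + 1) * R ^ (-(1 / 2 - μ))) (R ^ (-(1 / 2 - μ)))
      (R ^ (-(1 - μ))) :=
    { even := hme, pos := by omega, line := hline, gam_le := hγ1, k_pos := hk
      k_le := by linarith
      k_gam := by linarith [min_le_right k (γ / 8)]
      R_pos := hR0
      dev := fun g hg => (hreg g hg).1
      devD := fun g hg => (hreg g hg).2
      eps_le := hεk.trans (min_le_left _ _)
      e_le := by linarith
      e_def := rfl
      eps_nonneg := hε0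
      delta_nonneg := hδ0 }
  obtain ⟨hw, hI⟩ := fix_uniform hH hY hc Ppar he hJ (lt_of_le_of_lt (by
    have := (fixPhi_mem hR0.le (Set.right_mem_Icc.2 zero_le_one)).1
    have hp := hme.pow_nonneg (fixK R ((fixPhi R 1 + 1) * R ^ (-(1 / 2 - μ))) (R ^ (-(1 - μ))) / k)
    gcongr) hbig) t ht f hf
  have hs := fix_sqrt_pos hR0.le ht.1
  refine ⟨?_, fun T hT => ?_⟩
  · have : rootY H A Y f t / ybar R t - 1 = fixDev H A Y R f t := by
      simp [ybar, fixDev]
    rw [this]; linarith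
  · have hI' := hI T hT
    rw [fix_Y_eq hY hR0.le hf hT ht (by linarith [Ppar.k_le]), ybar, ← div_eq_mul_one_div]
    refine div_le_div_of_nonneg_right ?_ hs.le
    rw [div_le_iff₀ (by linarith [Ppar.k_le])]
    nlinarith [(abs_le.1 hw).2, mul_le_mul_of_nonneg_left hI' hκ.le, Ppar.k_le]

end

end Vale.Agent.P046.Full
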