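import Mathlib
import Vale.Agent.P046.Full.PhaseADefs

/-!
# P046: basic facts about the triangles of the complete graph
-/

open Finset

namespace Vale.Agent.P046.Full

open Vale.Agent.P046

noncomputable section

variable {n : ℕ}

/-- The edges of a vertex set. -/
def edgesOf (t : Finset (Fin n)) : Finset (Edge n) := Finset.univ.filter fun e => e.1 ⊆ t

lemma mem_edgesOf {t : Finset (Fin n)} {e : Edge n} : e ∈ edgesOf t ↔ e.1 ⊆ t := by simp [edgesOf]

lemma triangles_eq : triangles n = ((Finset.univ : Finset (Fin n)).powersetCard 3).image edgesOf := rfl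

lemma mem_triangles {T : Finset (Edge n)} :
    T ∈ triangles n ↔ ∃ t : Finset (Fin n), t.card = 3 ∧ edgesOf t = T := by
  simp [triangles_eq, Finset.mem_powersetCard]

lemma card_edgesOf (t : Finset (Fin n)) : (edgesOf t).card = t.card.choose 2 := by
  rw [← Finset.card_powersetCard]
  refine Finset.card_bij (fun e _ => e.1) (fun e he => ?_) (fun a _ b _ h => Subtype.ext h)
    (fun s hs => ?_)
  · exact Finset.mem_powersetCard.2 ⟨mem_edgesOf.1 he, e.2⟩
  · obtain ⟨h1, h2⟩ := Finset.mem_powersetCard.1 hs
    exact ⟨⟨s, h2⟩, mem_edgesOf.2 h1, rfl⟩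

lemma edgesOf_inj {t t' : Finset (Fin n)} (ht : t.card = 3) (h : edgesOf t = edgesOf t') : t ⊆ t' := by
  intro x hx
  obtain ⟨y, hy⟩ := Finset.card_pos.1 (by rw [Finset.card_erase_of_mem hx, ht]; norm_num :
    0 < (t.erase x).card)
  obtain ⟨hyx, hyt⟩ := Finset.mem_erase.1 hy
  have hmem : (⟨{x, y}, Finset.card_pair (Ne.symm hyx)⟩ : Edge n) ∈ edgesOf t :=
    mem_edgesOf.2 (by simp [Finset.insert_subset_iff, hx, hyt])
  rw [h] at hmem
  exact mem_edgesOf.1 hmem (by simp)

lemma triangles_linear : Linear (triangles n) where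
  card3 := fun T hT => by
    obtain ⟨t, ht, rfl⟩ := mem_triangles.1 hT
    rw [card_edgesOf, ht]; rfl
  inter := fun T hT T' hT' hne => by
    obtain ⟨t, ht, rfl⟩ := mem_triangles.1 hT
    obtain ⟨t', ht', rfl⟩ := mem_triangles.1 hT'
    have hsub : edgesOf t ∩ edgesOf t' ⊆ edgesOf (t ∩ t') := fun e he => by
      simp only [Finset.mem_inter, mem_edgesOf] at he ⊢
      exact Finset.subset_inter he.1 he.2
    refine (Finset.card_le_card hsub).trans ?_
    rw [card_edgesOf]
    have h2 : (t ∩ t').card ≤ 2 := by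
      by_contra hc
      have h3 : t ∩ t' = t := Finset.eq_of_subset_of_card_le Finset.inter_subset_left (by omega)
      have h4 : t = t' := Finset.eq_of_subset_of_card_le (Finset.inter_eq_left.1 h3) (by omega)
      exact hne (by rw [h4])
    interval_cases h : (t ∩ t').card <;> simp

lemma card_triangles_le : (triangles n).card ≤ n ^ 3 := by
  refine Finset.card_image_le.trans ?_
  rw [Finset.card_powersetCard, Finset.card_univ, Fintype.card_fin]
  exact Nat.choose_le_pow n 3

lemma card_alive_le (A : Finset (Edge n)) : ((alive (triangles n) A).card : ℝ) ≤ (n : ℝ) ^ 3 := by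
  exact_mod_cast (Finset.card_filter_le _ _).trans card_triangles_le

lemma card_edge_eq : Fintype.card (Edge n) = n.choose 2 := by
  rw [← Finset.card_univ, show (Finset.univ : Finset (Edge n)) = edgesOf Finset.univ by
    ext e; simp [mem_edgesOf], card_edgesOf, Finset.card_univ, Fintype.card_fin]

lemma edgesN_eq : edgesN n = (n : ℝ) * ((n : ℝ) - 1) / 2 := by
  rw [edgesN, card_edge_eq, Nat.cast_choose_two]

lemma edgesN_le : edgesN n ≤ (n : ℝ) ^ 2 := by
  rw [edgesN_eq]
  nlinarith [Nat.cast_nonneg (α := ℝ) n]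

lemma card_le_edgesN (A : Finset (Edge n)) : (A.card : ℝ) ≤ edgesN n := by
  rw [edgesN]
  exact_mod_cast Finset.card_le_univ A

lemma star_card_le (A : Finset (Edge n)) (f : Edge n) : (star (triangles n) A f).card ≤ n - 2 := by
  have h : star (triangles n) A f ⊆
      (Finset.univ \ f.1).image fun w => edgesOf (insert w f.1) := by
    intro T hT
    obtain ⟨h1, -, h3⟩ := mem_star.1 hT
    obtain ⟨t, ht, rfl⟩ := mem_triangles.1 h1
    obtain ⟨w, hw, hwf⟩ := Finset.exists_mem_notMem_of_card_lt_card
      (s := f.1) (t := t) (by rw [f.2, ht]; norm_num)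
    refine Finset.mem_image.2 ⟨w, by simp [hwf], ?_⟩
    congr 1
    refine Finset.eq_of_subset_of_card_le (Finset.insert_subset hw (mem_edgesOf.1 h3)) ?_
    rw [Finset.card_insert_of_notMem hwf, f.2, ht]
  refine (Finset.card_le_card h).trans (Finset.card_image_le.trans ?_)
  rw [Finset.card_sdiff_of_subset (Finset.subset_univ _), Finset.card_univ, Fintype.card_fin, f.2]

lemma deg_le_n (A : Finset (Edge n)) (f : Edge n) : deg (triangles n) A f ≤ (n : ℝ) := by
  unfold deg
  exact_mod_cast (star_card_le A f).trans (Nat.sub_le n 2)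

lemma deg_univ (f : Edge n) :
    deg (triangles n) (Finset.univ : Finset (Edge n)) f = (n : ℝ) - 2 := by
  have h2 : 2 ≤ n := by
    have := Finset.card_le_univ f.1
    rw [f.2, Fintype.card_fin] at this
    exact this
  have hle : ((star (triangles n) Finset.univ f).card : ℝ) ≤ ((n - 2 : ℕ) : ℝ) := by
    exact_mod_cast star_card_le Finset.univ f
  have hge : n - 2 ≤ (star (triangles n) Finset.univ f).card := by
    have hc : (Finset.univ \ f.1).card = n - 2 := by
      rw [Finset.card_sdiff_of_subset (Finset.subset_univ _), Finset.card_univ, Fintype.card_fin, f.2]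
    rw [← hc]
    refine Finset.card_le_card_of_injOn (fun w => edgesOf (insert w f.1)) (fun w hw => ?_) ?_
    · have hw' : w ∉ f.1 := (Finset.mem_sdiff.1 hw).2
      refine mem_star.2 ⟨mem_triangles.2 ⟨_, ?_, rfl⟩, Finset.subset_univ _,
        mem_edgesOf.2 (Finset.subset_insert _ _)⟩
      rw [Finset.card_insert_of_notMem hw', f.2]
    · intro w hw w' hw' he
      have hwf : w ∉ f.1 := (Finset.mem_sdiff.1 hw).2
      have h := edgesOf_inj (by rw [Finset.card_insert_of_notMem hwf, f.2]) he
        (Finset.mem_insert_self w _)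
      rcases Finset.mem_insert.1 h with h' | h'
      · exact h'
      · exact absurd h' hwf
  unfold deg
  rw [show (star (triangles n) Finset.univ f).card = n - 2 from
    le_antisymm (star_card_le _ _) hge, Nat.cast_sub h2]
  norm_num

lemma codeg3_univ {x y z : Fin n} (hxy : x ≠ y) (hxz : x ≠ z) (hyz : y ≠ z) :
    codeg3 (Finset.univ : Finset (Edge n)) x y z = (n : ℝ) - 3 := by
  have hc : ({x, y, z} : Finset (Fin n)).card = 3 := by
    rw [Finset.card_insert_of_notMem (by simp [hxy, hxz]), Finset.card_pair hyz]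
  have h3 : 3 ≤ n := by
    have := Finset.card_le_univ ({x, y, z} : Finset (Fin n))
    rwa [hc, Fintype.card_fin] at this
  have hiff : ∀ a w : Fin n, (∃ e ∈ (Finset.univ : Finset (Edge n)), e.1 = {a, w}) ↔ w ≠ a := by
    intro a w
    constructor
    · rintro ⟨e, -, he⟩ rfl
      have h := e.2
      rw [he] at h
      simp at h
    · exact fun h => ⟨⟨{a, w}, Finset.card_pair (Ne.symm h)⟩, Finset.mem_univ _, rfl⟩
  unfold codeg3
  have hset : ((Finset.univ : Finset (Fin n)).filter fun w =>
      (∃ e ∈ (Finset.univ : Finset (Edge n)), e.1 = {x, w}) ∧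
        (∃ e ∈ (Finset.univ : Finset (Edge n)), e.1 = {y, w}) ∧
        ∃ e ∈ (Finset.univ : Finset (Edge n)), e.1 = {z, w}) = Finset.univ \ {x, y, z} := by
    ext w
    simp only [Finset.mem_filter, Finset.mem_univ, true_and, Finset.mem_sdiff, Finset.mem_insert,
      Finset.mem_singleton, not_or]
    constructor
    · rintro ⟨h1, h2, h3⟩
      exact ⟨(hiff x w).1 (by simpa using h1), (hiff y w).1 (by simpa using h2),
        (hiff z w).1 (by simpa using h3)⟩
    · rintro ⟨h1, h2, h3⟩
      exact ⟨by simpa using (hiff x w).2 h1, by simpa using (hiff y w).2 h2,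
        by simpa using (hiff z w).2 h3⟩
  rw [hset, Finset.card_sdiff_of_subset (Finset.subset_univ _), hc, Finset.card_univ,
    Fintype.card_fin, Nat.cast_sub h3]
  norm_num

lemma refR_sigma0 (hn : 3 ≤ n) : refR (sigmaK n 0) = (n : ℝ) - 2 := by
  have : (3 : ℝ) ≤ n := by exact_mod_cast hn
  rw [refR, sigmaK]
  field_simp
  simp

end

end Vale.Agent.P046.Full
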