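import Vale.Agent.P046.Full.MainTools

/-!
# P046: the exact constant from the modules
-/

open Finset MeasureTheory Filter
open scoped Topology

namespace Vale.Agent.P046.Full

open Vale.Agent.P046

noncomputable section

/-- Elementary facts about the final time. -/
lemma main_time {θ : ℝ} (hθ : 0 < θ) (hθ1 : θ ≤ 1 / 4) {n : ℕ} (hn : 4 ≤ n) :
    (n : ℝ) ^ θ / 4 ≤ degEnd θ n ∧ degEnd θ n ≤ (n : ℝ) ^ θ ∧ 0 < sigEnd θ n ∧
      sigEnd θ n = 1 / (2 * degEnd θ n) := by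
  have hn4 : (4 : ℝ) ≤ n := by exact_mod_cast hn
  have hn0 : (0 : ℝ) < n := by linarith
  set a := (n : ℝ) ^ θ with ha
  have ha0 : 0 < a := Real.rpow_pos_of_pos hn0 θ
  have han : a ≤ n := by
    calc a ≤ (n : ℝ) ^ (1 : ℝ) := Real.rpow_le_rpow_of_exponent_le (by linarith) (by linarith)
      _ = n := Real.rpow_one _
  have hpow : (n : ℝ) ^ (20 - θ) = (n : ℝ) ^ 20 / a := by
    rw [Real.rpow_sub hn0]
    norm_num [ha]
  set K := stepsK θ n
  have hK1 : (K : ℝ) ≤ (n : ℝ) ^ 20 / a := by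
    rw [← hpow]; exact Nat.floor_le (Real.rpow_nonneg hn0.le _)
  have hK2 : (n : ℝ) ^ 20 / a - 1 ≤ (K : ℝ) := by
    have := Nat.lt_floor_add_one ((n : ℝ) ^ (20 - θ))
    rw [hpow] at this
    simp only [K, stepsK, hpow]
    linarith
  have h20 : (0 : ℝ) < (n : ℝ) ^ 20 := by positivity
  have e : sigEnd θ n = (K : ℝ) / (n : ℝ) ^ 20 + 1 / (2 * ((n : ℝ) - 2)) := by
    simp only [sigEnd, sigmaK, stepH, K]; ring
  have hs0 : 0 < 1 / (2 * ((n : ℝ) - 2)) := by
    have : (0 : ℝ) < (n : ℝ) - 2 := by linarith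
    positivity
  have hl : 1 / a ≤ sigEnd θ n := by
    have h1 : (1 / a - 1 / (n : ℝ) ^ 20) ≤ (K : ℝ) / (n : ℝ) ^ 20 := by
      have := div_le_div_of_nonneg_right hK2 h20.le
      rw [sub_div, div_right_comm, div_self h20.ne'] at this
      exact this
    have h2 : 1 / (n : ℝ) ^ 20 ≤ 1 / (2 * ((n : ℝ) - 2)) := by
      refine one_div_le_one_div_of_le (by linarith) ?_
      calc 2 * ((n : ℝ) - 2) ≤ (n : ℝ) ^ 2 := by nlinarith
        _ ≤ (n : ℝ) ^ 20 := pow_le_pow_right₀ (by linarith) (by norm_num)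
    linarith
  have hu : sigEnd θ n ≤ 2 / a := by
    have h1 : (K : ℝ) / (n : ℝ) ^ 20 ≤ 1 / a := by
      rw [div_le_div_iff₀ h20 ha0]
      have := (le_div_iff₀ ha0).1 hK1
      linarith
    have h2 : 1 / (2 * ((n : ℝ) - 2)) ≤ 1 / a :=
      one_div_le_one_div_of_le ha0 (han.trans (by linarith))
    have : 2 / a = 1 / a + 1 / a := by ring
    linarith
  have hσ : 0 < sigEnd θ n := lt_of_lt_of_le (by positivity) hl
  refine ⟨?_, ?_, hσ, ?_⟩
  · rw [degEnd, div_le_div_iff₀ (by norm_num) (by positivity)]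
    have := (le_div_iff₀ ha0).1 hu
    nlinarith
  · rw [degEnd, div_le_iff₀ (by positivity)]
    have := (div_le_iff₀ ha0).1 hl
    nlinarith
  · rw [degEnd]; field_simp

lemma main_deg_atTop {θ : ℝ} (hθ : 0 < θ) (hθ1 : θ ≤ 1 / 4) :
    Tendsto (fun n : ℕ => degEnd θ n) atTop atTop := by
  refine tendsto_atTop_mono' atTop ?_
    (((tendsto_rpow_atTop hθ).comp tendsto_natCast_atTop_atTop).atTop_div_const
      (show (0 : ℝ) < 4 by norm_num))
  filter_upwards [eventually_ge_atTop 4] with n hn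
  exact (main_time hθ hθ1 hn).1

/-- The expected number of survivors has the predicted size. -/
lemma main_size {θ : ℝ} (hθ : 0 < θ) (hθ1 : θ ≤ 1 / 4) :
    Tendsto (fun n : ℕ => edgesN n * densEnd θ n * ybar (degEnd θ n) 1 / (n : ℝ) ^ (3 / 2 : ℝ))
      atTop (𝓝 cLim) := by
  have h1 : Tendsto (fun n : ℕ => (1 - 1 / (n : ℝ)) / 2) atTop (𝓝 (1 / 2)) := by
    have := ((tendsto_const_div_atTop_nhds_zero_nat (1 : ℝ)).const_sub 1).div_const 2
    simpa using this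
  have h2 : Tendsto (fun n : ℕ => Real.sqrt (1 / (1 - 2 / (n : ℝ)))) atTop (𝓝 1) := by
    have h := (((tendsto_const_div_atTop_nhds_zero_nat (2 : ℝ)).const_sub 1).inv₀ (by norm_num)).sqrt
    simpa using h
  have h3 : Tendsto (fun n : ℕ => Real.sqrt (1 / (1 / degEnd θ n + 2))) atTop
      (𝓝 (Real.sqrt (1 / 2))) := by
    have h := ((main_deg_atTop hθ hθ1).inv_tendsto_atTop.add_const 2).inv₀ (by norm_num)
    simpa using h.sqrt
  have hc : (1 / 2 : ℝ) * 1 * Real.sqrt (1 / 2) = cLim := by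
    rw [cLim, Real.sqrt_div' _ (by norm_num), Real.sqrt_one]
    field_simp
  rw [← hc]
  refine ((h1.mul h2).mul h3).congr' ?_
  filter_upwards [eventually_ge_atTop 4] with n hn
  have hn4 : (4 : ℝ) ≤ n := by exact_mod_cast hn
  have hn0 : (0 : ℝ) < n := by linarith
  have hd : (0 : ℝ) < (n : ℝ) - 2 := by linarith
  obtain ⟨hR1, -, -, -⟩ := main_time hθ hθ1 hn
  set R := degEnd θ n
  have hR : 0 < R := lt_of_lt_of_le (by positivity) hR1
  have ex : (n : ℝ) ^ (3 / 2 : ℝ) = n * Real.sqrt n := by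
    rw [Real.sqrt_eq_rpow, show (3 / 2 : ℝ) = 1 + 1 / 2 by norm_num, Real.rpow_add hn0, Real.rpow_one]
  have eN : edgesN n = (n : ℝ) * ((n : ℝ) - 1) / 2 := by
    rw [main_card_edge, Nat.cast_choose_two]
  have e2 : Real.sqrt (1 / (1 - 2 / (n : ℝ))) = Real.sqrt n / Real.sqrt ((n : ℝ) - 2) := by
    rw [← Real.sqrt_div hn0.le]
    congr 1
    field_simp
  have e3 : Real.sqrt (1 / (1 / R + 2)) = Real.sqrt R / Real.sqrt (1 + 2 * R * 1) := by
    rw [← Real.sqrt_div hR.le]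
    congr 1
    field_simp
  rw [e2, e3, eN, ex]
  simp only [densEnd, ybar]
  rw [Real.sqrt_div hR.le]
  have hs : Real.sqrt n ≠ 0 := (Real.sqrt_pos.2 hn0).ne'
  field_simp
  rw [Real.sq_sqrt hn0.le]
  ring

/-- On a regular state the mean deviation of the number of survivors is small. -/
lemma main_state (hEq : EquivStmt) {V : Type} [Fintype V] [DecidableEq V] {H : Finset (Finset V)}
    (hH : Linear H) {A : Finset V} {R κ G M z t : ℝ} {Y : V → Finset V → ℝ → ℝ}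
    (hfix : ∀ f ∈ A, |rootY H A Y f 1 / ybar R 1 - 1| ≤ κ) (hy : 0 < ybar R 1)
    (hq : ∫ w, |((survivors H A w).card : ℝ) - ∑ f ∈ A, rootY H A Y f 1| ∂clocks V ≤
      κ * A.card * ybar R 1 + G)
    (hκ : 0 ≤ κ) (hκ1 : κ ≤ 1) (hM : 0 ≤ M) (hMe : (A.card : ℝ) * ybar R 1 = M * (1 + z)) :
    leaveObs H (fun F => |(F : ℝ) - t|) A ≤ 2 * κ * M + 3 * M * |z| + |M - t| + G := by
  set S := ∑ f ∈ A, rootY H A Y f 1
  have hS : |S - A.card * ybar R 1| ≤ κ * (A.card * ybar R 1) := by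
    rw [← nsmul_eq_mul, ← Finset.sum_const, ← Finset.sum_sub_distrib, Finset.mul_sum]
    refine (Finset.abs_sum_le_sum_abs _ _).trans (Finset.sum_le_sum fun f hf => ?_)
    have := mul_le_mul_of_nonneg_right (hfix f hf) hy.le
    rwa [← abs_of_pos hy, ← abs_mul, sub_mul, one_mul, abs_of_pos hy,
      div_mul_cancel₀ _ hy.ne'] at this
  have h1 : leaveObs H (fun F => |(F : ℝ) - S|) A ≤ κ * A.card * ybar R 1 + G := by
    rw [hEq V H A hH]; exact hq
  have h2 : leaveObs H (fun F => |(F : ℝ) - t|) A ≤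
      leaveObs H (fun F => 1 * |(F : ℝ) - S| + |S - t| * 1) A :=
    leaveObs_mono A fun F _ => by
      rw [one_mul, mul_one]; exact abs_sub_le _ _ _
  rw [leaveObs_affine, leaveObs_const] at h2
  have h3 : |S - t| ≤ |S - A.card * ybar R 1| + |(A.card * ybar R 1) - M| + |M - t| :=
    (abs_sub_le _ _ _).trans (add_le_add ((abs_sub_le _ _ _)) le_rfl)
  have h4 : |(A.card * ybar R 1) - M| = M * |z| := by
    rw [hMe, mul_add, mul_one, add_sub_cancel_left, abs_mul, abs_of_nonneg hM]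
  have h5 : κ * (A.card * ybar R 1) ≤ κ * M + M * |z| := by
    rw [hMe, mul_add, mul_one, mul_add]
    refine add_le_add le_rfl (le_trans ?_ (le_refl (M * |z|)))
    calc κ * (M * z) ≤ κ * (M * |z|) :=
          mul_le_mul_of_nonneg_left (mul_le_mul_of_nonneg_left (le_abs_self z) hM) hκ
      _ ≤ M * |z| := mul_le_of_le_one_left (mul_nonneg hM (abs_nonneg z)) hκ1
  linarith

/-- The killed mean of the error mass of the tree comparison. -/
lemma main_gam {n : ℕ} (hn : 3 ≤ n) (hC : CycleStmt) {good : ℕ → Finset (Edge n) → Prop} {h R p : ℝ}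
    {K : ℕ} (hR : 1 ≤ R) (hp : p ^ 2 = R / ((n : ℝ) - 2))
    (h1 : kExp (triangles n) good h K (fun _ => 1) ≤ 1)
    (hS : ∀ S : Finset (Edge n), S.card ≤ 68 →
      kExp (triangles n) good h K (fun A => if S ⊆ A then 1 else 0) ≤ 2 * p ^ S.card) :
    kExp (triangles n) good h K (fun A => gam (triangles n) A R 34) ≤
      R ^ 15 + 2 * edgesN n * p / R ^ 2 +
        2 * 3 ^ 36 * 32 * edgesN n * R ^ 49 / ((n : ℝ) - 2) := by
  classical
  have hd : (0 : ℝ) < (n : ℝ) - 2 := by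
    have : (3 : ℝ) ≤ n := by exact_mod_cast hn
    linarith
  have hN : 0 ≤ edgesN n := by unfold edgesN; positivity
  have hA : kExp (triangles n) good h K (fun A => (A.card : ℝ)) ≤ edgesN n * (2 * p) := by
    have e : (fun A : Finset (Edge n) => (A.card : ℝ)) =
        fun A => ∑ f : Edge n, if ({f} : Finset (Edge n)) ⊆ A then (1 : ℝ) else 0 := by
      funext A
      simp only [Finset.singleton_subset_iff, Finset.sum_boole, Finset.filter_univ_mem]
    rw [e, main_kExp_sum]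
    refine (Finset.sum_le_sum (g := fun _ => 2 * p) fun f _ =>
      (hS {f} (by simp)).trans (le_of_eq ?_)).trans (le_of_eq ?_)
    · rw [Finset.card_singleton, pow_one]
    · rw [Finset.sum_const, nsmul_eq_mul, Finset.card_univ, edgesN]
  have hcyc : ∀ l ∈ Finset.Icc 3 34,
      kExp (triangles n) good h K (fun A => ((cycles (triangles n) A l).card : ℝ)) ≤
        2 * 3 ^ 36 * edgesN n * R ^ 34 / ((n : ℝ) - 2) := by
    intro l hl
    obtain ⟨hl3, hl34⟩ := Finset.mem_Icc.1 hl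
    have e : (fun A : Finset (Edge n) => ((cycles (triangles n) A l).card : ℝ)) =
        fun A => ∑ U ∈ cycles (triangles n) Finset.univ l,
          if Finset.univ.biUnion U ⊆ A then (1 : ℝ) else 0 := by
      funext A
      rw [Finset.sum_boole]
      congr 2
      ext U
      simp only [cycles, Finset.mem_filter, Fintype.mem_piFinset, mem_alive, Finset.biUnion_subset,
        Finset.mem_univ, forall_true_left, Finset.subset_univ, and_true]
      constructor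
      · rintro ⟨ha, hb⟩; exact ⟨⟨fun i => (ha i).1, hb⟩, fun i => (ha i).2⟩
      · rintro ⟨⟨ha, hb⟩, hc⟩; exact ⟨fun i => ⟨ha i, hc i⟩, hb⟩
    rw [e, main_kExp_sum]
    have hone : ∀ U ∈ cycles (triangles n) Finset.univ l,
        kExp (triangles n) good h K (fun A => if Finset.univ.biUnion U ⊆ A then (1 : ℝ) else 0) ≤
          2 * (R / ((n : ℝ) - 2)) ^ l := fun U hU => by
      have hc : (Finset.univ.biUnion U).card = 2 * l := (Finset.mem_filter.1 hU).2.2.2.2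
      refine (hS _ (by omega)).trans (le_of_eq ?_)
      rw [hc, pow_mul, hp]
    refine (Finset.sum_le_sum hone).trans ?_
    rw [Finset.sum_const, nsmul_eq_mul]
    refine (mul_le_mul_of_nonneg_right (hC n l hn hl3) (by positivity)).trans ?_
    obtain ⟨j, rfl⟩ : ∃ j, l = j + 1 := ⟨l - 1, by omega⟩
    have e2 : (3 : ℝ) ^ (j + 1 + 2) * edgesN n * ((n : ℝ) - 2) ^ (j + 1 - 1) *
        (2 * (R / ((n : ℝ) - 2)) ^ (j + 1)) =
        2 * 3 ^ (j + 1 + 2) * edgesN n * R ^ (j + 1) / ((n : ℝ) - 2) := by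
      rw [Nat.add_sub_cancel, div_pow, pow_succ ((n : ℝ) - 2) j]
      field_simp
    rw [e2]
    gcongr <;> first | omega | norm_num
  have e : (fun A => gam (triangles n) A R 34) = fun A => R ^ 15 * 1 + (R ^ 15 / R ^ 17 * (A.card : ℝ) +
      R ^ 15 * ∑ l ∈ Finset.Icc 3 34, ((cycles (triangles n) A l).card : ℝ)) := by
    funext A; simp only [gam, cycleCount]; ring
  rw [e, main_kExp_add, main_kExp_add, main_kExp_smul, main_kExp_smul, main_kExp_smul, main_kExp_sum]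
  refine (add_le_add (mul_le_mul_of_nonneg_left h1 (by positivity))
    (add_le_add (mul_le_mul_of_nonneg_left hA (by positivity))
      (mul_le_mul_of_nonneg_left (Finset.sum_le_sum hcyc) (by positivity)))).trans (le_of_eq ?_)
  rw [Finset.sum_const, nsmul_eq_mul, Nat.card_Icc]
  have : R ≠ 0 := by linarith
  field_simp
  push_cast
  ring

/-- A power of `n` below a small power of the reference degree. -/
lemma main_pow {n : ℕ} {θ μ j R : ℝ} (hn : (1 : ℝ) ≤ n) (hμ : 0 ≤ μ) (hR : 4 ≤ R)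
    (hRn : (n : ℝ) ^ θ / 4 ≤ R) (hj : j ≤ μ * θ / 2) : (n : ℝ) ^ j ≤ R ^ μ := by
  have hn0 : (0 : ℝ) < n := by linarith
  calc (n : ℝ) ^ j ≤ (n : ℝ) ^ (θ * (μ / 2)) :=
        Real.rpow_le_rpow_of_exponent_le hn (by linarith)
    _ = ((n : ℝ) ^ θ) ^ (μ / 2) := Real.rpow_mul hn0.le _ _
    _ ≤ (R ^ (2 : ℝ)) ^ (μ / 2) := by
        refine Real.rpow_le_rpow (by positivity) ?_ (by positivity)
        rw [Real.rpow_two]; nlinarith
    _ = R ^ μ := by rw [← Real.rpow_mul (by linarith)]; congr 1; ring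

/-- The accuracy at the final time, in powers of the reference degree. -/
lemma main_accuracy {n : ℕ} {θ μ η R σ : ℝ} (hn : (1 : ℝ) ≤ n) (hμ : 0 ≤ μ) (hR : 4 ≤ R)
    (hRn : (n : ℝ) ^ θ / 4 ≤ R) (hσ : σ = 1 / (2 * R)) (h1 : η ≤ μ * θ / 2)
    (h10 : 10 * η ≤ μ * θ / 2) :
    Real.sqrt σ * (n : ℝ) ^ η ≤ R ^ (-(1 / 2 - μ)) ∧
      σ * (n : ℝ) ^ (10 * η) ≤ R ^ (-(1 - μ)) := by
  have hR0 : 0 < R := by linarith
  subst hσ
  refine ⟨?_, ?_⟩
  · rw [show -(1 / 2 - μ) = -(1 / 2) + μ by ring, Real.rpow_add hR0]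
    refine mul_le_mul ?_ (main_pow hn hμ hR hRn h1) (by positivity) (by positivity)
    rw [Real.rpow_neg hR0.le, ← Real.sqrt_eq_rpow, ← Real.sqrt_inv]
    refine Real.sqrt_le_sqrt ?_
    rw [one_div]
    exact inv_anti₀ hR0 (by linarith)
  · rw [show -(1 - μ) = -1 + μ by ring, Real.rpow_add hR0]
    refine mul_le_mul ?_ (main_pow hn hμ hR hRn h10) (by positivity) (by positivity)
    rw [Real.rpow_neg_one, one_div]
    exact inv_anti₀ hR0 (by linarith)

/-- The mean deviation from the quantities at the final time. -/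
lemma main_mix {V : Type} [Fintype V] [DecidableEq V] {H : Finset (Finset V)} (hH : Linear H)
    {good : ℕ → Finset V → Prop} {h : ℝ} {K : ℕ} (h0 : 0 ≤ h) (hh : h * (H.card : ℝ) ≤ 1)
    {φ : ℕ → ℝ} {c a b B : ℝ} {Z G : Finset V → ℝ} {Reg : Finset V → Prop} [DecidablePred Reg]
    (hB : ∀ A, leaveObs H φ A ≤ B) (_hB0 : 0 ≤ B) (hc : 0 ≤ c) (ha : 0 ≤ a) (hb : 0 ≤ b)
    (hZ : ∀ A, 0 ≤ Z A) (hG : ∀ A, 0 ≤ G A)
    (hreg : ∀ A, Reg A → leaveObs H φ A ≤ c + a * Z A + b * G A) :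
    leaveObs H φ Finset.univ ≤ c + a * kExp H good h K Z + b * kExp H good h K G +
      B * (1 - kExp H good h K fun A => if Reg A then 1 else 0) := by
  have hstate : ∀ A, leaveObs H φ A ≤
      (c + B) * 1 + (a * Z A + (b * G A + (-B) * (if Reg A then 1 else 0))) := by
    intro A
    have := mul_nonneg ha (hZ A)
    have := mul_nonneg hb (hG A)
    by_cases hA : Reg A
    · rw [if_pos hA]; linarith [hreg A hA]
    · rw [if_neg hA]; linarith [hB A]
  have hone : ∀ k, kExp H good h k (fun _ => 1) ≤ 1 := by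
    intro k
    induction k with
    | zero => simp [kExp]
    | succ k ih =>
      refine le_trans (main_kExp_mono h0 hh k _ _ fun A => ?_) ih
      unfold kStep
      split_ifs <;> simp
  have h1 := main_kExp_mono (good := good) h0 hh K _ _ hstate
  rw [main_kExp_add, main_kExp_add, main_kExp_add, main_kExp_smul, main_kExp_smul, main_kExp_smul,
    main_kExp_smul] at h1
  have h2 := leaveObs_le_kExp (good := good) hH.card3 h0 hh φ B hB K
  have h3 : c * kExp H good h K (fun _ => 1) ≤ c := mul_le_of_le_one_right hc (hone K)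
  linarith

/-- The killed mean of the tree error is negligible. -/
lemma main_num {n : ℕ} {R N p y x : ℝ} (hn : (4 : ℝ) ≤ n) (hR : 1 ≤ R)
    (hRu : R ≤ (n : ℝ) ^ (1 / 200 : ℝ)) (hN : 0 ≤ N) (hNn : N ≤ (n : ℝ) ^ 2) (hp : 0 ≤ p)
    (hy : 1 / (2 * R) ≤ y) (hM : N * p * y ≤ x) (hx : x = (n : ℝ) ^ (3 / 2 : ℝ)) :
    R ^ 15 + 2 * N * p / R ^ 2 + 2 * 3 ^ 36 * 32 * N * R ^ 49 / ((n : ℝ) - 2) ≤
      ((2 * 3 ^ 36 * 32 * 2 + 1) * (n : ℝ) ^ (-(1 / 4) : ℝ) + 4 * R⁻¹) * x := by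
  have hn1 : (1 : ℝ) ≤ n := by linarith
  have hn0 : (0 : ℝ) < n := by linarith
  have hd : (0 : ℝ) < (n : ℝ) - 2 := by linarith
  have hpw : ∀ j : ℕ, (j : ℝ) ≤ 50 → R ^ j ≤ (n : ℝ) ^ (1 / 4 : ℝ) := fun j hj =>
    calc R ^ j ≤ ((n : ℝ) ^ (1 / 200 : ℝ)) ^ j := pow_le_pow_left₀ (by linarith) hRu j
      _ = (n : ℝ) ^ ((1 / 200 : ℝ) * j) := by rw [← Real.rpow_natCast, ← Real.rpow_mul hn0.le]
      _ ≤ _ := Real.rpow_le_rpow_of_exponent_le hn1 (by linarith)
  have hR15 : R ^ 15 ≤ (n : ℝ) ^ (5 / 4 : ℝ) :=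
    (hpw 15 (by norm_num)).trans (Real.rpow_le_rpow_of_exponent_le hn1 (by norm_num))
  have hR49 : N * R ^ 49 / ((n : ℝ) - 2) ≤ 2 * (n : ℝ) ^ (5 / 4 : ℝ) := by
    have hNd : N / ((n : ℝ) - 2) ≤ 2 * n := by
      rw [div_le_iff₀ hd]; nlinarith
    rw [mul_div_right_comm, show (5 / 4 : ℝ) = 1 + 1 / 4 by norm_num, Real.rpow_add hn0,
      Real.rpow_one, ← mul_assoc]
    exact mul_le_mul hNd (hpw 49 (by norm_num)) (by positivity) (by linarith)
  have hmid : 2 * N * p / R ^ 2 ≤ 4 * R⁻¹ * x := by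
    have hNp : N * p ≤ 2 * R * x := by
      have h := (mul_le_mul_of_nonneg_left hy (by positivity : 0 ≤ N * p)).trans hM
      rw [mul_one_div, div_le_iff₀ (by positivity)] at h
      linarith
    rw [div_le_iff₀ (by positivity)]
    calc 2 * N * p ≤ 4 * R * x := by linarith
      _ = 4 * R⁻¹ * x * R ^ 2 := by field_simp
  have e54 : (n : ℝ) ^ (5 / 4 : ℝ) = (n : ℝ) ^ (-(1 / 4) : ℝ) * x := by
    rw [hx, ← Real.rpow_add hn0]; norm_num
  rw [add_mul, mul_assoc (2 * 3 ^ 36 * 32 * 2 + 1 : ℝ), ← e54,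
    show 2 * 3 ^ 36 * 32 * N * R ^ 49 / ((n : ℝ) - 2) =
      2 * 3 ^ 36 * 32 * (N * R ^ 49 / ((n : ℝ) - 2)) by ring]
  linarith [mul_le_mul_of_nonneg_left hR49 (by norm_num : (0 : ℝ) ≤ 2 * 3 ^ 36 * 32)]

/-- The deviation on one regular state, with the square of the relative deviation of its size. -/
lemma main_regular (hEq : EquivStmt) {V : Type} [Fintype V] [DecidableEq V] {H : Finset (Finset V)}
    (hH : Linear H) {A : Finset V} {R κ N p x t lam G : ℝ} {Y : V → Finset V → ℝ → ℝ}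
    (hfix : ∀ f ∈ A, |rootY H A Y f 1 / ybar R 1 - 1| ≤ κ) (hy : 0 < ybar R 1)
    (hq : ∫ w, |((survivors H A w).card : ℝ) - ∑ f ∈ A, rootY H A Y f 1| ∂clocks V ≤
      κ * A.card * ybar R 1 + G / κ)
    (hκ : 0 < κ) (hκ1 : κ ≤ 1) (hN : 0 < N) (hp : 0 < p) (hMx : N * p * ybar R 1 ≤ x)
    (hlam : 0 < lam) :
    leaveObs H (fun F => |(F : ℝ) - t|) A ≤
      (2 * κ * x + 3 * x * lam + |N * p * ybar R 1 - t|) +
        3 * x / (4 * lam) * ((A.card : ℝ) / (N * p) - 1) ^ 2 + 1 / κ * G := by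
  set M := N * p * ybar R 1
  set z := (A.card : ℝ) / (N * p) - 1
  have hM : 0 ≤ M := by positivity
  have hx : 0 ≤ x := hM.trans hMx
  have hz := main_state hEq hH (t := t) (M := M) (z := z) hfix hy hq hκ.le hκ1 hM (by
    simp only [M, z]; field_simp; ring)
  have hzz : |z| ≤ lam + z ^ 2 / (4 * lam) := by
    rw [← sub_le_iff_le_add', le_div_iff₀ (by positivity)]
    nlinarith [sq_abs z, sq_nonneg (|z| - 2 * lam)]
  have h1 : 3 * M * |z| ≤ 3 * x * (lam + z ^ 2 / (4 * lam)) :=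
    mul_le_mul (by linarith) hzz (abs_nonneg _) (by linarith)
  have h2 : 2 * κ * M ≤ 2 * κ * x := mul_le_mul_of_nonneg_left hMx (by positivity)
  have e : 3 * x * (lam + z ^ 2 / (4 * lam)) = 3 * x * lam + 3 * x / (4 * lam) * z ^ 2 := by ring
  have e' : G / κ = 1 / κ * G := by ring
  linarith

/-- The number of edges. -/
lemma main_edges {n : ℕ} (hn : (4 : ℝ) ≤ n) : 1 ≤ edgesN n ∧ edgesN n ≤ (n : ℝ) ^ 2 := by
  rw [main_card_edge, Nat.cast_choose_two]
  constructor <;> nlinarith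

/-- The root survival is at least of order `1 / R`. -/
lemma main_ybar {R : ℝ} (hR : 1 ≤ R) : 1 / (2 * R) ≤ ybar R 1 := by
  unfold ybar
  refine one_div_le_one_div_of_le (by positivity) ?_
  rw [Real.sqrt_le_iff]; constructor <;> nlinarith

/-- The number of points is polynomial in the reference degree. -/
lemma main_poly {n : ℕ} {N R : ℝ} (hn : (1 : ℝ) ≤ n) (hR : 4 ≤ R)
    (hRn : (n : ℝ) ^ (1 / 200 : ℝ) / 4 ≤ R) (hN : N ≤ (n : ℝ) ^ 2) : N ≤ R ^ (1000 : ℝ) := by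
  have hn0 : (0 : ℝ) < n := by linarith
  refine le_trans ?_
    (Real.rpow_le_rpow_of_exponent_le (by linarith) (show (800 : ℝ) ≤ 1000 by norm_num))
  calc N ≤ (n : ℝ) ^ (2 : ℝ) := by rw [Real.rpow_two]; exact hN
    _ = ((n : ℝ) ^ (1 / 200 : ℝ)) ^ (400 : ℝ) := by rw [← Real.rpow_mul hn0.le]; norm_num
    _ ≤ (R ^ (2 : ℝ)) ^ (400 : ℝ) := by
        refine Real.rpow_le_rpow (by positivity) ?_ (by norm_num)
        rw [Real.rpow_two]; nlinarith
    _ = R ^ (800 : ℝ) := by rw [← Real.rpow_mul (by linarith)]; norm_num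

/-- The killed mass is negligible. -/
lemma main_killed {n : ℕ} {τ x : ℝ} (hn : (1 : ℝ) ≤ n) (hτ : 0 < τ) (hx : 1 ≤ x)
    (h8 : (n : ℝ) ^ (-8 : ℝ) ≤ τ / 20) :
    2 * (n : ℝ) ^ 2 * (1 / (n : ℝ) ^ 10) ≤ τ / 10 * x := by
  have hn0 : (0 : ℝ) < n := by linarith
  have e : 2 * (n : ℝ) ^ 2 * (1 / (n : ℝ) ^ 10) = 2 * (n : ℝ) ^ (-8 : ℝ) := by
    rw [Real.rpow_neg hn0.le, show (8 : ℝ) = ((8 : ℕ) : ℝ) by norm_num, Real.rpow_natCast]
    field_simp
  rw [e]
  nlinarith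

/-- The deviation on a regular state, from the two modules of the second phase. -/
lemma main_onReg (hEq : EquivStmt) {V : Type} [Fintype V] [DecidableEq V] {H : Finset (Finset V)}
    (hH : Linear H) {A : Finset V} {R μ κ κ₀ N p x t lam e δ : ℝ}
    (hfix : Regular H A R (R ^ (-(1 / 2 - μ))) (R ^ (-(1 - μ))) →
      ∃ Y, IsFix H A Y ∧ ∀ f ∈ A, ∀ t ∈ Set.Icc (0 : ℝ) 1,
        |rootY H A Y f t / ybar R t - 1| ≤ κ ∧ ∀ T ∈ star H A f, Y f T t ≤ (1 + κ) * ybar R t)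
    (hquery : (∀ f ∈ A, |deg H A f / R - 1| ≤ κ₀) → ∀ Y, IsFix H A Y →
      (∀ f ∈ A, ∀ t ∈ Set.Icc (0 : ℝ) 1, |rootY H A Y f t / ybar R t - 1| ≤ κ₀ ∧
        ∀ T ∈ star H A f, Y f T t ≤ (1 + κ₀) * ybar R t) →
      ∀ κ ∈ Set.Ioc (0 : ℝ) 1,
        ∫ w, |((survivors H A w).card : ℝ) - ∑ f ∈ A, rootY H A Y f 1| ∂clocks V ≤
          κ * A.card * ybar R 1 + gam H A R 34 / κ)
    (he : e ≤ R ^ (-(1 / 2 - μ))) (hδ : δ ≤ R ^ (-(1 - μ))) (hsm : R ^ (-(1 / 2 - μ)) ≤ κ₀)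
    (hreg : Regular H A R e δ) (hy : 0 < ybar R 1) (hκ : 0 < κ) (hκ1 : κ ≤ 1) (hκκ₀ : κ ≤ κ₀)
    (hN : 0 < N) (hp : 0 < p) (hMx : N * p * ybar R 1 ≤ x) (hlam : 0 < lam) :
    leaveObs H (fun F => |(F : ℝ) - t|) A ≤
      (2 * κ * x + 3 * x * lam + |N * p * ybar R 1 - t|) +
        3 * x / (4 * lam) * ((A.card : ℝ) / (N * p) - 1) ^ 2 + 1 / κ * gam H A R 34 := by
  have hreg' : Regular H A R (R ^ (-(1 / 2 - μ))) (R ^ (-(1 - μ))) := fun f hf =>
    ⟨(hreg f hf).1.trans he, (hreg f hf).2.trans hδ⟩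
  obtain ⟨Y, hY, hYb⟩ := hfix hreg'
  have hdeg : ∀ f ∈ A, |deg H A f / R - 1| ≤ κ₀ := fun f hf => (hreg' f hf).1.trans hsm
  have hq := hquery hdeg Y hY (fun f hf t ht => by
    obtain ⟨a, b⟩ := hYb f hf t ht
    exact ⟨a.trans hκκ₀, fun T hT => (b T hT).trans
      (mul_le_mul_of_nonneg_right (by linarith) (by unfold ybar; positivity))⟩) κ ⟨hκ, hκ1⟩
  exact main_regular hEq hH (fun f hf => (hYb f hf 1 ⟨zero_le_one, le_rfl⟩).1) hy hq hκ hκ1 hN hp hMx
    hlam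

/-- A crude bound. -/
lemma main_crude {n : ℕ} (hn : (4 : ℝ) ≤ n) (A : Finset (Edge n)) :
    leaveObs (triangles n) (fun F => |(F : ℝ) - cLim * (n : ℝ) ^ (3 / 2 : ℝ)|) A ≤
      2 * (n : ℝ) ^ 2 := by
  refine (leaveObs_mono A fun F hF => ?_).trans (le_of_eq (leaveObs_const _ A))
  have hF' : (F : ℝ) ≤ edgesN n := by
    show (F : ℝ) ≤ (Fintype.card (Edge n) : ℝ)
    exact_mod_cast hF.trans (Finset.card_le_univ A)
  have hxn : (n : ℝ) ^ (3 / 2 : ℝ) ≤ (n : ℝ) ^ 2 := by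
    rw [← Real.rpow_two]; exact Real.rpow_le_rpow_of_exponent_le (by linarith) (by norm_num)
  have h0F : (0 : ℝ) ≤ F := Nat.cast_nonneg F
  have hN2 := (main_edges hn).2
  have hc : cLim ≤ 1 := by
    have : (1 : ℝ) ≤ Real.sqrt 2 := Real.one_le_sqrt.2 one_le_two
    rw [cLim, div_le_one (by positivity)]; linarith
  have h0 : 0 ≤ cLim * (n : ℝ) ^ (3 / 2 : ℝ) := by unfold cLim; positivity
  have h1 : cLim * (n : ℝ) ^ (3 / 2 : ℝ) ≤ (n : ℝ) ^ (3 / 2 : ℝ) :=
    mul_le_of_le_one_left (by positivity) hc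
  rw [abs_le]; constructor <;> linarith

/-- The deviation bound at one large `n`. -/
lemma main_at (hC : CycleStmt) {n : ℕ} (hn : 4 ≤ n) {τ κ lam R p N x : ℝ}
    {good : ℕ → Finset (Edge n) → Prop} {Reg : Finset (Edge n) → Prop} [DecidablePred Reg] {K : ℕ}
    (hτ : 0 < τ) (hκ : 0 < κ) (hlam : lam = τ / 100) (hκlam : κ ≤ lam) (hR : 1 ≤ R)
    (hRu : R ≤ (n : ℝ) ^ (1 / 200 : ℝ)) (hp : 0 < p) (hp2 : p ^ 2 = R / ((n : ℝ) - 2))
    (hN : N = edgesN n) (hx : x = (n : ℝ) ^ (3 / 2 : ℝ))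
    (hMx : |N * p * ybar R 1 - cLim * x| ≤ τ / 10 * x ∧ N * p * ybar R 1 ≤ x)
    (hgam : (2 * 3 ^ 36 * 32 * 2 + 1) * (n : ℝ) ^ (-(1 / 4) : ℝ) + 4 * R⁻¹ ≤ κ * (τ / 10))
    (h8 : (n : ℝ) ^ (-8 : ℝ) ≤ τ / 20)
    (hS : ∀ S : Finset (Edge n), S.card ≤ 68 →
      kExp (triangles n) good (stepH n) K (fun A => if S ⊆ A then 1 else 0) ≤ 2 * p ^ S.card)
    (hVar : kExp (triangles n) good (stepH n) K (fun A => ((A.card : ℝ) / (N * p) - 1) ^ 2) ≤ lam ^ 2)
    (hReg : 1 - kExp (triangles n) good (stepH n) K (fun A => if Reg A then 1 else 0) ≤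
      1 / (n : ℝ) ^ 10)
    (hstate : ∀ A, Reg A → leaveObs (triangles n) (fun F => |(F : ℝ) - cLim * x|) A ≤
      (2 * κ * x + 3 * x * lam + |N * p * ybar R 1 - cLim * x|) +
        3 * x / (4 * lam) * ((A.card : ℝ) / (N * p) - 1) ^ 2 + 1 / κ * gam (triangles n) A R 34) :
    leaveObs (triangles n) (fun F => |(F : ℝ) - cLim * x|) Finset.univ ≤ τ * x := by
  have hn4 : (4 : ℝ) ≤ n := by exact_mod_cast hn
  have hn1 : (1 : ℝ) ≤ n := by linarith
  have hx1 : 1 ≤ x := hx ▸ Real.one_le_rpow hn1 (by norm_num)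
  have hx0 : 0 < x := by linarith
  have hlam0 : 0 < lam := by rw [hlam]; positivity
  obtain ⟨hN1, hN2⟩ := main_edges hn4
  have h0 : (0 : ℝ) ≤ stepH n := by unfold stepH; positivity
  have hhH : stepH n * ((triangles n).card : ℝ) ≤ 1 := by
    rw [stepH, one_div_mul_eq_div, div_le_one (by positivity)]
    exact (main_triangles_card_le n).trans (pow_le_pow_right₀ hn1 (by norm_num))
  have hone : ∀ k, kExp (triangles n) good (stepH n) k (fun _ => 1) ≤ 1 := by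
    intro k
    induction k with
    | zero => simp [kExp]
    | succ k ih =>
      refine le_trans (main_kExp_mono h0 hhH k _ _ fun A => ?_) ih
      unfold kStep
      split_ifs <;> simp
  have key := main_mix (good := good) (K := K) (main_linear n) h0 hhH
    (hx ▸ fun A => main_crude hn4 A) (by positivity) (by positivity) (by positivity) (by positivity)
    (fun A => sq_nonneg _) (fun A => by unfold gam cycleCount; positivity) hstate
  have hg := (main_gam (by omega : 3 ≤ n) hC (good := good) (h := stepH n) (K := K) hR hp2 (hone K)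
    hS).trans (main_num hn4 hR hRu (by linarith) hN2 hp.le (main_ybar hR) (hN ▸ hMx.2) hx)
  have t3 : 1 / κ * kExp (triangles n) good (stepH n) K (fun A => gam (triangles n) A R 34) ≤
      τ / 10 * x := by
    rw [one_div_mul_eq_div, div_le_iff₀ hκ]
    refine (hg.trans (mul_le_mul_of_nonneg_right hgam hx0.le)).trans (le_of_eq ?_)
    ring
  have t2 := mul_le_mul_of_nonneg_left hVar (show 0 ≤ 3 * x / (4 * lam) by positivity)
  have e2 : 3 * x / (4 * lam) * lam ^ 2 = 3 / 4 * (x * lam) := by field_simp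
  have t4 := mul_le_mul_of_nonneg_left hReg (show (0 : ℝ) ≤ 2 * (n : ℝ) ^ 2 by positivity)
  have t5 := main_killed hn1 hτ hx1 h8
  have hκx : κ * x ≤ lam * x := mul_le_mul_of_nonneg_right hκlam hx0.le
  have hlx : lam * x = τ * x / 100 := by rw [hlam]; ring
  linarith [hMx.1, mul_pos hτ hx0]

/-- The mean deviation is `o(n^{3/2})`. -/
theorem main_dev (hA : PhaseAStmt) (hC : CycleStmt) (hEq : EquivStmt) (hF : FixStmt)
    (hQ : QueryStmt) (τ : ℝ) (hτ : 0 < τ) :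
    ∀ᶠ n : ℕ in atTop, leaveObs (triangles n)
      (fun F => |(F : ℝ) - cLim * (n : ℝ) ^ (3 / 2 : ℝ)|) Finset.univ ≤ τ * (n : ℝ) ^ (3 / 2 : ℝ) := by
  classical
  obtain ⟨κ₀, hκ₀, hQ'⟩ := hQ
  obtain ⟨R₁, hR₁⟩ := hQ' 34 ⟨17, rfl⟩ (by norm_num)
  obtain ⟨μ, hμ, hμ1, hF'⟩ := hF 1000 (by norm_num)
  obtain ⟨θ, hθd⟩ : ∃ θ : ℝ, θ = 1 / 200 := ⟨_, rfl⟩
  have hθ : 0 < θ := by rw [hθd]; norm_num
  have hθ1 : θ ≤ 1 / 4 := by rw [hθd]; norm_num
  obtain ⟨η, hηd⟩ : ∃ η : ℝ, η = μ * θ / 50 := ⟨_, rfl⟩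
  have hη : 0 < η := by rw [hηd]; positivity
  have hη50 : 50 * η ≤ θ := by rw [hηd]; nlinarith
  have hη2 : η ≤ μ * θ / 2 ∧ 10 * η ≤ μ * θ / 2 := by rw [hηd]; constructor <;> nlinarith
  obtain ⟨lam, hlamd⟩ : ∃ lam : ℝ, lam = τ / 100 := ⟨_, rfl⟩
  have hlam : 0 < lam := by rw [hlamd]; positivity
  obtain ⟨κ, hκd⟩ : ∃ κ : ℝ, κ = min (min κ₀ lam) 1 := ⟨_, rfl⟩
  have hκ : 0 < κ := by rw [hκd]; exact lt_min (lt_min hκ₀ hlam) one_pos
  have hκ1 : κ ≤ 1 := by rw [hκd]; exact min_le_right _ _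
  have hκκ₀ : κ ≤ κ₀ := by rw [hκd]; exact (min_le_left _ _).trans (min_le_left _ _)
  have hκlam : κ ≤ lam := by rw [hκd]; exact (min_le_left _ _).trans (min_le_right _ _)
  obtain ⟨R₀, hR₀⟩ := hF' κ hκ
  have hRtop := main_deg_atTop hθ hθ1
  have hsmall : Tendsto (fun n : ℕ => degEnd θ n ^ (-(1 / 2 - μ))) atTop (𝓝 0) :=
    (tendsto_rpow_neg_atTop (show 0 < 1 / 2 - μ by linarith)).comp hRtop
  have hgamlim : Tendsto (fun n : ℕ => (2 * 3 ^ 36 * 32 * 2 + 1) * (n : ℝ) ^ (-(1 / 4) : ℝ) +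
      4 * (degEnd θ n)⁻¹) atTop (𝓝 0) := by
    have h1 := ((tendsto_rpow_neg_atTop (show (0 : ℝ) < 1 / 4 by norm_num)).comp
      tendsto_natCast_atTop_atTop).const_mul (2 * 3 ^ 36 * 32 * 2 + 1 : ℝ)
    simpa [Function.comp_def] using h1.add (hRtop.inv_tendsto_atTop.const_mul 4)
  have hclim : cLim < 1 := by
    have : (1 : ℝ) ≤ Real.sqrt 2 := Real.one_le_sqrt.2 one_le_two
    rw [cLim, div_lt_one (by positivity)]; linarith
  filter_upwards [hA θ η hη hη50 hθ1 68 (lam ^ 2) (by positivity),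
    eventually_ge_atTop 4,
    hRtop.eventually (eventually_ge_atTop (max (max R₀ R₁) 4)),
    hsmall.eventually (Iic_mem_nhds hκ₀),
    hgamlim.eventually (Iic_mem_nhds (show 0 < κ * (τ / 10) by positivity)),
    (main_size hθ hθ1).eventually (Metric.ball_mem_nhds cLim
      (show 0 < min (τ / 10) (1 - cLim) from lt_min (by positivity) (by linarith))),
    (((tendsto_rpow_neg_atTop (show (0 : ℝ) < 8 by norm_num)).comp
      tendsto_natCast_atTop_atTop).eventually (Iic_mem_nhds (show 0 < τ / 20 by positivity)))]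
    with n hAn hn hRn hsm hgam hMn hn8
  obtain ⟨good, hgoodReg, hgoodSet, hgoodVar⟩ := hAn
  have hn4 : (4 : ℝ) ≤ n := by exact_mod_cast hn
  have hn0 : (0 : ℝ) < n := by linarith
  have hx0 : 0 < (n : ℝ) ^ (3 / 2 : ℝ) := Real.rpow_pos_of_pos hn0 _
  obtain ⟨hRl, hRu, -, hσR⟩ := main_time hθ hθ1 hn
  obtain ⟨hR0', hR4⟩ := max_le_iff.1 hRn
  obtain ⟨hR₀n, hR₁n⟩ := max_le_iff.1 hR0'
  have hd : (0 : ℝ) < (n : ℝ) - 2 := by linarith
  have hp2 : densEnd θ n ^ 2 = degEnd θ n / ((n : ℝ) - 2) :=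
    Real.sq_sqrt (div_nonneg (by linarith) hd.le)
  have hp : 0 < densEnd θ n := Real.sqrt_pos.2 (div_pos (by linarith) hd)
  have hy0 : 0 < ybar (degEnd θ n) 1 := by
    have : 0 < degEnd θ n := by linarith
    unfold ybar; positivity
  have hMx : |edgesN n * densEnd θ n * ybar (degEnd θ n) 1 - cLim * (n : ℝ) ^ (3 / 2 : ℝ)| ≤
      τ / 10 * (n : ℝ) ^ (3 / 2 : ℝ) ∧
      edgesN n * densEnd θ n * ybar (degEnd θ n) 1 ≤ (n : ℝ) ^ (3 / 2 : ℝ) := by
    have h := Real.dist_eq _ cLim ▸ Metric.mem_ball.1 hMn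
    constructor
    · have e : ∀ a : ℝ, a - cLim * (n : ℝ) ^ (3 / 2 : ℝ) =
          (a / (n : ℝ) ^ (3 / 2 : ℝ) - cLim) * (n : ℝ) ^ (3 / 2 : ℝ) := fun a => by field_simp
      rw [e, abs_mul, abs_of_pos hx0]
      exact mul_le_mul_of_nonneg_right (h.le.trans (min_le_left _ _)) hx0.le
    · have := (abs_lt.1 (h.trans_le (min_le_right _ _))).2
      exact (div_le_one hx0).1 (by linarith)
  obtain ⟨he1, he2⟩ := main_accuracy (η := η) (by linarith) hμ.le hR4 hRl hσR hη2.1 hη2.2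
  have hN1 : (1 : ℝ) ≤ edgesN n := (main_edges hn4).1
  exact main_at hC hn hτ hκ hlamd hκlam (by linarith) (hθd ▸ hRu) hp hp2 rfl rfl hMx hgam hn8
    hgoodSet hgoodVar hgoodReg fun A hreg =>
      main_onReg hEq (main_linear n)
        (hR₀ (Edge n) (triangles n) A (degEnd θ n) (main_linear n) hR₀n
          ((show (A.card : ℝ) ≤ edgesN n by
              show (A.card : ℝ) ≤ (Fintype.card (Edge n) : ℝ)
              exact_mod_cast Finset.card_le_univ A).trans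
            (main_poly (by linarith) hR4 (hθd ▸ hRl) (main_edges hn4).2)))
        (hR₁ (Edge n) (triangles n) A (degEnd θ n) (main_linear n) hR₁n)
        he1 he2 hsm hreg hy0 hκ hκ1 hκκ₀ (by linarith) hp hMx.2 hlam

/-- The answer from the modules. -/
theorem main_of (hA : PhaseAStmt) (hC : CycleStmt) (hEq : EquivStmt) (hF : FixStmt)
    (hQ : QueryStmt) : MainStmt := by
  set dev : ℕ → ℝ := fun n => leaveObs (triangles n)
    (fun F => |(F : ℝ) / (n : ℝ) ^ (3 / 2 : ℝ) - cLim|) Finset.univ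
  have hdev0 : ∀ n, 0 ≤ dev n := fun n => (le_of_eq (leaveObs_const 0 _).symm).trans
    (leaveObs_mono _ fun F _ => abs_nonneg _)
  have hdev : Tendsto dev atTop (𝓝 0) := by
    rw [Metric.tendsto_nhds]
    intro τ hτ
    filter_upwards [main_dev hA hC hEq hF hQ (τ / 2) (by linarith), eventually_ge_atTop 1] with n hn h1
    set x := (n : ℝ) ^ (3 / 2 : ℝ)
    have hx : 0 < x := Real.rpow_pos_of_pos (by exact_mod_cast h1) _
    have e : (fun F : ℕ => |(F : ℝ) / x - cLim|) =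
        fun F : ℕ => 1 / x * |(F : ℝ) - cLim * x| + 0 * 1 := by
      funext F
      rw [zero_mul, add_zero, one_div_mul_eq_div, ← abs_of_pos hx, ← abs_div, abs_of_pos hx,
        sub_div, mul_div_cancel_right₀ _ hx.ne']
    have hv : dev n ≤ τ / 2 := by
      simp only [dev]
      rw [e, leaveObs_affine, zero_mul, add_zero, one_div_mul_eq_div, div_le_iff₀ hx]
      exact hn
    rw [Real.dist_eq, sub_zero, abs_of_nonneg (hdev0 n)]
    linarith
  refine ⟨fun δ hδ => ?_, ?_⟩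
  · refine squeeze_zero (fun n => (le_of_eq (leaveObs_const 0 _).symm).trans
      (leaveObs_mono _ fun F _ => by split_ifs <;> norm_num)) (fun n => ?_)
      (by simpa using hdev.const_mul (1 / δ))
    refine (leaveObs_mono _ (ψ := fun F => 1 / δ * |(F : ℝ) / (n : ℝ) ^ (3 / 2 : ℝ) - cLim| + 0 * 1)
      fun F _ => ?_).trans (le_of_eq ?_)
    · rw [zero_mul, add_zero, one_div_mul_eq_div]
      split_ifs with h
      · rw [one_le_div hδ]; exact h.le
      · positivity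
    · rw [leaveObs_affine]; simp [dev]
  · rw [tendsto_iff_norm_sub_tendsto_zero]
    refine squeeze_zero (fun n => norm_nonneg _) (fun n => ?_) hdev
    set x := (n : ℝ) ^ (3 / 2 : ℝ)
    have h1 : leaveObs (triangles n) (fun F => (F : ℝ) / x) Finset.univ ≤ 1 * dev n + cLim * 1 := by
      refine (leaveObs_mono _ (ψ := fun F => 1 * |(F : ℝ) / x - cLim| + cLim * 1) fun F _ => ?_).trans
        (le_of_eq ?_)
      · linarith [le_abs_self ((F : ℝ) / x - cLim)]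
      · rw [leaveObs_affine, leaveObs_const]
    have h2 : (-1) * dev n + cLim * 1 ≤ leaveObs (triangles n) (fun F => (F : ℝ) / x) Finset.univ := by
      refine (le_of_eq ?_).trans (leaveObs_mono _ (φ := fun F => (-1) * |(F : ℝ) / x - cLim| + cLim * 1)
        fun F _ => ?_)
      · rw [leaveObs_affine, leaveObs_const]
      · linarith [neg_abs_le ((F : ℝ) / x - cLim)]
    rw [Real.norm_eq_abs, abs_le]
    constructor <;> linarith

end

end Vale.Agent.P046.Full
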