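import Vale.Agent.P046.Full.Statements

/-!
# P046, assembly: observables of the removal process and the complete graph
-/

open Finset

namespace Vale.Agent.P046.Full

open Vale.Agent.P046

noncomputable section

variable {V : Type*} [DecidableEq V] {H : Finset (Finset V)}

lemma obsFuel_mono {φ ψ : ℕ → ℝ} : ∀ (k : ℕ) (A : Finset V),
    (∀ F, F ≤ A.card → φ F ≤ ψ F) → leaveObsFuel H φ k A ≤ leaveObsFuel H ψ k A
  | 0, A, h => h _ le_rfl
  | k + 1, A, h => by
    simp only [leaveObsFuel]
    split_ifs with he
    · exact h _ le_rfl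
    · exact div_le_div_of_nonneg_right (Finset.sum_le_sum fun T _ => obsFuel_mono k _ fun F hF =>
        h F (hF.trans (Finset.card_le_card Finset.sdiff_subset))) (Nat.cast_nonneg _)

lemma obsFuel_affine (φ ψ : ℕ → ℝ) (a b : ℝ) : ∀ (k : ℕ) (A : Finset V),
    leaveObsFuel H (fun F => a * φ F + b * ψ F) k A =
      a * leaveObsFuel H φ k A + b * leaveObsFuel H ψ k A
  | 0, A => rfl
  | k + 1, A => by
    simp only [leaveObsFuel]
    split_ifs with he
    · rfl
    · simp only [obsFuel_affine φ ψ a b k, Finset.sum_add_distrib, ← Finset.mul_sum, add_div,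
        mul_div_assoc]

lemma obsFuel_const (c : ℝ) : ∀ (k : ℕ) (A : Finset V), leaveObsFuel H (fun _ => c) k A = c
  | 0, A => rfl
  | k + 1, A => by
    simp only [leaveObsFuel, obsFuel_const c k]
    split_ifs with he
    · rfl
    · have h0 : ((alive H A).card : ℝ) ≠ 0 := by
        exact_mod_cast (Finset.card_pos.2 (Finset.nonempty_iff_ne_empty.2 he)).ne'
      rw [Finset.sum_const, nsmul_eq_mul]
      field_simp

lemma obsFuel_stable (h3 : ∀ T ∈ H, T.card = 3) (φ : ℕ → ℝ) :
    ∀ (k : ℕ) (A : Finset V), A.card ≤ k → leaveObsFuel H φ k A = leaveObs H φ A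
  | 0, A, h => by
    have : A.card = 0 := by omega
    rw [leaveObs, this]
  | k + 1, A, h => by
    rcases Nat.lt_or_ge k A.card with hlt | hge
    · have : A.card = k + 1 := by omega
      rw [leaveObs, this]
    rw [← obsFuel_stable h3 φ k A hge]
    by_cases he : alive H A = ∅
    · cases k <;> simp [leaveObsFuel, he]
    · obtain ⟨T0, hT0⟩ := Finset.nonempty_iff_ne_empty.2 he
      have hc0 := Finset.card_le_card (Finset.mem_filter.1 hT0).2
      have h30 := h3 T0 (Finset.mem_filter.1 hT0).1
      cases k with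
      | zero => omega
      | succ m =>
        simp only [leaveObsFuel, he, if_false]
        congr 1
        refine Finset.sum_congr rfl fun T hT => ?_
        have h1 := (Finset.mem_filter.1 hT).2
        have h2 := h3 T (Finset.mem_filter.1 hT).1
        have hcard : (A \ T).card + 3 = A.card := by
          rw [Finset.card_sdiff_of_subset h1, h2]
          have := Finset.card_le_card h1
          omega
        have a1 := obsFuel_stable h3 φ (m + 1) (A \ T) (by omega)
        have a2 := obsFuel_stable h3 φ m (A \ T) (by omega)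
        have hfold := a1.trans a2.symm
        simpa only [leaveObsFuel] using hfold

lemma leaveObs_mono {φ ψ : ℕ → ℝ} (A : Finset V) (h : ∀ F, F ≤ A.card → φ F ≤ ψ F) :
    leaveObs H φ A ≤ leaveObs H ψ A := obsFuel_mono _ A h

lemma leaveObs_affine (φ ψ : ℕ → ℝ) (a b : ℝ) (A : Finset V) :
    leaveObs H (fun F => a * φ F + b * ψ F) A = a * leaveObs H φ A + b * leaveObs H ψ A :=
  obsFuel_affine φ ψ a b _ A

lemma leaveObs_const (c : ℝ) (A : Finset V) : leaveObs H (fun _ => c) A = c := obsFuel_const c _ A

lemma leaveObs_sum_jump (h3 : ∀ T ∈ H, T.card = 3) (φ : ℕ → ℝ) (A : Finset V) :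
    ∑ T ∈ alive H A, (leaveObs H φ (A \ T) - leaveObs H φ A) = 0 := by
  by_cases he : alive H A = ∅
  · simp [he]
  obtain ⟨T0, hT0⟩ := Finset.nonempty_iff_ne_empty.2 he
  obtain ⟨m, hm⟩ : ∃ m, A.card = m + 1 := by
    refine ⟨A.card - 1, ?_⟩
    have h1 := Finset.card_le_card (Finset.mem_filter.1 hT0).2
    have h2 := h3 T0 (Finset.mem_filter.1 hT0).1
    omega
  have hpos : ((alive H A).card : ℝ) ≠ 0 := by
    exact_mod_cast (Finset.card_pos.2 ⟨T0, hT0⟩).ne'
  have hs : ∀ T ∈ alive H A, leaveObs H φ (A \ T) = leaveObsFuel H φ m (A \ T) := fun T hT => by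
    refine (obsFuel_stable h3 φ m _ ?_).symm
    rw [Finset.card_sdiff_of_subset (Finset.mem_filter.1 hT).2, h3 T (Finset.mem_filter.1 hT).1]
    omega
  rw [Finset.sum_sub_distrib, Finset.sum_congr rfl hs, Finset.sum_const, nsmul_eq_mul]
  conv_lhs => arg 2; rw [leaveObs, hm]; simp only [leaveObsFuel, he, if_false]
  field_simp
  ring

/-! ### The killed chain -/

variable {good : ℕ → Finset V → Prop} {h : ℝ}

lemma main_kStep_add (g : Finset V → Prop) (F G : Finset V → ℝ) :
    kStep H g h (fun A => F A + G A) = fun A => kStep H g h F A + kStep H g h G A := by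
  funext A
  unfold kStep
  split_ifs
  · simp only [Finset.sum_sub_distrib, Finset.sum_add_distrib]
    ring
  · simp

lemma main_kStep_smul (g : Finset V → Prop) (c : ℝ) (F : Finset V → ℝ) :
    kStep H g h (fun A => c * F A) = fun A => c * kStep H g h F A := by
  funext A
  unfold kStep
  split_ifs
  · simp only [Finset.sum_sub_distrib, ← Finset.mul_sum]
    ring
  · simp

variable [Fintype V]

lemma main_kExp_add : ∀ (k : ℕ) (F G : Finset V → ℝ),
    kExp H good h k (fun A => F A + G A) = kExp H good h k F + kExp H good h k G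
  | 0, F, G => rfl
  | k + 1, F, G => by simp only [kExp, main_kStep_add, main_kExp_add k]

lemma main_kExp_smul : ∀ (k : ℕ) (c : ℝ) (F : Finset V → ℝ),
    kExp H good h k (fun A => c * F A) = c * kExp H good h k F
  | 0, c, F => rfl
  | k + 1, c, F => by simp only [kExp, main_kStep_smul, main_kExp_smul k]

lemma main_kExp_sum {ι : Type*} (s : Finset ι) (F : ι → Finset V → ℝ) (k : ℕ) :
    kExp H good h k (fun A => ∑ i ∈ s, F i A) = ∑ i ∈ s, kExp H good h k (F i) := by
  classical
  induction s using Finset.induction_on with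
  | empty =>
    have := main_kExp_smul (H := H) (good := good) (h := h) k 0 fun _ => (0 : ℝ)
    simpa using this
  | insert i s hi ih => simp only [Finset.sum_insert hi, main_kExp_add, ih]

lemma main_kExp_mono (h0 : 0 ≤ h) (hH : h * (H.card : ℝ) ≤ 1) :
    ∀ (k : ℕ) (F G : Finset V → ℝ), (∀ A, F A ≤ G A) → kExp H good h k F ≤ kExp H good h k G
  | 0, F, G, hFG => hFG _
  | k + 1, F, G, hFG => by
    refine main_kExp_mono h0 hH k _ _ fun A => ?_
    unfold kStep
    split_ifs
    · have e : ∀ F : Finset V → ℝ, F A + h * ∑ T ∈ alive H A, (F (A \ T) - F A) =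
          (1 - h * ((alive H A).card : ℝ)) * F A + h * ∑ T ∈ alive H A, F (A \ T) := fun F => by
        rw [Finset.sum_sub_distrib, Finset.sum_const, nsmul_eq_mul]; ring
      rw [e F, e G]
      have hc : ((alive H A).card : ℝ) ≤ H.card := by
        exact_mod_cast Finset.card_le_card (Finset.filter_subset _ _)
      have h1 : 0 ≤ 1 - h * ((alive H A).card : ℝ) := by
        linarith [mul_le_mul_of_nonneg_left hc h0]
      gcongr <;> exact hFG _
    · exact le_rfl

/-- The value of an observable is at most its killed mean plus the killed mass. -/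
lemma leaveObs_le_kExp (h3 : ∀ T ∈ H, T.card = 3) (h0 : 0 ≤ h) (hH : h * (H.card : ℝ) ≤ 1)
    (φ : ℕ → ℝ) (B : ℝ) (hB : ∀ A : Finset V, leaveObs H φ A ≤ B) :
    ∀ k : ℕ, leaveObs H φ Finset.univ ≤
      kExp H good h k (leaveObs H φ) + B * (1 - kExp H good h k fun _ => 1)
  | 0 => by simp [kExp]
  | k + 1 => by
    refine (leaveObs_le_kExp h3 h0 hH φ B hB k).trans ?_
    have hle : ∀ A : Finset V, leaveObs H φ A + (-B) * 1 ≤
        kStep H (good k) h (leaveObs H φ) A + (-B) * kStep H (good k) h (fun _ => 1) A := fun A => by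
      unfold kStep
      split_ifs
      · simp [leaveObs_sum_jump h3]
      · linarith [hB A]
    have h1 := main_kExp_mono (good := good) h0 hH k _ _ hle
    rw [main_kExp_add, main_kExp_add, main_kExp_smul k (-B) (fun _ => (1 : ℝ)), main_kExp_smul] at h1
    simp only [kExp]
    linarith

/-! ### The complete graph -/

lemma main_card_edge (n : ℕ) : edgesN n = ((n.choose 2 : ℕ) : ℝ) := by
  unfold edgesN Edge
  rw [Fintype.card_finset_len, Fintype.card_fin]

lemma main_triangle_card {n : ℕ} {t : Finset (Fin n)} (ht : t.card = 3) :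
    (Finset.univ.filter fun e : Edge n => e.1 ⊆ t).card = 3 := by
  have h : (Finset.univ.filter fun e : Edge n => e.1 ⊆ t).map (Function.Embedding.subtype _) =
      t.powersetCard 2 := by
    ext e
    simp only [Finset.mem_map, Finset.mem_filter, Finset.mem_univ, true_and, Finset.mem_powersetCard,
      Function.Embedding.coe_subtype]
    exact ⟨fun ⟨a, ha, he⟩ => he ▸ ⟨ha, a.2⟩, fun ⟨h1, h2⟩ => ⟨⟨e, h2⟩, h1, rfl⟩⟩
  rw [← Finset.card_map (Function.Embedding.subtype _), h, Finset.card_powersetCard, ht]
  rfl

lemma main_linear (n : ℕ) : Linear (triangles n) := by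
  constructor
  · intro T hT
    obtain ⟨t, ht, rfl⟩ := Finset.mem_image.1 hT
    exact main_triangle_card (Finset.mem_powersetCard.1 ht).2
  · intro T hT T' hT' hne
    obtain ⟨t, ht, rfl⟩ := Finset.mem_image.1 hT
    obtain ⟨t', ht', rfl⟩ := Finset.mem_image.1 hT'
    have h3 := (Finset.mem_powersetCard.1 ht).2
    have h3' := (Finset.mem_powersetCard.1 ht').2
    refine Finset.card_le_one.2 fun e he e' he' => ?_
    simp only [Finset.mem_inter, Finset.mem_filter, Finset.mem_univ, true_and] at he he'
    by_contra hee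
    have hne2 : t ≠ t' := fun h => hne (by rw [h])
    have hi : (t ∩ t').card ≤ 2 := by
      by_contra hlt
      have h1 : t ∩ t' = t := Finset.eq_of_subset_of_card_le Finset.inter_subset_left (by omega)
      exact hne2 (Finset.eq_of_subset_of_card_le (Finset.inter_eq_left.1 h1) (by omega))
    have a1 : e.1 = t ∩ t' := Finset.eq_of_subset_of_card_le
      (Finset.subset_inter he.1 he.2) (by rw [e.2]; exact hi)
    have a2 : e'.1 = t ∩ t' := Finset.eq_of_subset_of_card_le
      (Finset.subset_inter he'.1 he'.2) (by rw [e'.2]; exact hi)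
    exact hee (Subtype.ext (a1.trans a2.symm))

lemma main_triangles_card_le (n : ℕ) : ((triangles n).card : ℝ) ≤ (n : ℝ) ^ 3 := by
  have h : (triangles n).card ≤ n ^ 3 := by
    refine Finset.card_image_le.trans ?_
    rw [Finset.card_powersetCard, Finset.card_univ, Fintype.card_fin]
    exact Nat.choose_le_pow n 3
  exact_mod_cast h

end

end Vale.Agent.P046.Full
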