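import Mathlib

/-!
# P046, first phase: real inequalities for one item of a scaled moment
-/

open Finset

namespace Vale.Agent.P046.Full

noncomputable section

lemma pha_pow_rem (v d : ℝ) : ∀ n : ℕ,
    |(v + d) ^ (n + 2) - v ^ (n + 2) - ((n + 2 : ℕ) : ℝ) * v ^ (n + 1) * d| ≤
      ((n + 2 : ℕ) : ℝ) ^ 2 * (|v| + |d|) ^ n * d ^ 2
  | 0 => by
    have e : (v + d) ^ 2 - v ^ 2 - ((2 : ℕ) : ℝ) * v ^ 1 * d = d ^ 2 := by push_cast; ring
    rw [e, abs_of_nonneg (sq_nonneg d)]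
    push_cast
    nlinarith [sq_nonneg d]
  | n + 1 => by
    have ih := pha_pow_rem v d n
    have e : (v + d) ^ (n + 1 + 2) - v ^ (n + 1 + 2) - ((n + 1 + 2 : ℕ) : ℝ) * v ^ (n + 1 + 1) * d =
        (v + d) * ((v + d) ^ (n + 2) - v ^ (n + 2) - ((n + 2 : ℕ) : ℝ) * v ^ (n + 1) * d) +
          ((n + 2 : ℕ) : ℝ) * v ^ (n + 1) * d ^ 2 := by
      push_cast; ring
    rw [e]
    refine (abs_add_le _ _).trans ?_
    have h1 : |(v + d) * ((v + d) ^ (n + 2) - v ^ (n + 2) - ((n + 2 : ℕ) : ℝ) * v ^ (n + 1) * d)| ≤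
        (|v| + |d|) * (((n + 2 : ℕ) : ℝ) ^ 2 * (|v| + |d|) ^ n * d ^ 2) := by
      rw [abs_mul]
      exact mul_le_mul (abs_add_le _ _) ih (abs_nonneg _) (by positivity)
    have h2 : |((n + 2 : ℕ) : ℝ) * v ^ (n + 1) * d ^ 2| ≤
        ((n + 2 : ℕ) : ℝ) * (|v| + |d|) ^ (n + 1) * d ^ 2 := by
      rw [abs_mul, abs_mul, abs_pow, Nat.abs_cast, abs_of_nonneg (sq_nonneg d)]
      gcongr
      linarith [abs_nonneg d]
    have hy : 0 ≤ (|v| + |d|) ^ (n + 1) * d ^ 2 := by positivity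
    have hc2 : (((n : ℝ) + 2) ^ 2 + ((n : ℝ) + 2)) * ((|v| + |d|) ^ (n + 1) * d ^ 2) ≤
        ((n : ℝ) + 1 + 2) ^ 2 * ((|v| + |d|) ^ (n + 1) * d ^ 2) :=
      mul_le_mul_of_nonneg_right (by nlinarith [Nat.cast_nonneg (α := ℝ) n]) hy
    have e3 : (|v| + |d|) * (((n : ℝ) + 2) ^ 2 * (|v| + |d|) ^ n * d ^ 2) =
        ((n : ℝ) + 2) ^ 2 * ((|v| + |d|) ^ (n + 1) * d ^ 2) := by ring
    push_cast at h1 h2 ⊢
    linarith

/-- Constant of the second order expansion. -/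
def phaC2 (m : ℕ) : ℝ := (m : ℝ) ^ 2 * 2 ^ m

lemma pha_taylor {m : ℕ} (hm : 2 ≤ m) {v d : ℝ} (hd : |d| ≤ 1) :
    (v + d) ^ m ≤ v ^ m + (m : ℝ) * v ^ (m - 1) * d + phaC2 m * (|v| ^ (m - 2) + 1) * d ^ 2 := by
  obtain ⟨n, rfl⟩ : ∃ n, m = n + 2 := ⟨m - 2, by omega⟩
  have h := (abs_le.1 (pha_pow_rem v d n)).2
  have hp : (|v| + |d|) ^ n ≤ 2 ^ (n + 2) * (|v| ^ n + 1) := by
    refine (pow_le_pow_left₀ (by positivity) (add_le_add le_rfl hd) n).trans ?_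
    refine (add_pow_le (abs_nonneg v) zero_le_one n).trans ?_
    rw [one_pow]
    exact mul_le_mul_of_nonneg_right (pow_le_pow_right₀ one_le_two (by omega)) (by positivity)
  have h2 : ((n + 2 : ℕ) : ℝ) ^ 2 * (|v| + |d|) ^ n * d ^ 2 ≤
      phaC2 (n + 2) * (|v| ^ n + 1) * d ^ 2 := by
    refine mul_le_mul_of_nonneg_right ?_ (sq_nonneg d)
    rw [phaC2, mul_assoc]
    exact mul_le_mul_of_nonneg_left hp (by positivity)
  rw [show n + 2 - 1 = n + 1 from rfl, show n + 2 - 2 = n from rfl]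
  linarith

lemma pha_young {m j : ℕ} (hm : Even m) (hj : j < m) {δ : ℝ} (hδ : 0 < δ) (hδ1 : δ ≤ 1) (v : ℝ) :
    |v| ^ j ≤ δ * v ^ m + δ⁻¹ ^ m := by
  have e : v ^ m = |v| ^ m := (hm.pow_abs v).symm
  rw [e]
  rcases le_or_gt δ⁻¹ |v| with h | h
  · have hv1 : 1 ≤ |v| := ((one_le_inv₀ hδ).2 hδ1).trans h
    have h1 : |v| ^ (j + 1) ≤ |v| ^ m := pow_le_pow_right₀ hv1 (by omega)
    have hδv : 1 ≤ δ * |v| := by
      have := mul_le_mul_of_nonneg_left h hδ.le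
      rwa [mul_inv_cancel₀ hδ.ne'] at this
    have h2 : |v| ^ j ≤ δ * |v| ^ (j + 1) := by
      rw [pow_succ]
      nlinarith [pow_nonneg (abs_nonneg v) j]
    have := mul_le_mul_of_nonneg_left h1 hδ.le
    have : 0 ≤ δ⁻¹ ^ m := by positivity
    linarith
  · have h1 : |v| ^ j ≤ δ⁻¹ ^ j := pow_le_pow_left₀ (abs_nonneg v) h.le j
    have h2 : δ⁻¹ ^ j ≤ δ⁻¹ ^ m := pow_le_pow_right₀ ((one_le_inv₀ hδ).2 hδ1) hj.le
    have : 0 ≤ δ * |v| ^ m := by positivity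
    linarith

/-- Mixed products of moments. -/
lemma pha_mixed {m : ℕ} (hm : Even m) (hm1 : 1 ≤ m) (v w : ℝ) :
    |v| ^ (m - 1) * |w| ≤ 1 / 2 * v ^ m + 2 ^ m * w ^ m := by
  obtain ⟨n, rfl⟩ : ∃ n, m = n + 1 := ⟨m - 1, by omega⟩
  rw [← hm.pow_abs v, ← hm.pow_abs w, Nat.add_sub_cancel]
  rcases le_or_gt (2 * |w|) |v| with h | h
  · have h1 := mul_le_mul_of_nonneg_left h (pow_nonneg (abs_nonneg v) n)
    have : 0 ≤ (2 : ℝ) ^ (n + 1) * |w| ^ (n + 1) := by positivity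
    rw [pow_succ |v| n]
    linarith
  · have h1 := mul_le_mul_of_nonneg_right (pow_le_pow_left₀ (abs_nonneg v) h.le n) (abs_nonneg w)
    have : 0 ≤ |v| ^ (n + 1) := by positivity
    have h2 : (2 * |w|) ^ n * |w| ≤ 2 ^ (n + 1) * |w| ^ (n + 1) := by
      rw [mul_pow, pow_succ |w|, pow_succ (2 : ℝ), mul_assoc]
      have : 0 ≤ (2 : ℝ) ^ n * (|w| ^ n * |w|) := by positivity
      linarith
    linarith

lemma pha_small_pow {m j : ℕ} (hj : j ≤ m - 1) (v : ℝ) : |v| ^ j ≤ |v| ^ (m - 1) + 1 := by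
  rcases le_total 1 |v| with h1 | h1
  · linarith [pow_le_pow_right₀ h1 hj]
  · linarith [pow_le_one₀ (abs_nonneg v) h1 (n := j), pow_nonneg (abs_nonneg v) (m - 1)]

lemma pha_quad_factor {m : ℕ} (hm : 2 ≤ m) (v : ℝ) :
    (|v| ^ (m - 2) + 1) * (1 + |v|) ≤ 4 * (|v| ^ (m - 1) + 1) := by
  have e1 : |v| ^ (m - 2) * |v| = |v| ^ (m - 1) := by rw [← pow_succ]; congr 1; omega
  have h1 := pha_small_pow (by omega : m - 2 ≤ m - 1) v
  have h2 : |v| ≤ |v| ^ (m - 1) + 1 := by simpa using pha_small_pow (by omega : 1 ≤ m - 1) v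
  linarith [pow_nonneg (abs_nonneg v) (m - 1)]

lemma pha_item_expand {m : ℕ} (hm : 2 ≤ m) {ι : Type} (s : Finset ι) (d : ι → ℝ) {v t X h μ : ℝ}
    (hh : 0 ≤ h) (hX : 0 ≤ X) (hΛ : h * (X + s.card) ≤ 1) (hht : |h * t| ≤ 1)
    (hd : ∀ i ∈ s, |d i| ≤ 1) :
    (1 - h * (X + s.card)) * (v + h * t) ^ m + h * ∑ i ∈ s, (v + d i) ^ m ≤
      v ^ m + h * ((m : ℝ) * v ^ (m - 1) * μ - X * v ^ m +
        ((m : ℝ) * v ^ (m - 1) * (t + ∑ i ∈ s, d i - μ) +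
          -(h * (X + s.card)) * ((m : ℝ) * v ^ (m - 1) * t) +
          phaC2 m * (|v| ^ (m - 2) + 1) * (h * t ^ 2) +
          phaC2 m * (|v| ^ (m - 2) + 1) * ∑ i ∈ s, d i ^ 2)) := by
  have hC2 : 0 ≤ phaC2 m := by unfold phaC2; positivity
  have T1 := mul_le_mul_of_nonneg_left (pha_taylor hm hht (v := v)) (sub_nonneg.2 hΛ)
  have h2 : 0 ≤ h * (X + s.card) * (phaC2 m * (|v| ^ (m - 2) + 1) * (h * t) ^ 2) := by positivity
  have T2 : h * ∑ i ∈ s, (v + d i) ^ m ≤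
      h * ((s.card : ℝ) * v ^ m + (m : ℝ) * v ^ (m - 1) * ∑ i ∈ s, d i +
        phaC2 m * (|v| ^ (m - 2) + 1) * ∑ i ∈ s, d i ^ 2) := by
    refine mul_le_mul_of_nonneg_left ((Finset.sum_le_sum fun i hi =>
      pha_taylor hm (hd i hi)).trans_eq ?_) hh
    rw [Finset.sum_add_distrib, Finset.sum_add_distrib, Finset.sum_const, nsmul_eq_mul,
      Finset.mul_sum, Finset.mul_sum]
  linarith

lemma pha_item_abs {m : ℕ} (hm : Even m) (hm2 : 2 ≤ m) {c v t r e h L μ D Q : ℝ}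
    (hc : 1 ≤ c) (hh : 0 ≤ h) (hL : 0 ≤ L) (hr : 0 ≤ r) (he : e * m ≤ 1 / 4)
    (hdr : |D - μ| ≤ c * r + e * r * |v|) (hq : Q ≤ c * r * (1 + |v|))
    (hjunk : h * (L + 1) * (|t| + 1) ^ 2 ≤ r) :
    (m : ℝ) * v ^ (m - 1) * (D - μ) + -(h * L) * ((m : ℝ) * v ^ (m - 1) * t) +
        phaC2 m * (|v| ^ (m - 2) + 1) * (h * t ^ 2) + phaC2 m * (|v| ^ (m - 2) + 1) * Q ≤
      r * v ^ m / 4 + r * ((m : ℝ) * c + (m : ℝ) + 5 * phaC2 m * c) * |v| ^ (m - 1) +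
        6 * phaC2 m * c * r := by
  set p : ℝ := |v| ^ (m - 1) with hp
  have hp0 : 0 ≤ p := by positivity
  have hC2 : 0 ≤ phaC2 m := by unfold phaC2; positivity
  have habs : |v ^ (m - 1)| = p := abs_pow _ _
  have hq2 := pha_small_pow (by omega : m - 2 ≤ m - 1) v
  rw [← hp] at hq2
  have a1 : (m : ℝ) * v ^ (m - 1) * (D - μ) ≤ (m : ℝ) * c * r * p + r * v ^ m / 4 := by
    have h1 : (m : ℝ) * v ^ (m - 1) * (D - μ) ≤ (m : ℝ) * p * (c * r + e * r * |v|) := by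
      refine (le_abs_self _).trans ?_
      rw [abs_mul, abs_mul, Nat.abs_cast, habs]
      exact mul_le_mul_of_nonneg_left hdr (by positivity)
    have e1 : p * |v| = v ^ m := by
      rw [hp, ← pow_succ, ← hm.pow_abs v]; congr 1; omega
    have h2 : e * (m : ℝ) * (r * v ^ m) ≤ 1 / 4 * (r * v ^ m) :=
      mul_le_mul_of_nonneg_right he (mul_nonneg hr (hm.pow_nonneg v))
    have h3 : (m : ℝ) * p * (e * r * |v|) = e * (m : ℝ) * (r * v ^ m) := by rw [← e1]; ring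
    linarith
  have a2 : -(h * L) * ((m : ℝ) * v ^ (m - 1) * t) ≤ (m : ℝ) * r * p := by
    refine (le_abs_self _).trans ?_
    rw [abs_mul, abs_neg, abs_mul, abs_mul, abs_mul, Nat.abs_cast, habs, abs_of_nonneg hh,
      abs_of_nonneg hL]
    have h1 : h * L * |t| ≤ r := by
      refine le_trans ?_ hjunk
      rw [mul_assoc, mul_assoc]
      exact mul_le_mul_of_nonneg_left
        (mul_le_mul (by linarith) (by nlinarith [abs_nonneg t]) (abs_nonneg t) (by linarith)) hh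
    calc h * L * ((m : ℝ) * p * |t|) = (m : ℝ) * p * (h * L * |t|) := by ring
      _ ≤ (m : ℝ) * p * r := mul_le_mul_of_nonneg_left h1 (by positivity)
      _ = _ := by ring
  have a3 : phaC2 m * (|v| ^ (m - 2) + 1) * (h * t ^ 2) ≤ phaC2 m * c * r * (p + 2) := by
    have h1 : h * t ^ 2 ≤ c * r := by
      refine le_trans ?_ (hjunk.trans (le_mul_of_one_le_left hr hc))
      rw [← sq_abs t, mul_assoc]
      refine mul_le_mul_of_nonneg_left ?_ hh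
      exact (pow_le_pow_left₀ (abs_nonneg t) (by linarith) 2).trans
        (le_mul_of_one_le_left (sq_nonneg _) (by linarith))
    calc phaC2 m * (|v| ^ (m - 2) + 1) * (h * t ^ 2) ≤ phaC2 m * (p + 2) * (c * r) :=
          mul_le_mul (mul_le_mul_of_nonneg_left (by linarith) hC2) h1
            (mul_nonneg hh (sq_nonneg t)) (by positivity)
      _ = _ := by ring
  have a4 : phaC2 m * (|v| ^ (m - 2) + 1) * Q ≤ phaC2 m * c * r * (4 * (p + 1)) := by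
    refine (mul_le_mul_of_nonneg_left hq (by positivity)).trans ?_
    calc phaC2 m * (|v| ^ (m - 2) + 1) * (c * r * (1 + |v|))
        = phaC2 m * c * r * ((|v| ^ (m - 2) + 1) * (1 + |v|)) := by ring
      _ ≤ _ := mul_le_mul_of_nonneg_left (pha_quad_factor hm2 v) (by positivity)
  linarith

/-- One item: drift, death and second order terms. -/
lemma pha_item {m : ℕ} (hm : Even m) (hm4 : 4 ≤ m) {c : ℝ} (hc : 1 ≤ c) :
    ∃ B : ℝ, 0 ≤ B ∧ ∀ (ι : Type) (s : Finset ι) (d : ι → ℝ) (v t X r e h μ : ℝ),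
      0 ≤ h → 0 ≤ X → h * (X + s.card) ≤ 1 → |h * t| ≤ 1 → (∀ i ∈ s, |d i| ≤ 1) → 0 ≤ r →
      (e * m ≤ 1 / 4) → |t + ∑ i ∈ s, d i - μ| ≤ c * r + e * r * |v| →
      ∑ i ∈ s, d i ^ 2 ≤ c * r * (1 + |v|) → h * (X + s.card + 1) * (|t| + 1) ^ 2 ≤ r →
      (1 - h * (X + s.card)) * (v + h * t) ^ m + h * ∑ i ∈ s, (v + d i) ^ m ≤
        v ^ m + h * ((m : ℝ) * v ^ (m - 1) * μ - X * v ^ m + r * (v ^ m / 2 + B)) := by
  set K : ℝ := (m : ℝ) * c + (m : ℝ) + 5 * phaC2 m * c with hK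
  have hmR : (4 : ℝ) ≤ m := by exact_mod_cast hm4
  have hC2 : 0 ≤ phaC2 m := by unfold phaC2; positivity
  have hK1 : 1 ≤ K := by
    rw [hK]
    have : 0 ≤ (m : ℝ) * c := by positivity
    have : 0 ≤ 5 * phaC2 m * c := by positivity
    linarith
  set δ : ℝ := 1 / (4 * K) with hδ
  have hδ0 : 0 < δ := by positivity
  have hδ1 : δ ≤ 1 := by rw [hδ, div_le_one (by positivity)]; linarith
  refine ⟨K * δ⁻¹ ^ m + 6 * phaC2 m * c, by positivity, ?_⟩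
  intro ι s d v t X r e h μ hh hX hΛ hht hd hr he hdr hq hjunk
  refine (pha_item_expand (μ := μ) (by omega) s d hh hX hΛ hht hd).trans
    (add_le_add le_rfl (mul_le_mul_of_nonneg_left (add_le_add le_rfl ?_) hh))
  refine (pha_item_abs hm (by omega) hc hh (by positivity) hr he hdr hq hjunk).trans ?_
  rw [← hK]
  have hy := pha_young hm (by omega : m - 1 < m) hδ0 hδ1 v
  have h1 := mul_le_mul_of_nonneg_left hy (mul_nonneg hr (zero_le_one.trans hK1))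
  have hKδ : K * δ = 1 / 4 := by rw [hδ]; field_simp
  have h2 : r * K * (δ * v ^ m + δ⁻¹ ^ m) = r * (v ^ m / 4 + K * δ⁻¹ ^ m) := by
    linear_combination r * v ^ m * hKδ
  linarith

lemma pha_inv_pow_exp {x : ℝ} (hx : 0 ≤ x) (j : ℕ) (hjx : (j : ℝ) * x ≤ 1 / 2) :
    (1 / (1 + x)) ^ j ≤ Real.exp (-(((j : ℝ) - 1 / 2) * x)) := by
  have h1 : 1 / (1 + x) ≤ Real.exp (-(x - x ^ 2)) := by
    refine le_trans ?_ (Real.add_one_le_exp _)
    rw [div_le_iff₀ (by positivity)]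
    nlinarith [pow_nonneg hx 3]
  refine (pow_le_pow_left₀ (by positivity) h1 j).trans ?_
  rw [← Real.exp_nat_mul]
  refine Real.exp_le_exp.2 ?_
  nlinarith

lemma pha_pow_exp {x : ℝ} (hx : 0 ≤ x) (j : ℕ) : (1 + x) ^ j ≤ Real.exp ((j : ℝ) * x) := by
  rw [Real.exp_nat_mul]
  exact pow_le_pow_left₀ (by positivity) (by linarith [Real.add_one_le_exp x]) j

lemma pha_sqrt_exp {x : ℝ} (hx : 0 ≤ x) : Real.sqrt (1 + x) ≤ Real.exp (x / 2) := by
  rw [← Real.sqrt_sq (Real.exp_pos (x / 2)).le]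
  refine Real.sqrt_le_sqrt ?_
  rw [← Real.exp_nat_mul]
  refine le_trans ?_ (Real.add_one_le_exp _)
  push_cast
  linarith

/-- The change of scale absorbs the linear coefficient. -/
lemma pha_combine {S W F q lam b y : ℝ} (hS0 : 0 ≤ S) (hW : 0 ≤ W) (hF : 0 ≤ F)
    (hy : 0 ≤ y) (hS : S ≤ (1 - lam * y) * W + F) (hq : q ≤ Real.exp (b * y)) (hbl : b ≤ lam)
    (hby : b * y ≤ 1 / 2) : q * S ≤ W + 2 * F := by
  refine (mul_le_mul_of_nonneg_right hq hS0).trans ((mul_le_mul_of_nonneg_left hS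
    (Real.exp_pos _).le).trans ?_)
  have h1 : Real.exp (b * y) * (1 - lam * y) ≤ 1 := by
    have h2 : 1 - lam * y ≤ Real.exp (-(lam * y)) := by linarith [Real.add_one_le_exp (-(lam * y))]
    refine (mul_le_mul_of_nonneg_left h2 (Real.exp_pos _).le).trans ?_
    rw [← Real.exp_add, Real.exp_le_one_iff]
    nlinarith
  have h3 : Real.exp (b * y) ≤ 2 := by
    refine (Real.exp_le_exp.2 hby).trans ?_
    have := Real.exp_one_lt_three
    have e : Real.exp (1 / 2) * Real.exp (1 / 2) = Real.exp 1 := by rw [← Real.exp_add]; norm_num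
    nlinarith [Real.exp_pos (1 / 2 : ℝ)]
  have := mul_le_mul_of_nonneg_right h1 hW
  have := mul_le_mul_of_nonneg_right h3 hF
  nlinarith

end

end Vale.Agent.P046.Full
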