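import Mathlib
import Vale.Agent.P046.Full.Defs

/-!
# P046, first phase: potentials along the killed chain
-/

open Finset

namespace Vale.Agent.P046.Full

open Vale.Agent.P046

noncomputable section

variable {V : Type*} [DecidableEq V]

/-- One step without killing. -/
def phaFree (H : Finset (Finset V)) (h : ℝ) (F : Finset V → ℝ) (A : Finset V) : ℝ :=
  F A + h * ∑ T ∈ alive H A, (F (A \ T) - F A)

/-- Indicator of a bad state. -/
def phaBad (good : Finset V → Prop) (A : Finset V) : ℝ := open Classical in if good A then 0 else 1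

lemma phaBad_nonneg (good : Finset V → Prop) (A : Finset V) : 0 ≤ phaBad good A := by
  unfold phaBad; split_ifs <;> norm_num

variable {H : Finset (Finset V)} {h : ℝ}

lemma pha_free_eq (F : Finset V → ℝ) (A : Finset V) :
    phaFree H h F A = (1 - h * ((alive H A).card : ℝ)) * F A + h * ∑ T ∈ alive H A, F (A \ T) := by
  simp only [phaFree, Finset.sum_sub_distrib, Finset.sum_const, nsmul_eq_mul]
  ring

lemma pha_kStep_good {good : Finset V → Prop} {A : Finset V} (hg : good A) (F : Finset V → ℝ) :
    kStep H good h F A = phaFree H h F A := by simp [kStep, phaFree, hg]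

lemma pha_kStep_bad {good : Finset V → Prop} {A : Finset V} (hg : ¬ good A) (F : Finset V → ℝ) :
    kStep H good h F A = 0 := by simp [kStep, hg]

lemma pha_free_mono (hh : 0 ≤ h) (hH : h * (H.card : ℝ) ≤ 1) {F G : Finset V → ℝ}
    (hFG : ∀ A, F A ≤ G A) (A : Finset V) : phaFree H h F A ≤ phaFree H h G A := by
  have hc : ((alive H A).card : ℝ) ≤ (H.card : ℝ) := by
    exact_mod_cast Finset.card_le_card (Finset.filter_subset _ _)
  rw [pha_free_eq, pha_free_eq]
  exact add_le_add (mul_le_mul_of_nonneg_left (hFG A)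
      (sub_nonneg.2 ((mul_le_mul_of_nonneg_left hc hh).trans hH)))
    (mul_le_mul_of_nonneg_left (Finset.sum_le_sum fun T _ => hFG _) hh)

lemma pha_kStep_mono (hh : 0 ≤ h) (hH : h * (H.card : ℝ) ≤ 1) {good : Finset V → Prop}
    {F G : Finset V → ℝ} (hFG : ∀ A, F A ≤ G A) (A : Finset V) :
    kStep H good h F A ≤ kStep H good h G A := by
  by_cases hg : good A
  · rw [pha_kStep_good hg, pha_kStep_good hg]; exact pha_free_mono hh hH hFG A
  · rw [pha_kStep_bad hg, pha_kStep_bad hg]

lemma pha_kStep_add (good : Finset V → Prop) (F G : Finset V → ℝ) :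
    kStep H good h (fun A => F A + G A) = fun A => kStep H good h F A + kStep H good h G A := by
  funext A
  by_cases hg : good A
  · simp only [pha_kStep_good hg, pha_free_eq, Finset.sum_add_distrib]; ring
  · simp only [pha_kStep_bad hg, add_zero]

lemma pha_kStep_smul (good : Finset V → Prop) (c : ℝ) (F : Finset V → ℝ) :
    kStep H good h (fun A => c * F A) = fun A => c * kStep H good h F A := by
  funext A
  by_cases hg : good A
  · simp only [pha_kStep_good hg, pha_free_eq, ← Finset.mul_sum]; ring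
  · simp only [pha_kStep_bad hg, mul_zero]

variable [Fintype V] {good : ℕ → Finset V → Prop}

lemma pha_kExp_add : ∀ (k : ℕ) (F G : Finset V → ℝ),
    kExp H good h k (fun A => F A + G A) = kExp H good h k F + kExp H good h k G
  | 0, _, _ => rfl
  | k + 1, F, G => by simp only [kExp, pha_kStep_add, pha_kExp_add k]

lemma pha_kExp_smul : ∀ (k : ℕ) (c : ℝ) (F : Finset V → ℝ),
    kExp H good h k (fun A => c * F A) = c * kExp H good h k F
  | 0, _, _ => rfl
  | k + 1, c, F => by simp only [kExp, pha_kStep_smul, pha_kExp_smul k]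

lemma pha_kExp_mono (hh : 0 ≤ h) (hH : h * (H.card : ℝ) ≤ 1) : ∀ (k : ℕ) {F G : Finset V → ℝ},
    (∀ A, F A ≤ G A) → kExp H good h k F ≤ kExp H good h k G
  | 0, _, _, hFG => hFG _
  | k + 1, _, _, hFG => pha_kExp_mono hh hH k (pha_kStep_mono hh hH hFG)

lemma pha_kExp_zero (k : ℕ) : kExp H good h k (fun _ => 0) = 0 := by
  simpa using pha_kExp_smul (H := H) (good := good) (h := h) k 0 (fun _ => 0)

lemma pha_kExp_nonneg (hh : 0 ≤ h) (hH : h * (H.card : ℝ) ≤ 1) (k : ℕ) {F : Finset V → ℝ}
    (hF : ∀ A, 0 ≤ F A) : 0 ≤ kExp H good h k F := by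
  rw [← pha_kExp_zero (H := H) (good := good) (h := h) k]
  exact pha_kExp_mono hh hH k hF

lemma pha_kExp_sub (k : ℕ) (F G : Finset V → ℝ) :
    kExp H good h k (fun A => F A - G A) = kExp H good h k F - kExp H good h k G := by
  have e : (fun A => F A - G A) = fun A => F A + (-1) * G A := by funext A; ring
  rw [e, pha_kExp_add, pha_kExp_smul]
  ring

lemma pha_kExp_const (k : ℕ) (c : ℝ) :
    kExp H good h k (fun _ => c) = c * kExp H good h k (fun _ => 1) := by
  rw [← pha_kExp_smul]; simp

/-- The lost mass. -/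
lemma pha_exit : ∀ K : ℕ, 1 - kExp H good h K (fun _ => 1) =
    ∑ k ∈ Finset.range K, kExp H good h k (phaBad (good k))
  | 0 => by simp [kExp]
  | K + 1 => by
    have e : kStep H (good K) h (fun _ => 1) = fun A => 1 - phaBad (good K) A := by
      funext A
      by_cases hg : good K A
      · simp [pha_kStep_good hg, phaFree, phaBad, hg]
      · simp [pha_kStep_bad hg, phaBad, hg]
    rw [Finset.sum_range_succ, ← pha_exit K]
    simp only [kExp, e, pha_kExp_sub]
    ring

lemma pha_kExp_one_le (hh : 0 ≤ h) (hH : h * (H.card : ℝ) ≤ 1) (k : ℕ) :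
    kExp H good h k (fun _ => 1) ≤ 1 := by
  have := pha_exit (H := H) (good := good) (h := h) k
  have : 0 ≤ ∑ i ∈ Finset.range k, kExp H good h i (phaBad (good i)) :=
    Finset.sum_nonneg fun i _ => pha_kExp_nonneg hh hH i (phaBad_nonneg _)
  linarith

/-- A potential bounds the mass of the states at which it is large when the chain leaves. -/
lemma pha_tele (hh : 0 ≤ h) (hH : h * (H.card : ℝ) ≤ 1) {Φ src : ℕ → Finset V → ℝ}
    (hsrc : ∀ k A, 0 ≤ src k A) : ∀ (K : ℕ),
    (∀ k < K, ∀ A, good k A → phaFree H h (Φ (k + 1)) A ≤ Φ k A + src k A) →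
    kExp H good h K (Φ K) + ∑ k ∈ Finset.range K, kExp H good h k (fun A => phaBad (good k) A * Φ k A) ≤
      Φ 0 Finset.univ + ∑ k ∈ Finset.range K, kExp H good h k (src k)
  | 0, _ => by simp [kExp]
  | K + 1, hstep => by
    have ih := pha_tele hh hH hsrc K fun k hk => hstep k (by omega)
    have h1 : kExp H good h (K + 1) (Φ (K + 1)) + kExp H good h K (fun A => phaBad (good K) A * Φ K A) ≤
        kExp H good h K (Φ K) + kExp H good h K (src K) := by
      simp only [kExp]
      rw [← pha_kExp_add, ← pha_kExp_add]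
      refine pha_kExp_mono hh hH K fun A => ?_
      by_cases hg : good K A
      · rw [pha_kStep_good hg]
        simpa [phaBad, hg] using hstep K (by omega) A hg
      · rw [pha_kStep_bad hg]
        simpa [phaBad, hg] using hsrc K A
    rw [Finset.sum_range_succ, Finset.sum_range_succ]
    linarith

/-- Multiplicative growth. -/
lemma pha_growth (hh : 0 ≤ h) (hH : h * (H.card : ℝ) ≤ 1) {Φ src : ℕ → Finset V → ℝ} {c : ℕ → ℝ}
    (hΦ : ∀ k A, 0 ≤ Φ k A) (hsrc : ∀ k A, 0 ≤ src k A) : ∀ (K : ℕ), (∀ k < K, 0 ≤ c k) →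
    (∀ k < K, ∀ A, good k A → phaFree H h (Φ (k + 1)) A ≤ Real.exp (c k) * Φ k A + src k A) →
    kExp H good h K (Φ K) ≤ Real.exp (∑ k ∈ Finset.range K, c k) *
      (Φ 0 Finset.univ + ∑ k ∈ Finset.range K, kExp H good h k (src k))
  | 0, _, _ => by simp [kExp]
  | K + 1, hc, hstep => by
    have ih := pha_growth hh hH hΦ hsrc K (fun k hk => hc k (by omega))
      fun k hk => hstep k (by omega)
    have h1 : kExp H good h (K + 1) (Φ (K + 1)) ≤
        Real.exp (c K) * kExp H good h K (Φ K) + kExp H good h K (src K) := by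
      simp only [kExp]
      rw [← pha_kExp_smul, ← pha_kExp_add]
      refine pha_kExp_mono hh hH K fun A => ?_
      by_cases hg : good K A
      · rw [pha_kStep_good hg]; exact hstep K (by omega) A hg
      · rw [pha_kStep_bad hg]
        exact add_nonneg (mul_nonneg (Real.exp_pos _).le (hΦ K A)) (hsrc K A)
    have h2 := mul_le_mul_of_nonneg_left ih (Real.exp_pos (c K)).le
    rw [← mul_assoc, ← Real.exp_add] at h2
    have h3 : (1 : ℝ) ≤ Real.exp (c K + ∑ k ∈ Finset.range K, c k) := Real.one_le_exp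
      (add_nonneg (hc K (by omega)) (Finset.sum_nonneg fun k hk =>
        hc k (by have := Finset.mem_range.1 hk; omega)))
    have h4 := mul_le_mul_of_nonneg_right h3 (pha_kExp_nonneg (good := good) hh hH K (hsrc K))
    rw [Finset.sum_range_succ, Finset.sum_range_succ, add_comm (∑ k ∈ Finset.range K, c k)]
    linarith

/-- Decay at most at a given rate. -/
lemma pha_lower (hh : 0 ≤ h) (hH : h * (H.card : ℝ) ≤ 1) {Φ : ℕ → Finset V → ℝ} {c : ℕ → ℝ}
    {M : ℝ} : ∀ (K : ℕ), (∀ k < K, 0 ≤ c k) → (∀ k A, 0 ≤ Φ k A) → (∀ k < K, ∀ A, Φ k A ≤ M) →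
    (∀ k < K, ∀ A, good k A → (1 - c k) * Φ k A ≤ phaFree H h (Φ (k + 1)) A) →
    Φ 0 Finset.univ - ∑ k ∈ Finset.range K, c k * kExp H good h k (Φ k) -
        M * (1 - kExp H good h K (fun _ => 1)) ≤ kExp H good h K (Φ K)
  | 0, _, _, _, _ => by simp [kExp]
  | K + 1, hc, hΦ, hM, hstep => by
    have ih := pha_lower hh hH (Φ := Φ) (c := c) (M := M) K (fun k hk => hc k (by omega)) hΦ
      (fun k hk => hM k (by omega)) (fun k hk => hstep k (by omega))
    have h1 : kExp H good h K (fun A => (Φ K A - c K * Φ K A) - M * phaBad (good K) A) ≤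
        kExp H good h (K + 1) (Φ (K + 1)) := by
      refine pha_kExp_mono hh hH K fun A => ?_
      by_cases hg : good K A
      · rw [pha_kStep_good hg]
        have := hstep K (by omega) A hg
        simp [phaBad, hg]
        linarith
      · rw [pha_kStep_bad hg]
        have := hM K (by omega) A
        have := mul_nonneg (hc K (by omega)) (hΦ K A)
        simp [phaBad, hg]
        linarith
    rw [pha_kExp_sub, pha_kExp_sub, pha_kExp_smul, pha_kExp_smul] at h1
    rw [Finset.sum_range_succ, pha_exit, Finset.sum_range_succ, ← pha_exit]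
    linarith

end

end Vale.Agent.P046.Full
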