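import Mathlib
import Vale.Agent.P046.Full.Kn
import Vale.Agent.P046.Full.PhaseAChain

/-!
# P046, first phase: the statistics as polynomials in the shifted time
-/

open Finset

namespace Vale.Agent.P046.Full

open Vale.Agent.P046

noncomputable section

section split

variable {V : Type*} [DecidableEq V] {H : Finset (Finset V)}

lemma pha_card_split (A : Finset V) (f : V) :
    ((alive H A).card : ℝ) = deg H A f + (((alive H A).filter fun T => f ∉ T).card : ℝ) := by
  unfold deg star
  exact_mod_cast (Finset.card_filter_add_card_filter_not (fun T => f ∈ T) (s := alive H A)).symm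

/-- A step of a sum over the live points, split by point. -/
lemma pha_free_sum (h : ℝ) (φ : Finset V → V → ℝ) (A : Finset V) :
    phaFree H h (fun B => ∑ f ∈ B, φ B f) A = ∑ f ∈ A,
      ((1 - h * (deg H A f + (((alive H A).filter fun T => f ∉ T).card : ℝ))) * φ A f +
        h * ∑ T ∈ (alive H A).filter (fun T => f ∉ T), φ (A \ T) f) := by
  rw [pha_free_eq, Finset.sum_add_distrib, Finset.mul_sum, ← Finset.mul_sum (a := h)]
  refine congrArg₂ (· + ·) (Finset.sum_congr rfl fun f _ => by rw [← pha_card_split]) ?_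
  congr 1
  refine Finset.sum_comm' ?_
  intro T f
  simp only [Finset.mem_sdiff, Finset.mem_filter]
  tauto

end split

variable {n : ℕ}

/-- Sum of the degrees of the neighbours. -/
def phaW (A : Finset (Edge n)) (f : Edge n) : ℝ :=
  ∑ T ∈ star (triangles n) A f, ∑ g ∈ T.erase f, deg (triangles n) A g

/-- Sum over the neighbours of their degree sums. -/
def phaV (A : Finset (Edge n)) (f : Edge n) : ℝ :=
  ∑ T ∈ star (triangles n) A f, ∑ g ∈ T.erase f, phaW A g

lemma pha_erase_card {A T : Finset (Edge n)} {f : Edge n} (hT : T ∈ star (triangles n) A f) :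
    (T.erase f).card = 2 := by
  obtain ⟨h1, -, h3⟩ := mem_star.1 hT
  rw [Finset.card_erase_of_mem h3, triangles_linear.card3 T h1]

lemma pha_sum_nb_le {A : Finset (Edge n)} {f : Edge n} {w : Edge n → ℝ} {M : ℝ} (hM0 : 0 ≤ M)
    (hw : ∀ g, w g ≤ M) : ∑ T ∈ star (triangles n) A f, ∑ g ∈ T.erase f, w g ≤ 2 * n * M := by
  refine (Finset.sum_le_sum (g := fun _ => 2 * M) fun T hT => ?_).trans ?_
  · refine (Finset.sum_le_sum fun g _ => hw g).trans_eq ?_
    rw [Finset.sum_const, pha_erase_card hT, nsmul_eq_mul]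
    norm_num
  · rw [Finset.sum_const, nsmul_eq_mul, mul_left_comm, mul_assoc]
    exact mul_le_mul_of_nonneg_left (mul_le_mul_of_nonneg_right (deg_le_n A f) hM0) two_pos.le

lemma phaW_nonneg (A : Finset (Edge n)) (f : Edge n) : 0 ≤ phaW A f :=
  Finset.sum_nonneg fun _ _ => Finset.sum_nonneg fun g _ => deg_nonneg A g

lemma phaW_le (A : Finset (Edge n)) (f : Edge n) : phaW A f ≤ 2 * (n : ℝ) ^ 2 :=
  (pha_sum_nb_le (Nat.cast_nonneg n) fun g => deg_le_n A g).trans_eq (by ring)

lemma phaV_nonneg (A : Finset (Edge n)) (f : Edge n) : 0 ≤ phaV A f :=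
  Finset.sum_nonneg fun _ _ => Finset.sum_nonneg fun g _ => phaW_nonneg A g

lemma phaV_le (A : Finset (Edge n)) (f : Edge n) : phaV A f ≤ 4 * (n : ℝ) ^ 3 :=
  (pha_sum_nb_le (by positivity) fun g => phaW_le A g).trans_eq (by ring)

variable {σ : ℝ} (hσ : σ ≠ 0)
include hσ

lemma pha_deg_poly (A : Finset (Edge n)) (f : Edge n) :
    deg (triangles n) A f / refR σ = 2 * σ * deg (triangles n) A f := by
  rw [refR]; field_simp

lemma pha_devD_poly (A : Finset (Edge n)) (f : Edge n) :
    devD (triangles n) A (refR σ) f =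
      4 * σ ^ 2 * phaW A f - 4 * σ * deg (triangles n) A f := by
  have e : ∀ T ∈ star (triangles n) A f,
      ∑ g ∈ T.erase f, (deg (triangles n) A g / refR σ - 1) =
        2 * σ * (∑ g ∈ T.erase f, deg (triangles n) A g) - 2 := fun T hT => by
    rw [Finset.sum_sub_distrib, Finset.sum_const, pha_erase_card hT, Finset.mul_sum]
    simp [pha_deg_poly hσ]
  rw [devD, Finset.sum_congr rfl e, Finset.sum_sub_distrib, ← Finset.mul_sum, Finset.sum_const,
    nsmul_eq_mul, refR]
  show (2 * σ * phaW A f - deg (triangles n) A f * 2) / (1 / (2 * σ)) = _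
  field_simp
  ring

lemma pha_avgD_poly (A : Finset (Edge n)) (f : Edge n) :
    avgOp (triangles n) A (refR σ) (devD (triangles n) A (refR σ)) f =
      8 * σ ^ 3 * phaV A f - 8 * σ ^ 2 * phaW A f := by
  simp only [avgOp, pha_devD_poly hσ, Finset.sum_sub_distrib, ← Finset.mul_sum]
  show (4 * σ ^ 2 * phaV A f - 4 * σ * phaW A f) / refR σ = _
  rw [refR]
  field_simp
  ring

lemma pha_devP_poly (A : Finset (Edge n)) (f : Edge n) :
    devP (triangles n) A (refR σ) f =
      8 * σ ^ 3 * phaV A f - 12 * σ ^ 2 * phaW A f + 4 * σ * deg (triangles n) A f := by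
  rw [devP, pha_avgD_poly hσ, pha_devD_poly hσ]
  ring

variable {h : ℝ} (hσ' : σ + h ≠ 0)
include hσ'

lemma pha_time_deg (A : Finset (Edge n)) (f : Edge n) :
    deg (triangles n) A f / refR (σ + h) - deg (triangles n) A f / refR σ =
      h * (2 * refR σ * (deg (triangles n) A f / refR σ)) := by
  rw [pha_deg_poly hσ', pha_deg_poly hσ, refR]
  field_simp
  ring

lemma pha_time_D (A : Finset (Edge n)) (f : Edge n) :
    devD (triangles n) A (refR (σ + h)) f - devD (triangles n) A (refR σ) f =
      h * (4 * refR σ * devD (triangles n) A (refR σ) f +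
        4 * refR σ * (deg (triangles n) A f / refR σ)) + 4 * h ^ 2 * phaW A f := by
  rw [pha_devD_poly hσ', pha_devD_poly hσ, pha_deg_poly hσ, refR]
  field_simp
  ring

lemma pha_time_P (A : Finset (Edge n)) (f : Edge n) :
    devP (triangles n) A (refR (σ + h)) f - devP (triangles n) A (refR σ) f =
      h * (6 * refR σ * avgOp (triangles n) A (refR σ) (devD (triangles n) A (refR σ)) f +
        4 * refR σ * (deg (triangles n) A f / refR σ)) +
      h ^ 2 * ((24 * σ + 8 * h) * phaV A f - 12 * phaW A f) := by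
  rw [pha_devP_poly hσ', pha_devP_poly hσ, pha_avgD_poly hσ, pha_deg_poly hσ, refR]
  field_simp
  ring

end

end Vale.Agent.P046.Full
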