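import Mathlib
import Vale.Agent.P046.Full.PhaseAStats
import Vale.Agent.P046.Full.PhaseAItem
import Vale.Agent.P046.LineMoment

/-!
# P046, first phase: one step of the scaled moments of the three point statistics
-/

open Finset

namespace Vale.Agent.P046.Full

open Vale.Agent.P046

noncomputable section

variable {n : ℕ}

/-- Reference number of live points. -/
def phaE (n : ℕ) (σ : ℝ) : ℝ := edgesN n * Real.sqrt (refR σ / ((n : ℝ) - 2))

/-- Scale of `P`. -/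
def phaGP (n : ℕ) (η σ : ℝ) : ℝ := σ * (n : ℝ) ^ (8 * η)

/-- Scale of `D`. -/
def phaGD (n : ℕ) (η σ : ℝ) : ℝ := σ * (n : ℝ) ^ (8 * η) + Real.sqrt (Real.sqrt (σ / (n : ℝ)))

/-- Scale of `u`. -/
def phaGU (σ : ℝ) : ℝ := Real.sqrt σ

/-- The scaled moment of a point statistic. -/
def phaMom (m : ℕ) (g e : ℝ) (w : Finset (Edge n) → Edge n → ℝ) (A : Finset (Edge n)) : ℝ :=
  (∑ f ∈ A, (w A f / g) ^ m) / e

/-- The deviation `u`. -/
def phaU (σ : ℝ) (A : Finset (Edge n)) (f : Edge n) : ℝ := deg (triangles n) A f / refR σ - 1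

/-- The statistic `D`. -/
def phaD (σ : ℝ) (A : Finset (Edge n)) (f : Edge n) : ℝ := devD (triangles n) A (refR σ) f

/-- The statistic `P`. -/
def phaP (σ : ℝ) (A : Finset (Edge n)) (f : Edge n) : ℝ := devP (triangles n) A (refR σ) f

/-- The requirements on `n` and on the time. -/
structure PhaBig (η : ℝ) (m : ℕ) (C : ℝ) (n : ℕ) (σ : ℝ) : Prop where
  η0 : 0 < η
  C0 : 0 < C
  big : (10 : ℝ) ^ 8 ≤ n
  mn : (m : ℝ) ≤ n
  pw : 4 * (C + 1) ≤ (n : ℝ) ^ η
  lo : 1 / (2 * ((n : ℝ) - 2)) ≤ σ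
  sm : Real.sqrt σ * (n : ℝ) ^ (8 * η) ≤ 1 / (32 * ((m : ℝ) + 1) * (C + 1))

variable {η C σ : ℝ} {m : ℕ}

namespace PhaBig

lemma n_pos (hb : PhaBig η m C n σ) : (0 : ℝ) < n := by linarith [hb.big]

lemma one_le_pow (hb : PhaBig η m C n σ) {t : ℝ} (ht : 0 ≤ t) : (1 : ℝ) ≤ (n : ℝ) ^ t :=
  Real.one_le_rpow (by linarith [hb.big]) ht

lemma pow_mono (hb : PhaBig η m C n σ) {s t : ℝ} (hst : s ≤ t) : (n : ℝ) ^ s ≤ (n : ℝ) ^ t :=
  Real.rpow_le_rpow_of_exponent_le (by linarith [hb.big]) hst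

lemma sigma_lo (hb : PhaBig η m C n σ) : 1 / (2 * (n : ℝ)) ≤ σ :=
  (one_div_le_one_div_of_le (by linarith [hb.big]) (by linarith)).trans hb.lo

lemma sigma_pos (hb : PhaBig η m C n σ) : 0 < σ :=
  lt_of_lt_of_le (div_pos one_pos (by linarith [hb.n_pos])) hb.sigma_lo

lemma sqrt_le (hb : PhaBig η m C n σ) : Real.sqrt σ ≤ 1 / (32 * ((m : ℝ) + 1) * (C + 1)) :=
  (le_mul_of_one_le_right (Real.sqrt_nonneg _) (hb.one_le_pow (by linarith [hb.η0]))).trans hb.sm

lemma sqrt_C (hb : PhaBig η m C n σ) : Real.sqrt σ * (32 * (C + 1)) ≤ 1 := by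
  have hC := hb.C0
  have h := hb.sqrt_le
  rw [le_div_iff₀ (by positivity)] at h
  have h0 : 0 ≤ Real.sqrt σ * (C + 1) * 32 * (m : ℝ) := by positivity
  linarith

lemma sigma_le_one (hb : PhaBig η m C n σ) : σ ≤ 1 := by
  have h := hb.sqrt_C
  have := hb.C0
  have h0 := Real.sqrt_nonneg σ
  nlinarith [Real.mul_self_sqrt hb.sigma_pos.le]

lemma r_pos (hb : PhaBig η m C n σ) : 0 < refR σ := by
  have := hb.sigma_pos
  unfold refR
  positivity

lemma r_sigma (hb : PhaBig η m C n σ) : refR σ * σ = 1 / 2 := by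
  have := hb.sigma_pos
  unfold refR
  field_simp

lemma half_le_r (hb : PhaBig η m C n σ) : 1 / 2 ≤ refR σ := by
  have := hb.r_sigma
  nlinarith [hb.sigma_le_one, hb.r_pos]

lemma eps_m (hb : PhaBig η m C n σ) :
    Real.sqrt σ * (n : ℝ) ^ η * ((m : ℝ) + 1) * (C + 1) ≤ 1 / 32 := by
  have hC := hb.C0
  have h : Real.sqrt σ * (n : ℝ) ^ η ≤ 1 / (32 * ((m : ℝ) + 1) * (C + 1)) :=
    (mul_le_mul_of_nonneg_left (hb.pow_mono (by linarith [hb.η0])) (Real.sqrt_nonneg _)).trans hb.sm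
  rw [le_div_iff₀ (by positivity)] at h
  linarith

lemma x_small (hb : PhaBig η m C n σ) : (m : ℝ) * (stepH n / σ) ≤ 1 / 4 := by
  have hs := hb.sigma_pos
  have hn := hb.big
  have h1 : stepH n / σ ≤ 2 * (n : ℝ) * stepH n := by
    rw [div_le_iff₀ hs]
    have h2 := hb.sigma_lo
    rw [div_le_iff₀ (by linarith)] at h2
    have : 0 ≤ stepH n := by unfold stepH; positivity
    nlinarith
  have h3 : (m : ℝ) * (2 * (n : ℝ) * stepH n) ≤ 2 * (n : ℝ) ^ 2 * stepH n := by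
    have := hb.mn
    have : 0 ≤ stepH n := by unfold stepH; positivity
    have := hb.n_pos
    nlinarith [mul_le_mul_of_nonneg_right hb.mn (show 0 ≤ 2 * (n : ℝ) * stepH n by positivity)]
  have h4 : 2 * (n : ℝ) ^ 2 * stepH n ≤ 1 / 4 := by
    unfold stepH
    rw [← mul_div_assoc, mul_one, div_le_iff₀ (pow_pos hb.n_pos 20)]
    have : (n : ℝ) ^ 3 ≤ (n : ℝ) ^ 20 := pow_le_pow_right₀ (by linarith) (by norm_num)
    nlinarith [mul_le_mul_of_nonneg_left hn (sq_nonneg (n : ℝ))]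
  exact (mul_le_mul_of_nonneg_left h1 (Nat.cast_nonneg m)).trans (h3.trans h4)

/-- All the errors of order `h`. -/
lemma junk (hb : PhaBig η m C n σ) {g : ℝ} (hg : σ ≤ g) :
    stepH n * ((n : ℝ) ^ 3 + 1) * (500 * (n : ℝ) ^ 3 / g + 1) ^ 2 ≤ 1 / 2 ∧
    stepH n * (500 * (n : ℝ) ^ 3) + (n : ℝ) ^ 3 * (stepH n * (500 * (n : ℝ) ^ 3)) ≤ 1 / (4 * n) ∧
    2 * (n : ℝ) ^ 3 * (stepH n * (500 * (n : ℝ) ^ 3)) ^ 2 ≤ 1 / (4 * n) := by
  have hn := hb.big
  have hn0 := hb.n_pos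
  have hg0 : 0 < g := hb.sigma_pos.trans_le hg
  have hdiv : 500 * (n : ℝ) ^ 3 / g ≤ 1000 * (n : ℝ) ^ 4 := by
    rw [div_le_iff₀ hg0]
    have h2 := hb.sigma_lo
    rw [div_le_iff₀ (by linarith)] at h2
    have h3 : (1 : ℝ) ≤ g * (2 * n) := h2.trans (mul_le_mul_of_nonneg_right hg (by positivity))
    nlinarith [mul_le_mul_of_nonneg_left h3 (show (0 : ℝ) ≤ 500 * (n : ℝ) ^ 3 by positivity)]
  have h1 : (1 : ℝ) ≤ n := by linarith
  have e8 : (10 : ℝ) ^ 8 * (n : ℝ) ^ 11 ≤ (n : ℝ) ^ 20 := by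
    have h12 : (n : ℝ) ^ 12 ≤ (n : ℝ) ^ 20 := pow_le_pow_right₀ h1 (by norm_num)
    have := mul_le_mul_of_nonneg_right hn (show 0 ≤ (n : ℝ) ^ 11 by positivity)
    nlinarith
  refine ⟨?_, ?_, ?_⟩
  · have hb2 : (500 * (n : ℝ) ^ 3 / g + 1) ^ 2 ≤ (1001 * (n : ℝ) ^ 4) ^ 2 :=
      pow_le_pow_left₀ (by positivity) (by linarith [one_le_pow₀ (n := 4) h1]) 2
    refine (mul_le_mul (mul_le_mul_of_nonneg_left (show (n : ℝ) ^ 3 + 1 ≤ 2 * (n : ℝ) ^ 3 by
      linarith [one_le_pow₀ (n := 3) h1]) (by unfold stepH; positivity)) hb2 (by positivity)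
        (by unfold stepH; positivity)).trans ?_
    unfold stepH
    rw [div_mul_eq_mul_div, one_mul, div_mul_eq_mul_div, div_le_iff₀ (by positivity)]
    have : (0 : ℝ) ≤ (n : ℝ) ^ 11 := by positivity
    nlinarith
  · unfold stepH
    rw [div_mul_eq_mul_div, ← mul_div_assoc, ← add_div, div_le_iff₀ (by positivity),
      div_mul_eq_mul_div, le_div_iff₀ (by positivity)]
    have h5 : (n : ℝ) ^ 4 ≤ (n : ℝ) ^ 7 := pow_le_pow_right₀ h1 (by norm_num)
    have h6 : (n : ℝ) ^ 7 ≤ (n : ℝ) ^ 11 := pow_le_pow_right₀ h1 (by norm_num)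
    have : (0 : ℝ) ≤ (n : ℝ) ^ 11 := by positivity
    nlinarith
  · unfold stepH
    rw [div_mul_eq_mul_div, one_mul, div_pow, ← mul_div_assoc, div_le_iff₀ (by positivity),
      div_mul_eq_mul_div, le_div_iff₀ (by positivity)]
    have h5 : (n : ℝ) ^ 10 ≤ (n : ℝ) ^ 11 := pow_le_pow_right₀ h1 (by norm_num)
    have h7 : (n : ℝ) ^ 20 ≤ ((n : ℝ) ^ 20) ^ 2 := le_self_pow₀ (one_le_pow₀ h1) (by norm_num)
    have : (0 : ℝ) ≤ (n : ℝ) ^ 11 := by positivity
    nlinarith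

end PhaBig

lemma phaE_pos (hn : (3 : ℝ) ≤ n) (hσ : 0 < σ) : 0 < phaE n σ := by
  unfold phaE
  rw [edgesN_eq]
  have hr : 0 < refR σ := by unfold refR; positivity
  exact mul_pos (by nlinarith) (Real.sqrt_pos.2 (div_pos hr (by linarith)))

lemma pha_stepH_H (hn : 1 ≤ n) : stepH n * ((triangles n).card : ℝ) ≤ 1 := by
  have h1 : ((triangles n).card : ℝ) ≤ (n : ℝ) ^ 3 := by exact_mod_cast card_triangles_le
  have hn1 : (1 : ℝ) ≤ n := by exact_mod_cast hn
  unfold stepH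
  rw [div_mul_eq_mul_div, one_mul, div_le_one (by positivity)]
  exact h1.trans (pow_le_pow_right₀ hn1 (by norm_num))

lemma phaE_ratio (hn : (3 : ℝ) ≤ n) (hσ : 0 < σ) {h : ℝ} (hh : 0 ≤ h) :
    phaE n σ / phaE n (σ + h) ≤ Real.exp (h * refR σ) := by
  have hr : 0 < refR σ := by unfold refR; positivity
  have hr' : 0 < refR (σ + h) := by unfold refR; positivity
  have he : 0 < edgesN n := by rw [edgesN_eq]; nlinarith
  have hd : (0 : ℝ) < (n : ℝ) - 2 := by linarith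
  have e : phaE n σ / phaE n (σ + h) = Real.sqrt (1 + h / σ) := by
    unfold phaE
    rw [mul_div_mul_left _ _ he.ne', ← Real.sqrt_div (div_pos hr hd).le]
    congr 1
    unfold refR
    field_simp
  rw [e, show h * refR σ = (h / σ) / 2 by unfold refR; field_simp]
  exact pha_sqrt_exp (by positivity)

/-- The data of one point fulfil the requirements of the item inequality. -/
lemma pha_point_data (A : Finset (Edge n)) (f : Edge n) {c h r g e1 M1 M2 J wA wA' τ μ E Q v : ℝ}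
    (wT wT' : Finset (Edge n) → ℝ) (hh : 0 < h) (hH : h * ((triangles n).card : ℝ) ≤ 1)
    (hg : 0 < g) (_hv : v = wA / g) (hM1 : |wA' - wA| ≤ h * M1)
    (hM1T : ∀ T, |wT' T - wT T| ≤ h * M1) (hM2 : |wA' - wA - h * τ| ≤ h ^ 2 * M2)
    (hE : |τ + (∑ T ∈ others A f, (wT T - wA)) - μ * g| ≤ E)
    (hJ : ∀ T ∈ others A f, |wT T - wA| ≤ J) (hQ : ∑ T ∈ others A f, (wT T - wA) ^ 2 ≤ Q)
    (cJ : J + h * M1 ≤ g) (cM : h * M1 ≤ g)
    (cE : E + h * M2 + (n : ℝ) ^ 3 * (h * M1) ≤ g * (c * r + e1 * r * |v|))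
    (cQ : 2 * Q + 2 * (n : ℝ) ^ 3 * (h * M1) ^ 2 ≤ g ^ 2 * (c * r * (1 + |v|)))
    (cjunk : h * ((n : ℝ) ^ 3 + 1) * (M1 / g + 1) ^ 2 ≤ r) :
    h * (deg (triangles n) A f + ((others A f).card : ℝ)) ≤ 1 ∧
    |h * ((wA' - wA) / (h * g))| ≤ 1 ∧ (∀ T ∈ others A f, |(wT' T - wA) / g| ≤ 1) ∧
    |(wA' - wA) / (h * g) + ∑ T ∈ others A f, (wT' T - wA) / g - μ| ≤ c * r + e1 * r * |v| ∧
    ∑ T ∈ others A f, ((wT' T - wA) / g) ^ 2 ≤ c * r * (1 + |v|) ∧
    h * (deg (triangles n) A f + ((others A f).card : ℝ) + 1) *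
      (|(wA' - wA) / (h * g)| + 1) ^ 2 ≤ r := by
  have hM : 0 ≤ h * M1 := (abs_nonneg _).trans hM1
  have hcard : ((alive (triangles n) A).card : ℝ) ≤ (n : ℝ) ^ 3 := card_alive_le A
  have esplit : ((alive (triangles n) A).card : ℝ) =
      deg (triangles n) A f + ((others A f).card : ℝ) := pha_card_split A f
  have hdeg : 0 ≤ deg (triangles n) A f := deg_nonneg A f
  have hΛ : deg (triangles n) A f + ((others A f).card : ℝ) ≤ (n : ℝ) ^ 3 := by linarith
  refine ⟨?_, ?_, ?_, ?_, ?_, ?_⟩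
  · rw [← esplit]
    refine le_trans (mul_le_mul_of_nonneg_left ?_ hh.le) hH
    exact_mod_cast Finset.card_le_card (Finset.filter_subset _ _)
  · have e3 : h * ((wA' - wA) / (h * g)) = (wA' - wA) / g := by field_simp
    rw [e3, abs_div, abs_of_pos hg, div_le_one hg]
    exact hM1.trans cM
  · intro T hT
    rw [abs_div, abs_of_pos hg, div_le_one hg]
    have e3 : wT' T - wA = (wT T - wA) + (wT' T - wT T) := by ring
    rw [e3]
    exact ((abs_add_le _ _).trans (add_le_add (hJ T hT) (hM1T T))).trans cJ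
  · have e3 : (wA' - wA) / (h * g) + ∑ T ∈ others A f, (wT' T - wA) / g - μ =
        ((τ + (∑ T ∈ others A f, (wT T - wA)) - μ * g) + (wA' - wA - h * τ) / h +
          ∑ T ∈ others A f, (wT' T - wT T)) / g := by
      rw [← Finset.sum_div, Finset.sum_sub_distrib, Finset.sum_sub_distrib, Finset.sum_sub_distrib]
      field_simp
      ring
    rw [e3, abs_div, abs_of_pos hg, div_le_iff₀ hg]
    refine le_trans ?_ (cE.trans_eq (mul_comm _ _))
    refine (abs_add_le _ _).trans (add_le_add ((abs_add_le _ _).trans (add_le_add hE ?_)) ?_)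
    · rw [abs_div, abs_of_pos hh, div_le_iff₀ hh]
      exact hM2.trans (le_of_eq (by ring))
    · refine (Finset.abs_sum_le_sum_abs _ _).trans ?_
      refine (Finset.sum_le_card_nsmul _ _ _ fun T _ => hM1T T).trans ?_
      rw [nsmul_eq_mul]
      exact mul_le_mul_of_nonneg_right (by linarith) hM
  · simp only [div_pow, ← Finset.sum_div]
    rw [div_le_iff₀ (pow_pos hg 2)]
    have h2 : ∑ T ∈ others A f, (wT' T - wA) ^ 2 ≤
        ∑ T ∈ others A f, (2 * (wT T - wA) ^ 2 + 2 * (h * M1) ^ 2) :=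
      Finset.sum_le_sum fun T _ => by
        have h3 : (wT' T - wT T) ^ 2 ≤ (h * M1) ^ 2 := by
          rw [← sq_abs]; exact pow_le_pow_left₀ (abs_nonneg _) (hM1T T) 2
        have h5 : (wT' T - wA) ^ 2 ≤ 2 * (wT T - wA) ^ 2 + 2 * (wT' T - wT T) ^ 2 := by
          have := sq_nonneg ((wT T - wA) - (wT' T - wT T))
          linarith
        linarith
    rw [Finset.sum_add_distrib, ← Finset.mul_sum, Finset.sum_const, nsmul_eq_mul] at h2
    have h4 : ((others A f).card : ℝ) * (2 * (h * M1) ^ 2) ≤ (n : ℝ) ^ 3 * (2 * (h * M1) ^ 2) :=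
      mul_le_mul_of_nonneg_right (by linarith) (by positivity)
    linarith
  · have habs_t : |(wA' - wA) / (h * g)| ≤ M1 / g := by
      rw [abs_div, abs_of_pos (mul_pos hh hg), div_le_div_iff₀ (mul_pos hh hg) hg]
      exact (mul_le_mul_of_nonneg_right hM1 hg.le).trans (le_of_eq (by ring))
    exact le_trans (mul_le_mul (mul_le_mul_of_nonneg_left (by linarith) hh.le)
      (pow_le_pow_left₀ (by positivity) (by linarith) 2) (by positivity)
      (mul_nonneg hh.le (by positivity))) cjunk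

/-- A scaled moment as a multiple of the unscaled one. -/
lemma pha_mom_scale {m : ℕ} {h g g' e e' : ℝ} (hg : 0 < g) (hg' : 0 < g') (he : 0 < e) (he' : 0 < e')
    (w' : Finset (Edge n) → Edge n → ℝ) (A : Finset (Edge n)) :
    phaFree (triangles n) h (phaMom m g' e' w') A =
      g ^ m * e / (g' ^ m * e') *
        (phaFree (triangles n) h (fun B => ∑ f ∈ B, (w' B f / g) ^ m) A / e) := by
  have hfun : phaMom m g' e' w' =
      fun B => g ^ m * e / (g' ^ m * e') / e * ∑ f ∈ B, (w' B f / g) ^ m := by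
    funext B
    simp only [phaMom, Finset.sum_div, Finset.mul_sum]
    refine Finset.sum_congr rfl fun f _ => ?_
    rw [div_pow, div_pow]
    field_simp
  rw [hfun]
  simp only [pha_free_eq, ← Finset.mul_sum]
  ring

/-- One step of a scaled moment. -/
lemma pha_pot_step (hm : Even m) (hm4 : 4 ≤ m) {c : ℝ} (hc : 1 ≤ c) :
    ∃ B : ℝ, 0 ≤ B ∧ ∀ (n : ℕ) (A : Finset (Edge n)) (w w' : Finset (Edge n) → Edge n → ℝ)
      (h r g g' e e' b lam F e1 M1 M2 J : ℝ) (τ μ E Q : Edge n → ℝ),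
      0 < h → h * ((triangles n).card : ℝ) ≤ 1 → 0 ≤ r → 0 < g → 0 < g' → 0 < e → 0 < e' →
      0 ≤ F → e1 * m ≤ 1 / 4 →
      g ^ m * e / (g' ^ m * e') ≤ Real.exp (b * (h * r)) → b ≤ lam → b * (h * r) ≤ 1 / 2 →
      (∀ f B, |w' B f - w B f| ≤ h * M1) →
      (∀ f ∈ A, |w' A f - w A f - h * τ f| ≤ h ^ 2 * M2) →
      (∀ f ∈ A, |τ f + (∑ T ∈ others A f, (w (A \ T) f - w A f)) - μ f * g| ≤ E f) →
      (∀ f ∈ A, ∀ T ∈ others A f, |w (A \ T) f - w A f| ≤ J) →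
      (∀ f ∈ A, ∑ T ∈ others A f, (w (A \ T) f - w A f) ^ 2 ≤ Q f) →
      J + h * M1 ≤ g → h * M1 ≤ g →
      (∀ f ∈ A, E f + h * M2 + (n : ℝ) ^ 3 * (h * M1) ≤ g * (c * r + e1 * r * |w A f / g|)) →
      (∀ f ∈ A, 2 * Q f + 2 * (n : ℝ) ^ 3 * (h * M1) ^ 2 ≤
        g ^ 2 * (c * r * (1 + |w A f / g|))) →
      h * ((n : ℝ) ^ 3 + 1) * (M1 / g + 1) ^ 2 ≤ r →
      (∑ f ∈ A, ((m : ℝ) * (w A f / g) ^ (m - 1) * μ f - deg (triangles n) A f * (w A f / g) ^ m) ≤
        -(lam + 1 / 2) * r * (∑ f ∈ A, (w A f / g) ^ m) + r * F) →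
      phaFree (triangles n) h (phaMom m g' e' w') A ≤
        phaMom m g e w A + 2 * (h * r) * (F + B * A.card) / e := by
  obtain ⟨B, hB0, hB⟩ := pha_item hm hm4 hc
  refine ⟨B, hB0, ?_⟩
  intro n A w w' h r g g' e e' b lam F e1 M1 M2 J τ μ E Q hh hH hr hg hg' he he' hF he1
    hq hbl hby hM1 hM2 hE hJ hQ cJ cM cE cQ cjunk hsum
  have hS0 : 0 ≤ phaFree (triangles n) h (fun B => ∑ f ∈ B, (w' B f / g) ^ m) A := by
    have h0 : ∀ B : Finset (Edge n), (0 : ℝ) ≤ ∑ f ∈ B, (w' B f / g) ^ m :=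
      fun B => Finset.sum_nonneg fun f _ => hm.pow_nonneg _
    have := pha_free_mono hh.le hH (F := fun _ => (0 : ℝ)) h0 A
    simpa [phaFree] using this
  have hpt : ∀ f ∈ A, (1 - h * (deg (triangles n) A f + ((others A f).card : ℝ))) * (w' A f / g) ^ m +
      h * ∑ T ∈ others A f, (w' (A \ T) f / g) ^ m ≤
      (w A f / g) ^ m + h * ((m : ℝ) * (w A f / g) ^ (m - 1) * μ f -
        deg (triangles n) A f * (w A f / g) ^ m + r * ((w A f / g) ^ m / 2 + B)) := by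
    intro f hf
    obtain ⟨h1, h2, h3, h4, h5, h6⟩ := pha_point_data (c := c) A f (fun T => w (A \ T) f)
      (fun T => w' (A \ T) f) hh hH hg rfl (hM1 f A) (fun T => hM1 f _) (hM2 f hf) (hE f hf)
      (hJ f hf) (hQ f hf) cJ cM (cE f hf) (cQ f hf) cjunk
    have := hB _ (others A f) (fun T => (w' (A \ T) f - w A f) / g) (w A f / g)
      ((w' A f - w A f) / (h * g)) (deg (triangles n) A f) r e1 h (μ f) hh.le (deg_nonneg A f) h1 h2 h3
      hr he1 h4 h5 h6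
    have e4 : w A f / g + h * ((w' A f - w A f) / (h * g)) = w' A f / g := by field_simp; ring
    have e5 : ∀ T, w A f / g + (w' (A \ T) f - w A f) / g = w' (A \ T) f / g := fun T => by ring
    simp only [e4, e5] at this
    exact this
  have hS : phaFree (triangles n) h (fun B => ∑ f ∈ B, (w' B f / g) ^ m) A ≤
      (1 - lam * (h * r)) * (∑ f ∈ A, (w A f / g) ^ m) + (h * r) * (F + B * A.card) := by
    rw [pha_free_sum]
    refine (Finset.sum_le_sum hpt).trans ?_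
    rw [Finset.sum_add_distrib, ← Finset.mul_sum, Finset.sum_add_distrib, ← Finset.mul_sum,
      Finset.sum_add_distrib, Finset.sum_const, nsmul_eq_mul, ← Finset.sum_div]
    have := mul_le_mul_of_nonneg_left hsum hh.le
    linarith
  have := pha_combine hS0 (Finset.sum_nonneg fun f _ => hm.pow_nonneg _)
    (mul_nonneg (mul_nonneg hh.le hr) (by positivity)) (mul_nonneg hh.le hr) hS hq hbl hby
  rw [pha_mom_scale hg hg' he he', ← mul_div_assoc, phaMom, ← add_div]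
  exact (div_le_div_of_nonneg_right this he.le).trans_eq (by ring)

end

end Vale.Agent.P046.Full
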