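import Mathlib
import Vale.Agent.P046.Full.PhaseASteps

/-!
# P046, first phase: one step of the moment of `P`
-/

open Finset

namespace Vale.Agent.P046.Full

open Vale.Agent.P046

noncomputable section

variable {n m : ℕ} {η C σ : ℝ} {A : Finset (Edge n)}

lemma pha_sum_line (hm1 : 1 ≤ m) {G : ℝ}
    (hline : ∀ a b c : ℝ, -(a ^ (m - 1) * (b + c) + b ^ (m - 1) * (a + c) + c ^ (m - 1) * (a + b)) ≤
      (2 - G / m) * (a ^ m + b ^ m + c ^ m)) (A : Finset (Edge n)) (v : Edge n → ℝ) :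
    ∑ f ∈ A, ((m : ℝ) * v f ^ (m - 1) * -(∑ T ∈ star (triangles n) A f, ∑ g ∈ T.erase f, v g) -
        deg (triangles n) A f * v f ^ m) ≤
      (2 * (m : ℝ) - G - 1) * ∑ f ∈ A, deg (triangles n) A f * v f ^ m := by
  have hmR : (0 : ℝ) < m := by exact_mod_cast hm1
  have e1 : ∑ f ∈ A, v f ^ (m - 1) * -(∑ T ∈ star (triangles n) A f, ∑ g ∈ T.erase f, v g) =
      ∑ T ∈ alive (triangles n) A, -(∑ f ∈ T, v f ^ (m - 1) * ∑ g ∈ T.erase f, v g) := by
    simp only [mul_neg, Finset.mul_sum, Finset.sum_neg_distrib]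
    rw [sum_star_swap A (fun f T => ∑ g ∈ T.erase f, v f ^ (m - 1) * v g)]
  have e2 : ∀ T ∈ alive (triangles n) A, -(∑ f ∈ T, v f ^ (m - 1) * ∑ g ∈ T.erase f, v g) ≤
      (2 - G / m) * ∑ f ∈ T, v f ^ m := by
    intro T hT
    obtain ⟨a, b, c, hab, hac, hbc, rfl⟩ :=
      Finset.card_eq_three.1 (triangles_linear.card3 T (mem_alive.1 hT).1)
    have hsum : ∀ F : Edge n → ℝ, ∑ f ∈ ({a, b, c} : Finset (Edge n)), F f = F a + F b + F c :=
      fun F => by
        rw [Finset.sum_insert (by simp [hab, hac]), Finset.sum_pair hbc]; ring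
    rw [hsum, hsum, Finset.sum_erase_eq_sub (by simp), Finset.sum_erase_eq_sub (by simp),
      Finset.sum_erase_eq_sub (by simp), hsum]
    refine le_of_eq_of_le ?_ (hline (v a) (v b) (v c))
    ring
  have e3 := (Finset.sum_le_sum e2)
  rw [← Finset.mul_sum, ← sum_deg A (fun f => v f ^ m), ← e1] at e3
  rw [Finset.sum_sub_distrib]
  simp only [mul_assoc (m : ℝ), ← Finset.mul_sum (a := (m : ℝ))]
  have := mul_le_mul_of_nonneg_left e3 hmR.le
  have e4 : (m : ℝ) * ((2 - G / m) * ∑ f ∈ A, deg (triangles n) A f * v f ^ m) =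
      (2 * (m : ℝ) - G) * ∑ f ∈ A, deg (triangles n) A f * v f ^ m := by
    field_simp
  linarith

lemma pha_avg_scale (H : Finset (Finset (Edge n))) {r : ℝ} (hr : r ≠ 0) (g : ℝ) (w : Edge n → ℝ)
    (f : Edge n) :
    -(∑ T ∈ star H A f, ∑ x ∈ T.erase f, w x / g) * g = -(r * (avgOp H A r w f / g) * g) := by
  simp only [avgOp, ← Finset.sum_div]
  field_simp

namespace PhaBig

lemma eps2m (hb : PhaBig η m C n σ) : 2 * (m : ℝ) * (Real.sqrt σ * (n : ℝ) ^ η) ≤ 1 / 8 := by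
  have h := hb.eps_m
  have hC := hb.C0
  have h0 : 0 ≤ Real.sqrt σ * (n : ℝ) ^ η := mul_nonneg (Real.sqrt_nonneg _) (Real.rpow_nonneg hb.n_pos.le _)
  nlinarith [mul_nonneg (mul_nonneg h0 (show (0:ℝ) ≤ (m:ℝ) + 1 by positivity)) hC.le]

lemma eps1 (hb : PhaBig η m C n σ) : Real.sqrt σ * (n : ℝ) ^ η ≤ 1 / 8 := by
  have h := hb.eps_m
  have hC := hb.C0
  have h0 : 0 ≤ Real.sqrt σ * (n : ℝ) ^ η := mul_nonneg (Real.sqrt_nonneg _) (Real.rpow_nonneg hb.n_pos.le _)
  nlinarith [mul_nonneg (mul_nonneg h0 (show (0:ℝ) ≤ (m:ℝ) by positivity)) (show (0:ℝ) ≤ C + 1 by linarith),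
    mul_nonneg h0 hC.le]

lemma gP_lower (hb : PhaBig η m C n σ) : 4 * (C + 1) * σ ≤ phaGP n η σ := by
  unfold phaGP
  rw [mul_comm]
  exact mul_le_mul_of_nonneg_left (hb.pw.trans (hb.pow_mono (by linarith [hb.η0]))) hb.sigma_pos.le

lemma sigma_le_gP (hb : PhaBig η m C n σ) : σ ≤ phaGP n η σ :=
  le_mul_of_one_le_right hb.sigma_pos.le (hb.one_le_pow (by linarith [hb.η0]))

lemma gP_le_gD (hb : PhaBig η m C n σ) : phaGP n η σ ≤ phaGD n η σ := by
  unfold phaGP phaGD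
  linarith [Real.sqrt_nonneg (Real.sqrt (σ / (n : ℝ)))]

lemma gU_lower (hb : PhaBig η m C n σ) : 4 * (C + 1) * σ ≤ phaGU σ := by
  unfold phaGU
  have h := hb.sqrt_C
  have h0 := Real.sqrt_nonneg σ
  have e : Real.sqrt σ * Real.sqrt σ = σ := Real.mul_self_sqrt hb.sigma_pos.le
  have := mul_le_mul_of_nonneg_left h h0
  have := hb.sigma_pos
  have := hb.C0
  nlinarith

/-- The error of the drift of `D` and `P`. -/
lemma err_le (hb : PhaBig η m C n σ) {g : ℝ} (hg : phaGP n η σ ≤ g) :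
    C * (refR σ * σ * (n : ℝ) ^ (2 * η) + 1) + 1 / (4 * (n : ℝ)) ≤ g * (8 * (C + 1) * refR σ) := by
  have h1 : (n : ℝ) ^ (8 * η) / 2 ≤ g * refR σ := by
    refine le_trans (le_of_eq ?_) (mul_le_mul_of_nonneg_right hg hb.r_pos.le)
    rw [phaGP, mul_comm σ, mul_assoc, mul_comm σ, hb.r_sigma]
    ring
  have h2 : (n : ℝ) ^ (2 * η) ≤ (n : ℝ) ^ (8 * η) := hb.pow_mono (by linarith [hb.η0])
  have h3 : (1 : ℝ) ≤ (n : ℝ) ^ (8 * η) := hb.one_le_pow (by linarith [hb.η0])
  have h4 : 1 / (4 * (n : ℝ)) ≤ 1 := by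
    rw [div_le_one (by linarith [hb.n_pos])]; linarith [hb.big]
  rw [hb.r_sigma]
  have := hb.C0
  nlinarith [mul_le_mul_of_nonneg_left h1 (show 0 ≤ 8 * (C + 1) by linarith)]

lemma quad_junk (hb : PhaBig η m C n σ) {g : ℝ} (hg : σ ≤ g) :
    1 / (4 * (n : ℝ)) ≤ g ^ 2 * refR σ := by
  have h1 : σ ^ 2 * refR σ ≤ g ^ 2 * refR σ :=
    mul_le_mul_of_nonneg_right (pow_le_pow_left₀ hb.sigma_pos.le hg 2) hb.r_pos.le
  have h2 : σ ^ 2 * refR σ = σ / 2 := by rw [sq, mul_assoc, mul_comm σ (refR σ), hb.r_sigma]; ring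
  have h3 := hb.sigma_lo
  have h4 : 1 / (4 * (n : ℝ)) = 1 / (2 * (n : ℝ)) / 2 := by ring
  linarith

lemma r_h_small (hb : PhaBig η m C n σ) {b : ℝ} (hbm : b ≤ 2 * (m : ℝ) + 1) (hm4 : 4 ≤ m) :
    b * (stepH n * refR σ) ≤ 1 / 2 := by
  have hσ := hb.sigma_pos
  have hx := hb.x_small
  have e : stepH n * refR σ = (stepH n / σ) / 2 := by unfold refR; field_simp
  have hm : (4 : ℝ) ≤ m := by exact_mod_cast hm4
  have h0 : 0 ≤ stepH n / σ := div_nonneg (by unfold stepH; positivity) hσ.le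
  rw [e]
  nlinarith [mul_le_mul_of_nonneg_right hbm h0]

end PhaBig

/-- One step of the moment of `P`. -/
lemma pha_step_P (hm : Even m) (hm4 : 4 ≤ m)
    (hline : ∀ a b c : ℝ, -(a ^ (m - 1) * (b + c) + b ^ (m - 1) * (a + c) + c ^ (m - 1) * (a + b)) ≤
      (2 - 3 / m) * (a ^ m + b ^ m + c ^ m)) (hC : 0 < C) :
    ∃ B : ℝ, 0 ≤ B ∧ ∀ (n : ℕ) (η σ : ℝ) (A : Finset (Edge n)), PhaBig η m C n σ →
      (∀ f ∈ A, |phaU σ A f| ≤ Real.sqrt σ * (n : ℝ) ^ η) →
      (∀ f ∈ A,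
        |∑ T ∈ others A f, (devP (triangles n) (A \ T) (refR σ) f - devP (triangles n) A (refR σ) f) +
          6 * refR σ * avgOp (triangles n) A (refR σ) (devD (triangles n) A (refR σ)) f +
          4 * refR σ * (deg (triangles n) A f / refR σ) +
          refR σ * avgOp (triangles n) A (refR σ) (devP (triangles n) A (refR σ)) f| ≤
            C * (refR σ * σ * (n : ℝ) ^ (2 * η) + 1)) →
      (∀ f ∈ A, ∀ T ∈ others A f,
        |devP (triangles n) (A \ T) (refR σ) f - devP (triangles n) A (refR σ) f| ≤ C / refR σ) →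
      (∀ f ∈ A, ∑ T ∈ others A f,
        (devP (triangles n) (A \ T) (refR σ) f - devP (triangles n) A (refR σ) f) ^ 2 ≤
          C * σ * (n : ℝ) ^ (14 * η)) →
      phaFree (triangles n) (stepH n)
          (phaMom m (phaGP n η (σ + stepH n)) (phaE n (σ + stepH n)) (phaP (σ + stepH n))) A ≤
        phaMom m (phaGP n η σ) (phaE n σ) (phaP σ) A +
          B * (stepH n * refR σ) * ((A.card : ℝ) / phaE n σ) := by
  obtain ⟨B, hB0, hB⟩ := pha_pot_step hm hm4 (c := 8 * (C + 1)) (by linarith)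
  refine ⟨2 * B, by linarith, ?_⟩
  intro n η σ A hb hu hE hJ hQ
  have hσ := hb.sigma_pos
  have hh : 0 < stepH n := by unfold stepH; exact div_pos one_pos (pow_pos hb.n_pos 20)
  have hn3 : (3 : ℝ) ≤ n := by linarith [hb.big]
  have hgp : 0 < phaGP n η σ := lt_of_lt_of_le hσ hb.sigma_le_gP
  have hgp' : 0 < phaGP n η (σ + stepH n) :=
    mul_pos (by linarith) (Real.rpow_pos_of_pos hb.n_pos _)
  obtain ⟨j1, j2, j3⟩ := hb.junk hb.sigma_le_gP
  have hm2 : (4 : ℝ) ≤ m := by exact_mod_cast hm4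
  have key := hB n A (phaP σ) (phaP (σ + stepH n)) (stepH n) (refR σ) (phaGP n η σ)
    (phaGP n η (σ + stepH n)) (phaE n σ) (phaE n (σ + stepH n)) (2 - 2 * m) (2 - 2 * m) 0 0
    (500 * (n : ℝ) ^ 3) (500 * (n : ℝ) ^ 3) (C / refR σ)
    (fun f => 6 * refR σ * avgOp (triangles n) A (refR σ) (devD (triangles n) A (refR σ)) f +
      4 * refR σ * (deg (triangles n) A f / refR σ))
    (fun f => -(∑ T ∈ star (triangles n) A f, ∑ x ∈ T.erase f, phaP σ A x / phaGP n η σ))
    (fun _ => C * (refR σ * σ * (n : ℝ) ^ (2 * η) + 1))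
    (fun _ => C * σ * (n : ℝ) ^ (14 * η)) hh
    (pha_stepH_H (by exact_mod_cast (by linarith : (1 : ℝ) ≤ n))) hb.r_pos.le hgp hgp'
    (phaE_pos hn3 hσ) (phaE_pos hn3 (by linarith)) le_rfl (by norm_num) ?_ le_rfl
    (hb.r_h_small (by linarith) hm4) ?_ ?_ ?_ hJ hQ ?_ ?_ ?_ ?_ (j1.trans hb.half_le_r) ?_
  · refine key.trans (add_le_add le_rfl (le_of_eq ?_))
    ring
  · have hd := phaE_ratio hn3 hσ hh.le
    have hratio : phaGP n η σ / phaGP n η (σ + stepH n) = 1 / (1 + stepH n / σ) := by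
      unfold phaGP
      rw [mul_div_mul_right _ _ (Real.rpow_pos_of_pos hb.n_pos _).ne']
      field_simp
    rw [mul_div_mul_comm, ← div_pow, hratio]
    refine (mul_le_mul (pha_inv_pow_exp (div_nonneg hh.le hσ.le) m (hb.x_small.trans (by norm_num)))
      hd (div_nonneg (phaE_pos hn3 hσ).le (phaE_pos hn3 (by linarith)).le) (Real.exp_pos _).le).trans_eq ?_
    rw [← Real.exp_add]
    congr 1
    unfold refR
    field_simp
    ring
  · intro f B'
    have e : phaP (σ + stepH n) B' f - phaP σ B' f = stepH n *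
        ((8 * (3 * σ ^ 2 + 3 * σ * stepH n + stepH n ^ 2)) * phaV B' f -
          (12 * (2 * σ + stepH n)) * phaW B' f + 4 * deg (triangles n) B' f) := by
      unfold phaP
      rw [pha_devP_poly (by linarith), pha_devP_poly hσ.ne']
      ring
    rw [e, abs_mul, abs_of_pos hh]
    refine mul_le_mul_of_nonneg_left ?_ hh.le
    have hh1 : stepH n ≤ 1 := by
      unfold stepH; rw [div_le_one (pow_pos hb.n_pos 20)]; exact one_le_pow₀ (by linarith)
    have hs1 := hb.sigma_le_one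
    have a1 : 0 ≤ 8 * (3 * σ ^ 2 + 3 * σ * stepH n + stepH n ^ 2) ∧
        8 * (3 * σ ^ 2 + 3 * σ * stepH n + stepH n ^ 2) ≤ 56 := by
      constructor
      · positivity
      · nlinarith
    have a2 : 0 ≤ 12 * (2 * σ + stepH n) ∧ 12 * (2 * σ + stepH n) ≤ 36 := ⟨by positivity, by linarith⟩
    have hV := phaV_le B' f
    have hV0 := phaV_nonneg B' f
    have hW := phaW_le B' f
    have hW0 := phaW_nonneg B' f
    have hX := deg_le_n B' f
    have hX0 := deg_nonneg (H := triangles n) B' f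
    have n3 : (n : ℝ) ≤ (n : ℝ) ^ 3 := le_self_pow₀ (by linarith) (by norm_num)
    have n23 : (n : ℝ) ^ 2 ≤ (n : ℝ) ^ 3 := pow_le_pow_right₀ (by linarith) (by norm_num)
    have p1 := mul_le_mul a1.2 hV hV0 (by norm_num)
    have p2 := mul_le_mul a2.2 hW hW0 (by norm_num)
    have p1' := mul_nonneg a1.1 hV0
    have p2' := mul_nonneg a2.1 hW0
    rw [abs_le]
    constructor <;> linarith
  · intro f hf
    unfold phaP
    rw [pha_time_P hσ.ne' (by linarith), add_sub_cancel_left, abs_mul, abs_of_nonneg (sq_nonneg _)]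
    refine mul_le_mul_of_nonneg_left ?_ (sq_nonneg _)
    have hh1 : stepH n ≤ 1 := by
      unfold stepH; rw [div_le_one (pow_pos hb.n_pos 20)]; exact one_le_pow₀ (by linarith)
    have a1 : 24 * σ + 8 * stepH n ≤ 32 := by linarith [hb.sigma_le_one]
    have p1 := mul_le_mul a1 (phaV_le A f) (phaV_nonneg A f) (by norm_num)
    have p1' : 0 ≤ (24 * σ + 8 * stepH n) * phaV A f := mul_nonneg (by linarith) (phaV_nonneg A f)
    have hW := phaW_le A f
    have hW0 := phaW_nonneg A f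
    have n23 : (n : ℝ) ^ 2 ≤ (n : ℝ) ^ 3 := pow_le_pow_right₀ (by linarith) (by norm_num)
    rw [abs_le]
    constructor <;> linarith
  · intro f hf
    refine le_trans (le_of_eq ?_) (hE f hf)
    rw [pha_avg_scale (triangles n) hb.r_pos.ne']
    unfold phaP
    congr 1
    simp only [avgOp]
    field_simp
    ring
  · have h2 := hb.gP_lower
    have h4 : C / refR σ = 2 * C * σ := by unfold refR; field_simp
    have h3 : stepH n * (500 * (n : ℝ) ^ 3) ≤ 2 * σ := by
      have h5 := hb.sigma_lo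
      have h6 : 0 ≤ (n : ℝ) ^ 3 * (stepH n * (500 * (n : ℝ) ^ 3)) := by positivity
      have h7 : 1 / (4 * (n : ℝ)) ≤ 1 / (2 * (n : ℝ)) :=
        one_div_le_one_div_of_le (by linarith) (by linarith)
      linarith
    nlinarith
  · have h6 : 0 ≤ (n : ℝ) ^ 3 * (stepH n * (500 * (n : ℝ) ^ 3)) := by positivity
    have h5 := hb.sigma_lo
    have h7 : 1 / (4 * (n : ℝ)) ≤ 1 / (2 * (n : ℝ)) :=
      one_div_le_one_div_of_le (by linarith) (by linarith)
    linarith [hb.sigma_le_gP]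
  · intro f hf
    have := hb.err_le le_rfl
    simp only [zero_mul, add_zero]
    linarith
  · intro f hf
    have h1 := hb.quad_junk hb.sigma_le_gP
    have h2 : C * σ * (n : ℝ) ^ (14 * η) ≤ 2 * C * (phaGP n η σ ^ 2 * refR σ) := by
      have e : phaGP n η σ ^ 2 * refR σ = σ / 2 * (n : ℝ) ^ (16 * η) := by
        rw [phaGP, mul_pow, ← Real.rpow_natCast ((n : ℝ) ^ (8 * η)) 2, ← Real.rpow_mul hb.n_pos.le]
        unfold refR
        push_cast
        field_simp
        congr 1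
        ring
      rw [e]
      have := mul_le_mul_of_nonneg_left (hb.pow_mono (show 14 * η ≤ 16 * η by linarith [hb.η0]))
        (mul_nonneg hC.le hσ.le)
      linarith
    have h3 : 0 ≤ phaGP n η σ ^ 2 * refR σ := by have := hb.r_pos; positivity
    have h4 : 0 ≤ 8 * (C + 1) * (phaGP n η σ ^ 2 * refR σ) * |phaP σ A f / phaGP n η σ| := by
      positivity
    nlinarith
  · set v := fun f => phaP σ A f / phaGP n η σ
    refine (pha_sum_line (by omega) hline A v).trans ?_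
    simp only [mul_zero, add_zero]
    have hcoef : (0 : ℝ) ≤ 2 * (m : ℝ) - 3 - 1 := by linarith
    rw [Finset.mul_sum, Finset.mul_sum]
    refine Finset.sum_le_sum fun f hf => ?_
    have hd : deg (triangles n) A f ≤ refR σ * (1 + Real.sqrt σ * (n : ℝ) ^ η) := by
      have := (abs_le.1 (hu f hf)).2
      unfold phaU at this
      rw [sub_le_iff_le_add', div_le_iff₀ hb.r_pos] at this
      linarith
    have hv : 0 ≤ v f ^ m := hm.pow_nonneg _
    have h1 := mul_le_mul_of_nonneg_left (mul_le_mul_of_nonneg_right hd hv) hcoef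
    refine h1.trans ?_
    rw [← mul_assoc, ← mul_assoc]
    refine mul_le_mul_of_nonneg_right ?_ hv
    have h2 := hb.eps2m
    have h0 : 0 ≤ Real.sqrt σ * (n : ℝ) ^ η :=
      mul_nonneg (Real.sqrt_nonneg _) (Real.rpow_nonneg hb.n_pos.le _)
    have h3 := mul_le_mul_of_nonneg_left h2 hb.r_pos.le
    have h4 := mul_nonneg hb.r_pos.le h0
    nlinarith

end

end Vale.Agent.P046.Full
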