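import Mathlib
import Vale.Agent.P046.Full.PhaseAStepP

/-!
# P046, first phase: one step of the moment of the triple codegrees
-/

open Finset

namespace Vale.Agent.P046.Full

open Vale.Agent.P046

noncomputable section

variable {n m : ℕ} {η C σ : ℝ}

/-- Ordered triples of distinct vertices. -/
def phaTriples (n : ℕ) : Finset (Fin n × Fin n × Fin n) :=
  Finset.univ.filter fun t => t.1 ≠ t.2.1 ∧ t.1 ≠ t.2.2 ∧ t.2.1 ≠ t.2.2

/-- Scale of the triple codegree. -/
def phaGK (n : ℕ) (η σ : ℝ) : ℝ :=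
  Real.sqrt (refK n σ + 1) * (n : ℝ) ^ η + refK n σ * Real.sqrt σ * (n : ℝ) ^ (2 * η)

/-- The scaled moment of the triple codegrees. -/
def phaMomK (n m : ℕ) (η σ : ℝ) (A : Finset (Edge n)) : ℝ :=
  (∑ t ∈ phaTriples n, ((codeg3 A t.1 t.2.1 t.2.2 - refK n σ) / phaGK n η σ) ^ m) / (n : ℝ) ^ 3

lemma card_phaTriples (n : ℕ) : ((phaTriples n).card : ℝ) ≤ (n : ℝ) ^ 3 := by
  have h : (phaTriples n).card ≤ n ^ 3 := by
    refine (Finset.card_filter_le _ _).trans (le_of_eq ?_)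
    simp only [Finset.card_univ, Fintype.card_prod, Fintype.card_fin]
    ring
  exact_mod_cast h

lemma pha_cube_root {x : ℝ} (hx : 0 ≤ x) (hx4 : x ≤ 1 / 4) :
    |(1 / Real.sqrt (1 + x)) ^ 3 - (1 - 3 * x / 2)| ≤ 6 * x ^ 2 := by
  set y := 1 / Real.sqrt (1 + x) with hy
  have hs : 0 < Real.sqrt (1 + x) := Real.sqrt_pos.2 (by linarith)
  have hy0 : 0 < y := by rw [hy]; positivity
  have hy2 : y ^ 2 * (1 + x) = 1 := by
    rw [hy, div_pow, one_pow, Real.sq_sqrt (by linarith)]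
    field_simp
  have hlo : 1 - x / 2 ≤ y := by
    refine le_of_pow_le_pow_left₀ two_ne_zero hy0.le ?_
    refine le_of_mul_le_mul_right ?_ (show 0 < 1 + x by linarith)
    rw [hy2]
    nlinarith [mul_nonneg (sq_nonneg x) (show 0 ≤ 3 - x by linarith)]
  have hhi : y ≤ 1 - x / 2 + x ^ 2 := by
    refine le_of_pow_le_pow_left₀ two_ne_zero (by nlinarith) ?_
    refine le_of_mul_le_mul_right ?_ (show 0 < 1 + x by linarith)
    rw [hy2]
    nlinarith [sq_nonneg x, pow_nonneg hx 3, pow_nonneg hx 4, pow_nonneg hx 5]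
  have h1 := pow_le_pow_left₀ (by linarith) hlo 3
  have h2 := pow_le_pow_left₀ hy0.le hhi 3
  rw [abs_le]
  constructor
  · nlinarith [sq_nonneg x, pow_nonneg hx 3]
  · nlinarith [sq_nonneg x, pow_nonneg hx 3, pow_nonneg hx 4, pow_nonneg hx 5, pow_nonneg hx 6]

lemma refK_succ (hn : (3 : ℝ) ≤ n) (hσ : 0 < σ) {h : ℝ} (hh : 0 ≤ h) :
    refK n (σ + h) = refK n σ * (1 / Real.sqrt (1 + h / σ)) ^ 3 := by
  have hσh : 0 < σ + h := by linarith
  have hr : 0 < refR σ := by unfold refR; positivity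
  have hd : (0 : ℝ) < (n : ℝ) - 2 := by linarith
  have hs : 0 < Real.sqrt (1 + h / σ) := Real.sqrt_pos.2 (by positivity)
  have e1 : refR (σ + h) = refR σ * (1 / Real.sqrt (1 + h / σ)) ^ 2 := by
    rw [div_pow, one_pow, Real.sq_sqrt (by positivity)]
    unfold refR
    field_simp
  have e2 : Real.sqrt (refR (σ + h) / ((n : ℝ) - 2)) =
      Real.sqrt (refR σ / ((n : ℝ) - 2)) * (1 / Real.sqrt (1 + h / σ)) := by
    rw [e1, mul_div_right_comm, Real.sqrt_mul (by positivity),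
      Real.sqrt_sq (by positivity : (0 : ℝ) ≤ 1 / Real.sqrt (1 + h / σ))]
  unfold refK
  rw [e2, e1]
  ring

lemma phaGK_succ (hn : (3 : ℝ) ≤ n) (hσ : 0 < σ) {h : ℝ} (hh : 0 ≤ h) :
    phaGK n η σ ≤ (1 + h / σ) * phaGK n η (σ + h) := by
  set y := 1 / Real.sqrt (1 + h / σ) with hy
  have h1x : 0 < 1 + h / σ := by positivity
  have hs : 0 < Real.sqrt (1 + h / σ) := Real.sqrt_pos.2 h1x
  have hy0 : 0 < y := by rw [hy]; positivity
  have hy1 : y ≤ 1 := by
    rw [hy, div_le_one hs]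
    exact Real.one_le_sqrt.2 (le_add_of_nonneg_right (by positivity))
  have hy2 : (1 + h / σ) * y ^ 2 = 1 := by
    rw [hy, div_pow, one_pow, Real.sq_sqrt h1x.le]
    field_simp
  have hK : 0 ≤ refK n σ := by unfold refK refR; positivity
  have eK := refK_succ hn hσ hh
  rw [← hy] at eK
  have es : Real.sqrt (σ + h) * y = Real.sqrt σ := by
    rw [hy, mul_one_div, div_eq_iff hs.ne', ← Real.sqrt_mul hσ.le]
    congr 1
    field_simp
  have ha : y ^ 2 * Real.sqrt (refK n σ + 1) ≤ Real.sqrt (refK n (σ + h) + 1) := by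
    rw [← Real.sqrt_sq (sq_nonneg y), ← Real.sqrt_mul (sq_nonneg _)]
    refine Real.sqrt_le_sqrt ?_
    rw [eK]
    have h4 : (y ^ 2) ^ 2 ≤ y ^ 3 := by
      rw [← pow_mul]; exact pow_le_pow_of_le_one hy0.le hy1 (by norm_num)
    have h5 : (y ^ 2) ^ 2 ≤ 1 := by rw [← pow_mul]; exact pow_le_one₀ hy0.le hy1
    nlinarith
  have hb : refK n (σ + h) * Real.sqrt (σ + h) = y ^ 2 * (refK n σ * Real.sqrt σ) := by
    rw [eK, ← es]; ring
  have hn1 : 0 ≤ (n : ℝ) ^ η := Real.rpow_nonneg (by linarith) _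
  unfold phaGK
  rw [hb]
  have := mul_le_mul_of_nonneg_left (mul_le_mul_of_nonneg_right ha hn1) h1x.le
  have e : ∀ z : ℝ, (1 + h / σ) * (y ^ 2 * z) = z := fun z => by rw [← mul_assoc, hy2, one_mul]
  rw [mul_assoc (y ^ 2), e] at this
  rw [mul_add, mul_assoc (y ^ 2), e]
  linarith

namespace PhaBig

lemma r_le_n (hb : PhaBig η m C n σ) : refR σ ≤ (n : ℝ) - 2 := by
  have h := hb.lo
  have hσ := hb.sigma_pos
  have hd : (0 : ℝ) < 2 * ((n : ℝ) - 2) := by linarith [hb.big]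
  rw [div_le_iff₀ hd] at h
  unfold refR
  rw [div_le_iff₀ (by positivity)]
  linarith

lemma refK_mem (hb : PhaBig η m C n σ) : 0 ≤ refK n σ ∧ refK n σ ≤ n := by
  have hr := hb.r_pos
  have h := hb.r_le_n
  have hd : (0 : ℝ) < (n : ℝ) - 2 := by linarith [hb.big]
  refine ⟨by unfold refK; positivity, ?_⟩
  unfold refK
  refine (mul_le_of_le_one_right hr.le (Real.sqrt_le_one.2 ((div_le_one hd).2 h))).trans ?_
  linarith

lemma gK_lower (hb : PhaBig η m C n σ) :
    4 * (C + 1) ≤ phaGK n η σ ∧ refK n σ + 1 ≤ phaGK n η σ ^ 2 ∧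
      refK n σ * (Real.sqrt σ * (n : ℝ) ^ η) ≤ phaGK n η σ := by
  obtain ⟨hK, -⟩ := hb.refK_mem
  have hn := hb.one_le_pow hb.η0.le
  have hn0 : 0 ≤ (n : ℝ) ^ η := zero_le_one.trans hn
  have h2 : 0 ≤ refK n σ * Real.sqrt σ * (n : ℝ) ^ (2 * η) :=
    mul_nonneg (mul_nonneg hK (Real.sqrt_nonneg _)) (Real.rpow_nonneg hb.n_pos.le _)
  have h1 : (n : ℝ) ^ η ≤ Real.sqrt (refK n σ + 1) * (n : ℝ) ^ η :=
    le_mul_of_one_le_left hn0 (Real.one_le_sqrt.2 (by linarith))
  refine ⟨?_, ?_, ?_⟩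
  · unfold phaGK
    linarith [hb.pw]
  · unfold phaGK
    rw [← Real.sq_sqrt (show 0 ≤ refK n σ + 1 by linarith)]
    refine pow_le_pow_left₀ (Real.sqrt_nonneg _) ?_ 2
    rw [Real.sq_sqrt (show 0 ≤ refK n σ + 1 by linarith)]
    linarith [le_mul_of_one_le_right (Real.sqrt_nonneg (refK n σ + 1)) hn]
  · unfold phaGK
    have h3 : refK n σ * (Real.sqrt σ * (n : ℝ) ^ η) ≤ refK n σ * Real.sqrt σ * (n : ℝ) ^ (2 * η) := by
      rw [← mul_assoc]
      exact mul_le_mul_of_nonneg_left (hb.pow_mono (by linarith [hb.η0]))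
        (mul_nonneg hK (Real.sqrt_nonneg _))
    linarith

lemma kjunk (hb : PhaBig η m C n σ) :
    stepH n * (28 * (n : ℝ) ^ 5) ≤ 1 / 4 ∧ stepH n ^ 2 * (32 * (n : ℝ) ^ 7) ≤ 1 / 4 ∧
      stepH n * ((n : ℝ) ^ 3 + 1) * (4 * (n : ℝ) ^ 2 + 1) ^ 2 ≤ 1 / 2 := by
  have hn := hb.big
  have hn0 := hb.n_pos
  have h1 : (1 : ℝ) ≤ n := by linarith
  have key : ∀ a : ℝ, 0 ≤ a → a ≤ 200 → ∀ j, j ≤ 19 → stepH n * (a * (n : ℝ) ^ j) ≤ 1 / 4 := by
    intro a ha ha2 j hj
    unfold stepH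
    rw [div_mul_eq_mul_div, one_mul, div_le_iff₀ (pow_pos hn0 20), pow_succ (n : ℝ) 19]
    have h2 : (n : ℝ) ^ j ≤ (n : ℝ) ^ 19 := pow_le_pow_right₀ h1 hj
    have h3 := mul_le_mul ha2 h2 (by positivity) (by norm_num)
    have h5 : (0 : ℝ) ≤ (n : ℝ) ^ 19 := by positivity
    have h4 := mul_le_mul_of_nonneg_left hn h5
    linarith
  have hh0 : 0 ≤ stepH n := by unfold stepH; positivity
  have hh1 : stepH n ≤ 1 := by
    unfold stepH; rw [div_le_one (pow_pos hn0 20)]; exact one_le_pow₀ h1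
  refine ⟨key 28 (by norm_num) (by norm_num) 5 (by norm_num), ?_, ?_⟩
  · have := key 32 (by norm_num) (by norm_num) 7 (by norm_num)
    rw [sq, mul_assoc]
    exact (mul_le_of_le_one_left (by positivity) hh1).trans this
  · have h2 : ((n : ℝ) ^ 3 + 1) * (4 * (n : ℝ) ^ 2 + 1) ^ 2 ≤ 50 * (n : ℝ) ^ 7 := by
      have a1 : (n : ℝ) ^ 3 + 1 ≤ 2 * (n : ℝ) ^ 3 := by linarith [one_le_pow₀ (n := 3) h1]
      have a2 : (4 * (n : ℝ) ^ 2 + 1) ^ 2 ≤ (5 * (n : ℝ) ^ 2) ^ 2 :=
        pow_le_pow_left₀ (by positivity) (by linarith [one_le_pow₀ (n := 2) h1]) 2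
      refine (mul_le_mul a1 a2 (by positivity) (by positivity)).trans_eq ?_
      ring
    rw [mul_assoc]
    exact ((mul_le_mul_of_nonneg_left h2 hh0).trans (key 50 (by norm_num) (by norm_num) 7 (by norm_num))).trans
      (by norm_num)

end PhaBig

/-- The time step of the reference codegree. -/
lemma PhaBig.kappa_time (hb : PhaBig η m C n σ) :
    |refK n (σ + stepH n) - refK n σ + 3 * refR σ * stepH n * refK n σ| ≤
        24 * refK n σ * (refR σ * stepH n) ^ 2 ∧
      |refK n (σ + stepH n) - refK n σ| ≤ 4 * refR σ * stepH n * refK n σ ∧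
      |refK n (σ + stepH n) - refK n σ| ≤ 1 := by
  have hσ := hb.sigma_pos
  have hh : 0 < stepH n := by unfold stepH; exact div_pos one_pos (pow_pos hb.n_pos 20)
  have hn3 : (3 : ℝ) ≤ n := by linarith [hb.big]
  obtain ⟨hκ0, hκn⟩ := hb.refK_mem
  obtain ⟨kj1, -, -⟩ := hb.kjunk
  have hr0 := hb.r_pos
  have hrn : refR σ ≤ n := by linarith [hb.r_le_n]
  have hx0 : 0 ≤ stepH n / σ := by positivity
  have hxr : stepH n / σ = 2 * (stepH n * refR σ) := by unfold refR; field_simp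
  have hrh : refR σ * stepH n ≤ 1 / 24 := by
    have h5 : refR σ ≤ (n : ℝ) ^ 5 := hrn.trans (le_self_pow₀ (by linarith) (by norm_num))
    have := mul_le_mul_of_nonneg_left h5 hh.le
    linarith
  have hΔ : |refK n (σ + stepH n) - refK n σ + 3 * refR σ * stepH n * refK n σ| ≤
      24 * refK n σ * (refR σ * stepH n) ^ 2 := by
    have h := mul_le_mul_of_nonneg_left (pha_cube_root hx0 (by rw [hxr]; linarith)) hκ0
    have e : refK n (σ + stepH n) - refK n σ + 3 * refR σ * stepH n * refK n σ =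
        refK n σ * ((1 / Real.sqrt (1 + stepH n / σ)) ^ 3 - (1 - 3 * (stepH n / σ) / 2)) := by
      rw [refK_succ hn3 hσ hh.le, hxr]; ring
    rw [e, abs_mul, abs_of_nonneg hκ0]
    refine h.trans (le_of_eq ?_)
    rw [hxr]; ring
  have h0 : 0 ≤ refR σ * stepH n * refK n σ := by positivity
  have h2 : 24 * refK n σ * (refR σ * stepH n) ^ 2 ≤ refR σ * stepH n * refK n σ := by
    have := mul_le_mul_of_nonneg_left hrh h0
    linarith
  have hM : |refK n (σ + stepH n) - refK n σ| ≤ 4 * refR σ * stepH n * refK n σ := by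
    have h1 := abs_le.1 hΔ
    rw [abs_le]; constructor <;> linarith
  refine ⟨hΔ, hM, hM.trans ?_⟩
  have h5 : refR σ * refK n σ ≤ (n : ℝ) ^ 5 := by
    refine (mul_le_mul hrn hκn hκ0 (by linarith)).trans ?_
    rw [← sq]; exact pow_le_pow_right₀ (by linarith) (by norm_num)
  have := mul_le_mul_of_nonneg_left h5 hh.le
  linarith

/-- The error of the drift of one triple. -/
lemma PhaBig.triple_err (hb : PhaBig η m C n σ) {K : ℝ} (hK0 : 0 ≤ K) :
    C * K * (refR σ * Real.sqrt σ * (n : ℝ) ^ η + 1) ≤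
      3 * C * refR σ * phaGK n η σ +
        3 * C * (Real.sqrt σ * (n : ℝ) ^ η) * refR σ * |K - refK n σ| := by
  have hσ := hb.sigma_pos
  have hC := hb.C0
  have hr0 := hb.r_pos
  obtain ⟨-, -, hg3⟩ := hb.gK_lower
  set ε := Real.sqrt σ * (n : ℝ) ^ η with hε
  have hε0 : 0 ≤ ε := mul_nonneg (Real.sqrt_nonneg _) (Real.rpow_nonneg hb.n_pos.le _)
  have hrε : 1 ≤ 2 * (refR σ * ε) := by
    have h1 := hb.sqrt_C
    have h2 := hb.one_le_pow hb.η0.le
    have e5 : 2 * (refR σ * ε) * Real.sqrt σ = (n : ℝ) ^ η := by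
      rw [show 2 * (refR σ * ε) * Real.sqrt σ =
        2 * (refR σ * (Real.sqrt σ * Real.sqrt σ)) * (n : ℝ) ^ η by rw [hε]; ring,
        Real.mul_self_sqrt hσ.le, hb.r_sigma]
      ring
    have h3 : Real.sqrt σ ≤ 1 := by nlinarith [Real.sqrt_nonneg σ]
    calc (1 : ℝ) ≤ (n : ℝ) ^ η := h2
      _ = 2 * (refR σ * ε) * Real.sqrt σ := e5.symm
      _ ≤ 2 * (refR σ * ε) := mul_le_of_le_one_right (by positivity) h3
  have hKle : K ≤ refK n σ + |K - refK n σ| := by linarith [le_abs_self (K - refK n σ)]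
  have e5 : refR σ * Real.sqrt σ * (n : ℝ) ^ η = refR σ * ε := by rw [hε]; ring
  rw [e5]
  calc C * K * (refR σ * ε + 1) ≤ C * K * (3 * (refR σ * ε)) :=
        mul_le_mul_of_nonneg_left (by linarith) (mul_nonneg hC.le hK0)
    _ ≤ C * (refK n σ + |K - refK n σ|) * (3 * (refR σ * ε)) :=
        mul_le_mul_of_nonneg_right (mul_le_mul_of_nonneg_left hKle hC.le) (by positivity)
    _ = 3 * C * refR σ * (refK n σ * ε) + 3 * C * ε * refR σ * |K - refK n σ| := by ring
    _ ≤ _ := add_le_add (mul_le_mul_of_nonneg_left hg3 (by positivity)) le_rfl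

/-- The data of one triple fulfil the requirements of the item inequality. -/
lemma pha_triple_data (hb : PhaBig η m C n σ) (A : Finset (Edge n)) {K : ℝ}
    (KT : Finset (Edge n) → ℝ) (hK0 : 0 ≤ K)
    (hE : |∑ T ∈ alive (triangles n) A, (KT T - K) + 3 * refR σ * K| ≤
      C * K * (refR σ * Real.sqrt σ * (n : ℝ) ^ η + 1))
    (hJ : ∀ T ∈ alive (triangles n) A, |KT T - K| ≤ C)
    (hQ : ∑ T ∈ alive (triangles n) A, (KT T - K) ^ 2 ≤ C * refR σ * K) :
    let g := phaGK n η σ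
    let κ' := refK n (σ + stepH n)
    let κ := refK n σ
    let t := (κ - κ') / (stepH n * g)
    let d := fun T => ((KT T - κ') - (K - κ)) / g
    let v := (K - κ) / g
    let r := refR σ
    |stepH n * t| ≤ 1 ∧ (∀ T ∈ alive (triangles n) A, |d T| ≤ 1) ∧
      |t + ∑ T ∈ alive (triangles n) A, d T - -(3 * r * v)| ≤
        8 * (C + 1) * r + 3 * C * (Real.sqrt σ * (n : ℝ) ^ η) * r * |v| ∧
      ∑ T ∈ alive (triangles n) A, d T ^ 2 ≤ 8 * (C + 1) * r * (1 + |v|) ∧
      stepH n * (0 + ((alive (triangles n) A).card : ℝ) + 1) * (|t| + 1) ^ 2 ≤ r := by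
  intro g κ' κ t d v r
  have hσ := hb.sigma_pos
  have hC := hb.C0
  have hh : 0 < stepH n := by unfold stepH; exact div_pos one_pos (pow_pos hb.n_pos 20)
  have hn3 : (3 : ℝ) ≤ n := by linarith [hb.big]
  obtain ⟨hκ0, hκn⟩ : 0 ≤ κ ∧ κ ≤ n := hb.refK_mem
  obtain ⟨hg1, hg2, hg3⟩ : 4 * (C + 1) ≤ g ∧ κ + 1 ≤ g ^ 2 ∧ κ * (Real.sqrt σ * (n : ℝ) ^ η) ≤ g :=
    hb.gK_lower
  obtain ⟨kj1, kj2, kj3⟩ := hb.kjunk
  have hg : 0 < g := by linarith
  have hr0 : 0 < r := hb.r_pos
  have hr1 : 1 / 2 ≤ r := hb.half_le_r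
  have hrn : r ≤ n := by have h := hb.r_le_n; show refR σ ≤ _; linarith
  have hcard : ((alive (triangles n) A).card : ℝ) ≤ (n : ℝ) ^ 3 := card_alive_le A
  obtain ⟨hΔ, hM, hM1⟩ : |κ' - κ + 3 * r * stepH n * κ| ≤ 24 * κ * (r * stepH n) ^ 2 ∧
      |κ' - κ| ≤ 4 * r * stepH n * κ ∧ |κ' - κ| ≤ 1 := hb.kappa_time
  have habs_t : |t| ≤ 4 * (n : ℝ) ^ 2 := by
    show |(κ - κ') / (stepH n * g)| ≤ _
    rw [abs_div, abs_of_pos (mul_pos hh hg), div_le_iff₀ (mul_pos hh hg), abs_sub_comm]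
    refine hM.trans ?_
    have h5 : r * κ ≤ (n : ℝ) ^ 2 * g := by
      refine (mul_le_mul hrn hκn hκ0 (by linarith)).trans ?_
      rw [← sq]; exact le_mul_of_one_le_right (sq_nonneg _) (by linarith)
    have := mul_le_mul_of_nonneg_left h5 hh.le
    linarith
  have hKle : K ≤ κ + |K - κ| := by linarith [le_abs_self (K - κ)]
  have hvg : |v| * g = |K - κ| := by
    show |(K - κ) / g| * g = _
    rw [abs_div, abs_of_pos hg, div_mul_cancel₀ _ hg.ne']
  refine ⟨?_, ?_, ?_, ?_, ?_⟩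
  · have e : stepH n * t = (κ - κ') / g := by
      show stepH n * ((κ - κ') / (stepH n * g)) = _
      field_simp
    rw [e, abs_div, abs_of_pos hg, div_le_one hg, abs_sub_comm]
    linarith
  · intro T hT
    show |((KT T - κ') - (K - κ)) / g| ≤ 1
    rw [abs_div, abs_of_pos hg, div_le_one hg,
      show (KT T - κ') - (K - κ) = (KT T - K) - (κ' - κ) by ring]
    linarith [abs_sub (KT T - K) (κ' - κ), hJ T hT]
  · have e : t + ∑ T ∈ alive (triangles n) A, d T - -(3 * r * v) =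
        ((∑ T ∈ alive (triangles n) A, (KT T - K) + 3 * r * K) -
          (κ' - κ + 3 * r * stepH n * κ) / stepH n -
          ((alive (triangles n) A).card : ℝ) * (κ' - κ)) / g := by
      show (κ - κ') / (stepH n * g) + ∑ T ∈ alive (triangles n) A, ((KT T - κ') - (K - κ)) / g -
        -(3 * r * ((K - κ) / g)) = _
      rw [← Finset.sum_div, show (∑ T ∈ alive (triangles n) A, ((KT T - κ') - (K - κ))) =
          ∑ T ∈ alive (triangles n) A, (KT T - K) - ((alive (triangles n) A).card : ℝ) * (κ' - κ) by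
        rw [← nsmul_eq_mul, ← Finset.sum_const, ← Finset.sum_sub_distrib]
        exact Finset.sum_congr rfl fun _ _ => by ring]
      field_simp
      ring
    rw [e, abs_div, abs_of_pos hg, div_le_iff₀ hg]
    have b2 : |(κ' - κ + 3 * r * stepH n * κ) / stepH n| ≤ stepH n * (24 * (n : ℝ) ^ 3) := by
      rw [abs_div, abs_of_pos hh, div_le_iff₀ hh]
      refine hΔ.trans ?_
      have h5 : κ * r ^ 2 ≤ (n : ℝ) ^ 3 := by
        refine (mul_le_mul hκn (pow_le_pow_left₀ hr0.le hrn 2) (sq_nonneg _) (by linarith)).trans_eq ?_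
        ring
      have := mul_le_mul_of_nonneg_left h5 (mul_nonneg hh.le hh.le)
      linarith
    have b3 : |((alive (triangles n) A).card : ℝ) * (κ' - κ)| ≤ stepH n * (4 * (n : ℝ) ^ 5) := by
      rw [abs_mul, Nat.abs_cast]
      refine (mul_le_mul hcard hM (abs_nonneg _) (by positivity)).trans ?_
      have h5 : r * κ ≤ (n : ℝ) ^ 2 := (mul_le_mul hrn hκn hκ0 (by linarith)).trans_eq (by ring)
      have := mul_le_mul_of_nonneg_left h5 (mul_nonneg (show (0:ℝ) ≤ (n : ℝ) ^ 3 by positivity) hh.le)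
      linarith
    have b4 : stepH n * (24 * (n : ℝ) ^ 3) + stepH n * (4 * (n : ℝ) ^ 5) ≤ 1 / 4 := by
      refine le_trans ?_ kj1
      have h35 : (n : ℝ) ^ 3 ≤ (n : ℝ) ^ 5 := pow_le_pow_right₀ (by linarith) (by norm_num)
      have := mul_le_mul_of_nonneg_left h35 hh.le
      linarith
    have b1 : C * K * (r * Real.sqrt σ * (n : ℝ) ^ η + 1) ≤
        3 * C * r * g + 3 * C * (Real.sqrt σ * (n : ℝ) ^ η) * r * |v| * g :=
      (hb.triple_err hK0).trans (le_of_eq (by rw [mul_assoc _ |v|, hvg]))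
    have b5 : 1 / 4 ≤ r * g := by nlinarith
    refine (abs_sub _ _).trans ((add_le_add (abs_sub _ _) le_rfl).trans ?_)
    have := hE.trans b1
    have : 0 ≤ C * r * g := by positivity
    linarith
  · show ∑ T ∈ alive (triangles n) A, (((KT T - κ') - (K - κ)) / g) ^ 2 ≤ _
    simp only [div_pow, ← Finset.sum_div]
    rw [div_le_iff₀ (pow_pos hg 2)]
    have h2 : ∑ T ∈ alive (triangles n) A, ((KT T - κ') - (K - κ)) ^ 2 ≤
        ∑ T ∈ alive (triangles n) A, (2 * (KT T - K) ^ 2 + 2 * (4 * r * stepH n * κ) ^ 2) :=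
      Finset.sum_le_sum fun T _ => by
        have h3 : (κ' - κ) ^ 2 ≤ (4 * r * stepH n * κ) ^ 2 := by
          rw [← sq_abs]; exact pow_le_pow_left₀ (abs_nonneg _) hM 2
        have := sq_nonneg ((KT T - K) + (κ' - κ))
        linarith
    rw [Finset.sum_add_distrib, ← Finset.mul_sum, Finset.sum_const, nsmul_eq_mul] at h2
    have h4 : ((alive (triangles n) A).card : ℝ) * (2 * (4 * r * stepH n * κ) ^ 2) ≤ 1 / 4 := by
      refine (mul_le_mul_of_nonneg_right hcard (by positivity)).trans (le_trans ?_ kj2)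
      have h5 : r ^ 2 * κ ^ 2 ≤ (n : ℝ) ^ 4 := by
        refine (mul_le_mul (pow_le_pow_left₀ hr0.le hrn 2) (pow_le_pow_left₀ hκ0 hκn 2)
          (sq_nonneg _) (sq_nonneg _)).trans_eq ?_
        ring
      have := mul_le_mul_of_nonneg_left h5 (show 0 ≤ 32 * (n : ℝ) ^ 3 * stepH n ^ 2 by positivity)
      linarith
    have h6 : K ≤ g ^ 2 * (1 + |v|) := by
      have h7 : |K - κ| ≤ g ^ 2 * |v| := by
        rw [← hvg, mul_comm (g ^ 2)]
        exact mul_le_mul_of_nonneg_left (le_self_pow₀ (by linarith) two_ne_zero) (abs_nonneg v)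
      linarith
    have h8 := mul_le_mul_of_nonneg_left h6 (mul_nonneg hC.le hr0.le)
    have h9 : 1 / 4 ≤ r * (g ^ 2 * (1 + |v|)) := by
      have h10 : 1 ≤ g ^ 2 * (1 + |v|) :=
        one_le_mul_of_one_le_of_one_le (one_le_pow₀ (by linarith)) (le_add_of_nonneg_right (abs_nonneg v))
      nlinarith
    have : 0 ≤ C * r * (g ^ 2 * (1 + |v|)) := by positivity
    linarith
  · rw [zero_add]
    exact le_trans (mul_le_mul (mul_le_mul_of_nonneg_left (by linarith) hh.le)
      (pow_le_pow_left₀ (by positivity) (by linarith) 2) (by positivity)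
      (mul_nonneg hh.le (by positivity))) (kj3.trans hr1)

/-- One step of the moment of the triple codegrees. -/
lemma pha_step_K (hm : Even m) (hm4 : 4 ≤ m) (hC : 0 < C) :
    ∃ B : ℝ, 0 ≤ B ∧ ∀ (n : ℕ) (η σ : ℝ) (A : Finset (Edge n)), PhaBig η m C n σ →
      (∀ x y z : Fin n, x ≠ y → x ≠ z → y ≠ z →
        |∑ T ∈ alive (triangles n) A, (codeg3 (A \ T) x y z - codeg3 A x y z) +
            3 * refR σ * codeg3 A x y z| ≤
          C * codeg3 A x y z * (refR σ * Real.sqrt σ * (n : ℝ) ^ η + 1) ∧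
        (∀ T ∈ alive (triangles n) A, |codeg3 (A \ T) x y z - codeg3 A x y z| ≤ C) ∧
        ∑ T ∈ alive (triangles n) A, (codeg3 (A \ T) x y z - codeg3 A x y z) ^ 2 ≤
          C * refR σ * codeg3 A x y z) →
      phaFree (triangles n) (stepH n) (phaMomK n m η (σ + stepH n)) A ≤
        phaMomK n m η σ A + B * (stepH n * refR σ) := by
  obtain ⟨B, hB0, hB⟩ := pha_item hm hm4 (c := 8 * (C + 1)) (by linarith)
  refine ⟨2 * B, by linarith, ?_⟩
  intro n η σ A hb hest
  have hσ := hb.sigma_pos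
  have hh : 0 < stepH n := by unfold stepH; exact div_pos one_pos (pow_pos hb.n_pos 20)
  have hn3 : (3 : ℝ) ≤ n := by linarith [hb.big]
  have hH := pha_stepH_H (n := n) (by exact_mod_cast (by linarith : (1 : ℝ) ≤ n))
  have hg : 0 < phaGK n η σ := by linarith [hb.gK_lower.1, hb.C0]
  have hg' : 0 < phaGK n η (σ + stepH n) :=
    pos_of_mul_pos_right (lt_of_lt_of_le hg (phaGK_succ hn3 hσ hh.le)) (by positivity)
  have hn30 : (0 : ℝ) < (n : ℝ) ^ 3 := pow_pos hb.n_pos 3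
  set g := phaGK n η σ
  set κ' := refK n (σ + stepH n)
  set S := fun B' : Finset (Edge n) =>
    ∑ t ∈ phaTriples n, ((codeg3 B' t.1 t.2.1 t.2.2 - κ') / g) ^ m with hS
  set W := ∑ t ∈ phaTriples n, ((codeg3 A t.1 t.2.1 t.2.2 - refK n σ) / g) ^ m with hW
  have hlin : phaFree (triangles n) (stepH n) (phaMomK n m η (σ + stepH n)) A =
      (g / phaGK n η (σ + stepH n)) ^ m * phaFree (triangles n) (stepH n) S A / (n : ℝ) ^ 3 := by
    have hfun : phaMomK n m η (σ + stepH n) =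
        fun B' => (g / phaGK n η (σ + stepH n)) ^ m / (n : ℝ) ^ 3 * S B' := by
      funext B'
      simp only [phaMomK, hS, Finset.sum_div, Finset.mul_sum]
      refine Finset.sum_congr rfl fun t _ => ?_
      rw [div_pow, div_pow, div_pow]
      field_simp
      rfl
    rw [hfun]
    simp only [pha_free_eq, ← Finset.mul_sum]
    ring
  have hS0 : 0 ≤ phaFree (triangles n) (stepH n) S A := by
    have h0 : ∀ B', (0 : ℝ) ≤ S B' := fun B' => Finset.sum_nonneg fun t _ => hm.pow_nonneg _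
    have := pha_free_mono hh.le hH (F := fun _ => (0 : ℝ)) h0 A
    simpa [phaFree] using this
  have hsum : phaFree (triangles n) (stepH n) S A ≤
      (1 - (3 * (m : ℝ) - 1 / 2) * (stepH n * refR σ)) * W +
        stepH n * refR σ * (B * (n : ℝ) ^ 3) := by
    have e : phaFree (triangles n) (stepH n) S A = ∑ t ∈ phaTriples n,
        ((1 - stepH n * (0 + ((alive (triangles n) A).card : ℝ))) *
            ((codeg3 A t.1 t.2.1 t.2.2 - κ') / g) ^ m +
          stepH n * ∑ T ∈ alive (triangles n) A, ((codeg3 (A \ T) t.1 t.2.1 t.2.2 - κ') / g) ^ m) := by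
      rw [pha_free_eq, Finset.sum_add_distrib, ← Finset.mul_sum, ← Finset.mul_sum, zero_add,
        Finset.sum_comm]
    rw [e]
    refine (Finset.sum_le_sum (g := fun t =>
      (1 - (3 * (m : ℝ) - 1 / 2) * (stepH n * refR σ)) *
        ((codeg3 A t.1 t.2.1 t.2.2 - refK n σ) / g) ^ m + stepH n * refR σ * B) fun t ht => ?_).trans ?_
    · obtain ⟨x, y, z⟩ := t
      obtain ⟨-, h1, h2, h3⟩ := Finset.mem_filter.1 ht
      obtain ⟨hE, hJ, hQ⟩ := hest x y z h1 h2 h3
      obtain ⟨d1, d2, d3, d4, d5⟩ := pha_triple_data hb A (K := codeg3 A x y z)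
        (fun T => codeg3 (A \ T) x y z) (Nat.cast_nonneg _) hE hJ hQ
      set v := (codeg3 A x y z - refK n σ) / g with hv
      have he1 : 3 * C * (Real.sqrt σ * (n : ℝ) ^ η) * m ≤ 1 / 4 := by
        have h := hb.eps_m
        have h0 : 0 ≤ Real.sqrt σ * (n : ℝ) ^ η :=
          mul_nonneg (Real.sqrt_nonneg _) (Real.rpow_nonneg hb.n_pos.le _)
        have h1 : 0 ≤ Real.sqrt σ * (n : ℝ) ^ η * ((m : ℝ) + C + 1) := by
          have := hb.C0; positivity
        linarith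
      have hΛ : stepH n * (0 + ((alive (triangles n) A).card : ℝ)) ≤ 1 := by
        rw [zero_add]
        refine le_trans (mul_le_mul_of_nonneg_left ?_ hh.le) hH
        exact_mod_cast Finset.card_le_card (Finset.filter_subset _ _)
      have := hB _ (alive (triangles n) A)
        (fun T => ((codeg3 (A \ T) x y z - κ') - (codeg3 A x y z - refK n σ)) / g) v
        ((refK n σ - κ') / (stepH n * g)) 0 (refR σ) (3 * C * (Real.sqrt σ * (n : ℝ) ^ η)) (stepH n)
        (-(3 * refR σ * v)) hh.le le_rfl hΛ d1 d2 hb.r_pos.le he1 d3 d4 d5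
      have e4 : v + stepH n * ((refK n σ - κ') / (stepH n * g)) = (codeg3 A x y z - κ') / g := by
        rw [hv]; field_simp; ring
      have e5 : ∀ T, v + ((codeg3 (A \ T) x y z - κ') - (codeg3 A x y z - refK n σ)) / g =
          (codeg3 (A \ T) x y z - κ') / g := fun T => by rw [hv]; ring
      simp only [e4, e5] at this
      refine this.trans (le_of_eq ?_)
      show _ = (1 - (3 * (m : ℝ) - 1 / 2) * (stepH n * refR σ)) * v ^ m + _
      have hpm : v ^ (m - 1) * v = v ^ m := by rw [← pow_succ]; congr 1; omega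
      rw [← hpm]
      ring
    · rw [Finset.sum_add_distrib, ← Finset.mul_sum, Finset.sum_const, nsmul_eq_mul, ← hW]
      have := mul_le_mul_of_nonneg_right (card_phaTriples n)
        (show 0 ≤ stepH n * refR σ * B by have := hb.r_pos; positivity)
      linarith
  have hq : (g / phaGK n η (σ + stepH n)) ^ m ≤ Real.exp (2 * (m : ℝ) * (stepH n * refR σ)) := by
    refine (pow_le_pow_left₀ (div_nonneg hg.le hg'.le)
      ((div_le_iff₀ hg').2 (phaGK_succ hn3 hσ hh.le)) m).trans ?_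
    refine (pha_pow_exp (by positivity) m).trans_eq ?_
    congr 1
    unfold refR
    field_simp
  have hW0 : 0 ≤ W := Finset.sum_nonneg fun t _ => hm.pow_nonneg _
  have hrh : 0 ≤ stepH n * refR σ := mul_nonneg hh.le hb.r_pos.le
  have hm2 : (4 : ℝ) ≤ m := by exact_mod_cast hm4
  have := pha_combine hS0 hW0 (mul_nonneg hrh (by positivity)) hrh hsum hq (by linarith)
    (hb.r_h_small (by linarith) hm4)
  rw [hlin, phaMomK]
  refine (div_le_div_of_nonneg_right this hn30.le).trans_eq ?_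
  rw [← hW, add_div]
  field_simp

end

end Vale.Agent.P046.Full
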