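import Mathlib
import Vale.Agent.P046.Full.PhaseAStepP

/-!
# P046, first phase: one step of the moments of `D` and `u`
-/

open Finset

namespace Vale.Agent.P046.Full

open Vale.Agent.P046

noncomputable section

variable {n m : ℕ} {η C σ : ℝ} {A : Finset (Edge n)}

namespace PhaBig

lemma deg_ge (hb : PhaBig η m C n σ) {f : Edge n} (hu : |phaU σ A f| ≤ Real.sqrt σ * (n : ℝ) ^ η) :
    refR σ * (1 - Real.sqrt σ * (n : ℝ) ^ η) ≤ deg (triangles n) A f := by
  have h1 := (abs_le.1 hu).1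
  unfold phaU at h1
  rw [le_sub_iff_add_le, le_div_iff₀ hb.r_pos] at h1
  linarith

lemma deg_le (hb : PhaBig η m C n σ) {f : Edge n} (hu : |phaU σ A f| ≤ Real.sqrt σ * (n : ℝ) ^ η) :
    deg (triangles n) A f / refR σ ≤ 2 := by
  have h1 := (abs_le.1 hu).2
  unfold phaU at h1
  linarith [hb.eps1]

lemma junk_le_sigma (hb : PhaBig η m C n σ) :
    stepH n * (500 * (n : ℝ) ^ 3) ≤ σ ∧
      stepH n * (500 * (n : ℝ) ^ 3) + (n : ℝ) ^ 3 * (stepH n * (500 * (n : ℝ) ^ 3)) ≤ 1 / 2 := by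
  obtain ⟨-, j2, -⟩ := hb.junk (g := σ) le_rfl
  have hn := hb.n_pos
  have h6 : 0 ≤ (n : ℝ) ^ 3 * (stepH n * (500 * (n : ℝ) ^ 3)) := by unfold stepH; positivity
  have h5 := hb.sigma_lo
  have h7 : 1 / (4 * (n : ℝ)) ≤ 1 / (2 * (n : ℝ)) :=
    one_div_le_one_div_of_le (by linarith) (by linarith)
  have h8 : 1 / (4 * (n : ℝ)) ≤ 1 / 2 :=
    one_div_le_one_div_of_le (by norm_num) (by linarith [hb.big])
  constructor <;> linarith

lemma rh_sigma (hb : PhaBig η m C n σ) : stepH n / σ = 2 * (stepH n * refR σ) := by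
  have := hb.sigma_pos
  unfold refR
  field_simp

lemma gD_sq (hb : PhaBig η m C n σ) :
    σ / 2 * (n : ℝ) ^ (16 * η) ≤ phaGD n η σ ^ 2 * refR σ ∧
      Real.sqrt (refR σ / ((n : ℝ) - 2)) / 2 ≤ phaGD n η σ ^ 2 * refR σ := by
  have hσ := hb.sigma_pos
  have hn := hb.n_pos
  have hr := hb.r_pos
  have hP0 : 0 ≤ phaGP n η σ := hσ.le.trans hb.sigma_le_gP
  have e : phaGP n η σ ^ 2 * refR σ = σ / 2 * (n : ℝ) ^ (16 * η) := by
    rw [phaGP, mul_pow, ← Real.rpow_natCast ((n : ℝ) ^ (8 * η)) 2, ← Real.rpow_mul hn.le]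
    unfold refR
    push_cast
    field_simp
    congr 1
    ring
  refine ⟨e.ge.trans (mul_le_mul_of_nonneg_right (pow_le_pow_left₀ hP0 hb.gP_le_gD 2) hr.le), ?_⟩
  have h1 : Real.sqrt (Real.sqrt (σ / (n : ℝ))) ≤ phaGD n η σ := by
    unfold phaGD
    exact le_add_of_nonneg_left hP0
  have h2 : Real.sqrt (σ / (n : ℝ)) * refR σ ≤ phaGD n η σ ^ 2 * refR σ := by
    refine mul_le_mul_of_nonneg_right ?_ hr.le
    rw [← Real.sq_sqrt (Real.sqrt_nonneg (σ / (n : ℝ)))]
    exact pow_le_pow_left₀ (Real.sqrt_nonneg _) h1 2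
  refine le_trans ?_ h2
  have h3 : refR σ / ((n : ℝ) - 2) ≤ 1 / (σ * n) := by
    have e2 : refR σ / ((n : ℝ) - 2) = 1 / (σ * (2 * ((n : ℝ) - 2))) := by unfold refR; field_simp
    rw [e2]
    exact one_div_le_one_div_of_le (by positivity) (mul_le_mul_of_nonneg_left (by linarith [hb.big]) hσ.le)
  refine (div_le_div_of_nonneg_right (Real.sqrt_le_sqrt h3) two_pos.le).trans (le_of_eq ?_)
  have e3 : Real.sqrt (1 / (σ * n)) = Real.sqrt (σ / n) / σ := by
    rw [eq_div_iff hσ.ne']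
    nth_rewrite 2 [← Real.sqrt_sq hσ.le]
    rw [← Real.sqrt_mul (by positivity)]
    congr 1
    field_simp
  rw [e3]
  unfold refR
  field_simp

lemma gD_le_U (hb : PhaBig η m C n σ) : phaGD n η σ ≤ 3 * phaGU σ := by
  have hσ := hb.sigma_pos
  have hn := hb.n_pos
  unfold phaGD phaGU
  have h1 : σ * (n : ℝ) ^ (8 * η) ≤ Real.sqrt σ := by
    have h := hb.sm
    have hC := hb.C0
    have h2 : 1 / (32 * ((m : ℝ) + 1) * (C + 1)) ≤ 1 := by
      rw [div_le_one (by positivity)]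
      nlinarith [mul_nonneg (show (0:ℝ) ≤ 32 * (m : ℝ) by positivity) hC.le, Nat.cast_nonneg (α := ℝ) m]
    calc σ * (n : ℝ) ^ (8 * η) = Real.sqrt σ * (Real.sqrt σ * (n : ℝ) ^ (8 * η)) := by
          rw [← mul_assoc, Real.mul_self_sqrt hσ.le]
      _ ≤ Real.sqrt σ * 1 := mul_le_mul_of_nonneg_left (h.trans h2) (Real.sqrt_nonneg _)
      _ = _ := mul_one _
  have h2 : Real.sqrt (Real.sqrt (σ / (n : ℝ))) ≤ 2 * Real.sqrt σ := by
    have e : 2 * Real.sqrt σ = Real.sqrt (4 * σ) := by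
      rw [Real.sqrt_mul (by norm_num), show (4 : ℝ) = 2 ^ 2 by norm_num, Real.sqrt_sq (by norm_num)]
    rw [e]
    refine Real.sqrt_le_sqrt ?_
    rw [Real.sqrt_le_iff]
    refine ⟨by positivity, ?_⟩
    have h5 := hb.sigma_lo
    rw [div_le_iff₀ (by positivity)] at h5
    rw [div_le_iff₀ hn]
    nlinarith [mul_le_mul_of_nonneg_left h5 hσ.le]
  linarith

end PhaBig

/-- One step of the moment of `D`. -/
lemma pha_step_D (hm : Even m) (hm4 : 4 ≤ m) (hC : 0 < C) :
    ∃ B : ℝ, 0 ≤ B ∧ ∀ (n : ℕ) (η σ : ℝ) (A : Finset (Edge n)), PhaBig η m C n σ →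
      (∀ f ∈ A, |phaU σ A f| ≤ Real.sqrt σ * (n : ℝ) ^ η) →
      (∀ f ∈ A,
        |∑ T ∈ others A f, (devD (triangles n) (A \ T) (refR σ) f - devD (triangles n) A (refR σ) f) +
          4 * refR σ * (deg (triangles n) A f / refR σ) + 4 * refR σ * devD (triangles n) A (refR σ) f +
          refR σ * avgOp (triangles n) A (refR σ) (devD (triangles n) A (refR σ)) f| ≤
            C * (refR σ * σ * (n : ℝ) ^ (2 * η) + 1)) →
      (∀ f ∈ A, ∀ T ∈ others A f,
        |devD (triangles n) (A \ T) (refR σ) f - devD (triangles n) A (refR σ) f| ≤ C / refR σ) →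
      (∀ f ∈ A, ∑ T ∈ others A f,
        (devD (triangles n) (A \ T) (refR σ) f - devD (triangles n) A (refR σ) f) ^ 2 ≤
          C * (Real.sqrt (refR σ / ((n : ℝ) - 2)) + σ * (n : ℝ) ^ (14 * η))) →
      phaFree (triangles n) (stepH n)
          (phaMom m (phaGD n η (σ + stepH n)) (phaE n (σ + stepH n)) (phaD (σ + stepH n))) A ≤
        phaMom m (phaGD n η σ) (phaE n σ) (phaD σ) A +
          B * (stepH n * refR σ) *
            (phaMom m (phaGP n η σ) (phaE n σ) (phaP σ) A + (A.card : ℝ) / phaE n σ) := by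
  obtain ⟨B, hB0, hB⟩ := pha_pot_step hm hm4 (c := 8 * (C + 1)) (by linarith)
  refine ⟨2 * (B + (m : ℝ) * 2 ^ m), by positivity, ?_⟩
  intro n η σ A hb hu hE hJ hQ
  have hσ := hb.sigma_pos
  have hh : 0 < stepH n := by unfold stepH; exact div_pos one_pos (pow_pos hb.n_pos 20)
  have hn3 : (3 : ℝ) ≤ n := by linarith [hb.big]
  have hgp : 0 < phaGP n η σ := lt_of_lt_of_le hσ hb.sigma_le_gP
  have hgd : 0 < phaGD n η σ := lt_of_lt_of_le hgp hb.gP_le_gD
  have hmono : phaGD n η σ ≤ phaGD n η (σ + stepH n) := by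
    unfold phaGD
    have hp := Real.rpow_nonneg hb.n_pos.le (8 * η)
    have hd := hb.n_pos
    gcongr <;> linarith
  have hgd' : 0 < phaGD n η (σ + stepH n) := lt_of_lt_of_le hgd hmono
  have hσgD : σ ≤ phaGD n η σ := hb.sigma_le_gP.trans hb.gP_le_gD
  obtain ⟨j1, j2, j3⟩ := hb.junk hσgD
  obtain ⟨k1, k2⟩ := hb.junk_le_sigma
  have hm2 : (4 : ℝ) ≤ m := by exact_mod_cast hm4
  set SP := ∑ f ∈ A, (phaP σ A f / phaGP n η σ) ^ m
  have hSP : 0 ≤ SP := Finset.sum_nonneg fun f _ => hm.pow_nonneg _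
  have key := hB n A (phaD σ) (phaD (σ + stepH n)) (stepH n) (refR σ) (phaGD n η σ)
    (phaGD n η (σ + stepH n)) (phaE n σ) (phaE n (σ + stepH n)) 1 1 ((m : ℝ) * 2 ^ m * SP) 0
    (500 * (n : ℝ) ^ 3) (500 * (n : ℝ) ^ 3) (C / refR σ)
    (fun f => 4 * refR σ * devD (triangles n) A (refR σ) f +
      4 * refR σ * (deg (triangles n) A f / refR σ))
    (fun f => -(refR σ * (phaD σ A f / phaGD n η σ) + refR σ * (phaP σ A f / phaGD n η σ)))
    (fun _ => C * (refR σ * σ * (n : ℝ) ^ (2 * η) + 1))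
    (fun _ => C * (Real.sqrt (refR σ / ((n : ℝ) - 2)) + σ * (n : ℝ) ^ (14 * η))) hh
    (pha_stepH_H (by exact_mod_cast (by linarith : (1 : ℝ) ≤ n))) hb.r_pos.le hgd hgd'
    (phaE_pos hn3 hσ) (phaE_pos hn3 (by linarith)) (by positivity) (by norm_num) ?_ le_rfl
    (hb.r_h_small (by linarith) hm4) ?_ ?_ ?_ hJ hQ ?_ (k1.trans hσgD) ?_ ?_
    (j1.trans hb.half_le_r) ?_
  · refine key.trans (add_le_add le_rfl ?_)
    have he0 := phaE_pos hn3 hσ
    have hA : 0 ≤ (A.card : ℝ) / phaE n σ := by positivity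
    have hrh : 0 ≤ stepH n * refR σ := mul_nonneg hh.le hb.r_pos.le
    have e : 2 * (stepH n * refR σ) * ((m : ℝ) * 2 ^ m * SP + B * A.card) / phaE n σ =
        2 * (stepH n * refR σ) * ((m : ℝ) * 2 ^ m * (SP / phaE n σ) + B * ((A.card : ℝ) / phaE n σ)) := by
      ring
    rw [e]
    show _ ≤ 2 * (B + (m : ℝ) * 2 ^ m) * (stepH n * refR σ) * (SP / phaE n σ + _)
    have h1 : (m : ℝ) * 2 ^ m * (SP / phaE n σ) + B * ((A.card : ℝ) / phaE n σ) ≤
        (B + (m : ℝ) * 2 ^ m) * (SP / phaE n σ + (A.card : ℝ) / phaE n σ) := by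
      have : 0 ≤ B * (SP / phaE n σ) := by positivity
      have : 0 ≤ (m : ℝ) * 2 ^ m * ((A.card : ℝ) / phaE n σ) := by positivity
      linarith
    have := mul_le_mul_of_nonneg_left h1 hrh
    linarith
  · rw [one_mul, mul_div_mul_comm]
    refine (mul_le_of_le_one_left (div_nonneg (phaE_pos hn3 hσ).le (phaE_pos hn3 (by linarith)).le)
      ?_).trans (phaE_ratio hn3 hσ hh.le)
    rw [← div_pow]
    exact pow_le_one₀ (div_nonneg hgd.le hgd'.le) ((div_le_one hgd').2 hmono)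
  · intro f B'
    have e : phaD (σ + stepH n) B' f - phaD σ B' f = stepH n *
        ((4 * (2 * σ + stepH n)) * phaW B' f - 4 * deg (triangles n) B' f) := by
      unfold phaD
      rw [pha_devD_poly (by linarith), pha_devD_poly hσ.ne']
      ring
    rw [e, abs_mul, abs_of_pos hh]
    refine mul_le_mul_of_nonneg_left ?_ hh.le
    have hh1 : stepH n ≤ 1 := by
      unfold stepH; rw [div_le_one (pow_pos hb.n_pos 20)]; exact one_le_pow₀ (by linarith)
    have hs1 := hb.sigma_le_one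
    have p2 := mul_le_mul (show 4 * (2 * σ + stepH n) ≤ 12 by linarith) (phaW_le B' f)
      (phaW_nonneg B' f) (by norm_num)
    have p2' : 0 ≤ 4 * (2 * σ + stepH n) * phaW B' f := mul_nonneg (by linarith) (phaW_nonneg B' f)
    have hX := deg_le_n B' f
    have hX0 := deg_nonneg (H := triangles n) B' f
    have n3 : (n : ℝ) ≤ (n : ℝ) ^ 3 := le_self_pow₀ (by linarith) (by norm_num)
    have n23 : (n : ℝ) ^ 2 ≤ (n : ℝ) ^ 3 := pow_le_pow_right₀ (by linarith) (by norm_num)
    rw [abs_le]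
    constructor <;> linarith
  · intro f hf
    unfold phaD
    rw [pha_time_D hσ.ne' (by linarith), add_sub_cancel_left, abs_mul,
      abs_of_nonneg (by positivity), mul_comm 4 (stepH n ^ 2), mul_assoc]
    refine mul_le_mul_of_nonneg_left ?_ (sq_nonneg _)
    have hW := phaW_le A f
    have n23 : (n : ℝ) ^ 2 ≤ (n : ℝ) ^ 3 := pow_le_pow_right₀ (by linarith) (by norm_num)
    rw [abs_of_nonneg (phaW_nonneg A f)]
    linarith [phaW_nonneg A f]
  · intro f hf
    refine le_trans (le_of_eq ?_) (hE f hf)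
    have hr := hb.r_pos.ne'
    unfold phaD phaP devP
    congr 1
    field_simp
    ring
  · have h2 := hb.gP_lower.trans hb.gP_le_gD
    have h4 : C / refR σ = 2 * C * σ := by unfold refR; field_simp
    nlinarith
  · intro f hf
    have := hb.err_le hb.gP_le_gD
    simp only [zero_mul, add_zero]
    linarith
  · intro f hf
    have h1 := hb.quad_junk hσgD
    obtain ⟨h2, h3⟩ := hb.gD_sq
    have h5 := mul_le_mul_of_nonneg_left (hb.pow_mono (show 14 * η ≤ 16 * η by linarith [hb.η0]))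
      (mul_nonneg hC.le hσ.le)
    have h6 : 0 ≤ phaGD n η σ ^ 2 * refR σ := by have := hb.r_pos; positivity
    have h7 : 0 ≤ 8 * (C + 1) * (phaGD n η σ ^ 2 * refR σ) * |phaD σ A f / phaGD n η σ| := by
      positivity
    have h8 := mul_le_mul_of_nonneg_left h2 hC.le
    have h9 := mul_le_mul_of_nonneg_left h3 hC.le
    nlinarith
  · set v := fun f => phaD σ A f / phaGD n η σ
    rw [Finset.mul_sum, Finset.mul_sum, Finset.mul_sum, ← Finset.sum_add_distrib]
    refine Finset.sum_le_sum fun f hf => ?_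
    set wP := phaP σ A f / phaGP n η σ
    have hP : |phaP σ A f / phaGD n η σ| ≤ |wP| := by
      rw [abs_div, abs_div, abs_of_pos hgd, abs_of_pos hgp]
      exact div_le_div_of_nonneg_left (abs_nonneg _) hgp hb.gP_le_gD
    have hv : 0 ≤ v f ^ m := hm.pow_nonneg _
    have hr := hb.r_pos
    have hmix := pha_mixed hm (by omega) (v f) wP
    have hpm : v f ^ (m - 1) * v f = v f ^ m := by rw [← pow_succ]; congr 1; omega
    have h1 : -((v f) ^ (m - 1) * (phaP σ A f / phaGD n η σ)) ≤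
        1 / 2 * v f ^ m + 2 ^ m * wP ^ m := by
      refine (neg_le_abs _).trans (le_trans ?_ hmix)
      rw [abs_mul, abs_pow]
      exact mul_le_mul_of_nonneg_left hP (by positivity)
    have hd := mul_le_mul_of_nonneg_right (hb.deg_ge (hu f hf)) hv
    have hε := hb.eps1
    have h2 := mul_le_mul_of_nonneg_left h1 (mul_nonneg (show (0 : ℝ) ≤ m by positivity) hr.le)
    have h3 : (m : ℝ) * v f ^ (m - 1) * -(refR σ * v f + refR σ * (phaP σ A f / phaGD n η σ)) =
        -((m : ℝ) * refR σ * v f ^ m) +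
          (m : ℝ) * refR σ * -((v f) ^ (m - 1) * (phaP σ A f / phaGD n η σ)) := by
      rw [← hpm]; ring
    show (m : ℝ) * v f ^ (m - 1) * -(refR σ * v f + refR σ * (phaP σ A f / phaGD n η σ)) -
      deg (triangles n) A f * v f ^ m ≤ _
    rw [h3]
    have h4 : 0 ≤ refR σ * v f ^ m := mul_nonneg hr.le hv
    have h5 := mul_le_mul_of_nonneg_left hε h4
    have h6 := mul_le_mul_of_nonneg_left hm2 h4
    nlinarith

/-- One step of the moment of `u`. -/
lemma pha_step_U (hm : Even m) (hm4 : 4 ≤ m) (hC : 0 < C) :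
    ∃ B : ℝ, 0 ≤ B ∧ ∀ (n : ℕ) (η σ : ℝ) (A : Finset (Edge n)), PhaBig η m C n σ →
      (∀ f ∈ A, |phaU σ A f| ≤ Real.sqrt σ * (n : ℝ) ^ η) →
      (∀ f ∈ A,
        ∑ T ∈ others A f, (deg (triangles n) (A \ T) f / refR σ - deg (triangles n) A f / refR σ) =
          -(refR σ * (2 * (deg (triangles n) A f / refR σ) + devD (triangles n) A (refR σ) f)) +
            2 * (deg (triangles n) A f / refR σ)) →
      (∀ f ∈ A, ∀ T ∈ others A f,
        |deg (triangles n) (A \ T) f / refR σ - deg (triangles n) A f / refR σ| ≤ C / refR σ) →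
      (∀ f ∈ A, ∑ T ∈ others A f,
        (deg (triangles n) (A \ T) f / refR σ - deg (triangles n) A f / refR σ) ^ 2 ≤ C) →
      phaFree (triangles n) (stepH n)
          (phaMom m (phaGU (σ + stepH n)) (phaE n (σ + stepH n)) (phaU (σ + stepH n))) A ≤
        phaMom m (phaGU σ) (phaE n σ) (phaU σ) A +
          B * (stepH n * refR σ) *
            (phaMom m (phaGD n η σ) (phaE n σ) (phaD σ) A + (A.card : ℝ) / phaE n σ) := by
  obtain ⟨B, hB0, hB⟩ := pha_pot_step hm hm4 (c := 8 * (C + 1)) (by linarith)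
  refine ⟨2 * (B + (m : ℝ) * 6 ^ m), by positivity, ?_⟩
  intro n η σ A hb hu hEq hJ hQ
  obtain ⟨j, hj⟩ := hm
  have hm : Even m := ⟨j, hj⟩
  have hσ := hb.sigma_pos
  have hh : 0 < stepH n := by unfold stepH; exact div_pos one_pos (pow_pos hb.n_pos 20)
  have hn3 : (3 : ℝ) ≤ n := by linarith [hb.big]
  have hgu : 0 < phaGU σ := Real.sqrt_pos.2 hσ
  have hgu' : 0 < phaGU (σ + stepH n) := Real.sqrt_pos.2 (by linarith)
  have hgd : 0 < phaGD n η σ := lt_of_lt_of_le (lt_of_lt_of_le hσ hb.sigma_le_gP) hb.gP_le_gD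
  have hσgU : σ ≤ phaGU σ := by
    have := hb.gU_lower
    nlinarith
  obtain ⟨j1, j2, j3⟩ := hb.junk hσgU
  obtain ⟨k1, k2⟩ := hb.junk_le_sigma
  have hm2 : (4 : ℝ) ≤ m := by exact_mod_cast hm4
  set SD := ∑ f ∈ A, (phaD σ A f / phaGD n η σ) ^ m
  have hSD : 0 ≤ SD := Finset.sum_nonneg fun f _ => hm.pow_nonneg _
  have hJ' : ∀ f ∈ A, ∀ T ∈ others A f, |phaU σ (A \ T) f - phaU σ A f| ≤ C / refR σ := by
    intro f hf T hT
    simpa [phaU] using hJ f hf T hT
  have hQ' : ∀ f ∈ A, ∑ T ∈ others A f, (phaU σ (A \ T) f - phaU σ A f) ^ 2 ≤ C := by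
    intro f hf
    simpa [phaU] using hQ f hf
  have key := hB n A (phaU σ) (phaU (σ + stepH n)) (stepH n) (refR σ) (phaGU σ)
    (phaGU (σ + stepH n)) (phaE n σ) (phaE n (σ + stepH n)) (2 - m) (2 - m) ((m : ℝ) * 6 ^ m * SD) 0
    (500 * (n : ℝ) ^ 3) (500 * (n : ℝ) ^ 3) (C / refR σ)
    (fun f => 2 * refR σ * (deg (triangles n) A f / refR σ))
    (fun f => -(refR σ * (phaD σ A f / phaGU σ)))
    (fun _ => 4) (fun _ => C) hh
    (pha_stepH_H (by exact_mod_cast (by linarith : (1 : ℝ) ≤ n))) hb.r_pos.le hgu hgu'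
    (phaE_pos hn3 hσ) (phaE_pos hn3 (by linarith)) (by positivity) (by norm_num) ?_ le_rfl
    (hb.r_h_small (by linarith) hm4) ?_ ?_ ?_ hJ' hQ' ?_ (k1.trans hσgU) ?_ ?_
    (j1.trans hb.half_le_r) ?_
  · refine key.trans (add_le_add le_rfl ?_)
    have he0 := phaE_pos hn3 hσ
    have hrh : 0 ≤ stepH n * refR σ := mul_nonneg hh.le hb.r_pos.le
    have e : 2 * (stepH n * refR σ) * ((m : ℝ) * 6 ^ m * SD + B * A.card) / phaE n σ =
        2 * (stepH n * refR σ) * ((m : ℝ) * 6 ^ m * (SD / phaE n σ) + B * ((A.card : ℝ) / phaE n σ)) := by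
      ring
    rw [e]
    show _ ≤ 2 * (B + (m : ℝ) * 6 ^ m) * (stepH n * refR σ) * (SD / phaE n σ + _)
    have h1 : (m : ℝ) * 6 ^ m * (SD / phaE n σ) + B * ((A.card : ℝ) / phaE n σ) ≤
        (B + (m : ℝ) * 6 ^ m) * (SD / phaE n σ + (A.card : ℝ) / phaE n σ) := by
      have : 0 ≤ B * (SD / phaE n σ) := by positivity
      have : 0 ≤ (m : ℝ) * 6 ^ m * ((A.card : ℝ) / phaE n σ) := by positivity
      linarith
    have := mul_le_mul_of_nonneg_left h1 hrh
    linarith
  · have hd := phaE_ratio hn3 hσ hh.le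
    have hratio : phaGU σ ^ m / phaGU (σ + stepH n) ^ m = (1 / (1 + stepH n / σ)) ^ j := by
      unfold phaGU
      rw [← div_pow, hj, ← two_mul, pow_mul, div_pow, Real.sq_sqrt hσ.le, Real.sq_sqrt (by linarith)]
      congr 1
      field_simp
    rw [mul_div_mul_comm, hratio]
    have hjR : (j : ℝ) ≤ m := by exact_mod_cast (by omega : j ≤ m)
    have hjx : (j : ℝ) * (stepH n / σ) ≤ 1 / 2 := by
      have := hb.x_small
      have := mul_le_mul_of_nonneg_right hjR (div_nonneg hh.le hσ.le)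
      linarith
    refine (mul_le_mul (pha_inv_pow_exp (div_nonneg hh.le hσ.le) j hjx)
      hd (div_nonneg (phaE_pos hn3 hσ).le (phaE_pos hn3 (by linarith)).le) (Real.exp_pos _).le).trans_eq ?_
    rw [← Real.exp_add, hb.rh_sigma, hj]
    congr 1
    push_cast
    ring
  · intro f B'
    have e : phaU (σ + stepH n) B' f - phaU σ B' f = stepH n * (2 * deg (triangles n) B' f) := by
      unfold phaU
      rw [pha_deg_poly (by linarith), pha_deg_poly hσ.ne']
      ring
    rw [e, abs_mul, abs_of_pos hh, abs_of_nonneg (by linarith [deg_nonneg (H := triangles n) B' f])]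
    refine mul_le_mul_of_nonneg_left ?_ hh.le
    have n3 : (n : ℝ) ≤ (n : ℝ) ^ 3 := le_self_pow₀ (by linarith) (by norm_num)
    linarith [deg_le_n B' f]
  · intro f hf
    unfold phaU
    rw [sub_sub_sub_cancel_right, pha_time_deg hσ.ne' (by linarith), sub_self, abs_zero]
    positivity
  · intro f hf
    have h1 := hb.deg_le (hu f hf)
    have h0 : 0 ≤ deg (triangles n) A f / refR σ :=
      div_nonneg (deg_nonneg A f) hb.r_pos.le
    simp only [phaU, sub_sub_sub_cancel_right]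
    rw [hEq f hf]
    have e : 2 * refR σ * (deg (triangles n) A f / refR σ) +
        (-(refR σ * (2 * (deg (triangles n) A f / refR σ) + devD (triangles n) A (refR σ) f)) +
          2 * (deg (triangles n) A f / refR σ)) - -(refR σ * (phaD σ A f / phaGU σ)) * phaGU σ =
        2 * (deg (triangles n) A f / refR σ) := by
      have hr := hb.r_pos.ne'
      unfold phaD
      field_simp
      ring
    rw [e, abs_of_nonneg (by positivity)]
    linarith
  · have h2 := hb.gU_lower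
    have h4 : C / refR σ = 2 * C * σ := by unfold refR; field_simp
    nlinarith
  · intro f hf
    have h1 : 16 * (C + 1) ≤ phaGU σ * refR σ := by
      have h := hb.sqrt_C
      unfold phaGU refR
      rw [mul_one_div, le_div_iff₀ (by positivity)]
      have := mul_le_mul_of_nonneg_left h (Real.sqrt_nonneg σ)
      rw [← mul_assoc, Real.mul_self_sqrt hσ.le] at this
      linarith
    simp only [zero_mul, add_zero]
    have h2 : 128 * ((C + 1) * (C + 1)) ≤ phaGU σ * (8 * (C + 1) * refR σ) := by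
      have := mul_le_mul_of_nonneg_left h1 (show 0 ≤ 8 * (C + 1) by linarith)
      linarith
    nlinarith
  · intro f hf
    have e : phaGU σ ^ 2 * refR σ = 1 / 2 := by
      unfold phaGU; rw [Real.sq_sqrt hσ.le, mul_comm, hb.r_sigma]
    have h1 : 0 ≤ 8 * (C + 1) * |phaU σ A f / phaGU σ| := by positivity
    have h8 : 1 / (4 * (n : ℝ)) ≤ 1 :=
      (div_le_one (by linarith [hb.n_pos])).2 (by linarith [hb.big])
    calc 2 * C + 2 * (n : ℝ) ^ 3 * (stepH n * (500 * (n : ℝ) ^ 3)) ^ 2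
        ≤ 1 / 2 * (8 * (C + 1) * (1 + |phaU σ A f / phaGU σ|)) := by nlinarith
      _ = _ := by rw [← e]; ring
  · set v := fun f => phaU σ A f / phaGU σ
    rw [Finset.mul_sum, Finset.mul_sum, Finset.mul_sum, ← Finset.sum_add_distrib]
    refine Finset.sum_le_sum fun f hf => ?_
    set wD := phaD σ A f / phaGD n η σ with hwD
    have hD : |phaD σ A f / phaGU σ| ≤ |3 * wD| := by
      rw [hwD, abs_mul, abs_div, abs_div, abs_of_pos hgd, abs_of_pos hgu,
        abs_of_pos (show (0 : ℝ) < 3 by norm_num), ← mul_div_assoc, div_le_div_iff₀ hgu hgd]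
      have := mul_le_mul_of_nonneg_left hb.gD_le_U (abs_nonneg (phaD σ A f))
      linarith
    have hv : 0 ≤ v f ^ m := hm.pow_nonneg _
    have hr := hb.r_pos
    have hmix := pha_mixed hm (by omega) (v f) (3 * wD)
    rw [mul_pow, ← mul_assoc, ← mul_pow, show (2 : ℝ) * 3 = 6 by norm_num] at hmix
    have h1 : -((v f) ^ (m - 1) * (phaD σ A f / phaGU σ)) ≤
        1 / 2 * v f ^ m + 6 ^ m * wD ^ m := by
      refine (neg_le_abs _).trans (le_trans ?_ hmix)
      rw [abs_mul, abs_pow]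
      exact mul_le_mul_of_nonneg_left hD (by positivity)
    have hd := mul_le_mul_of_nonneg_right (hb.deg_ge (hu f hf)) hv
    have hε := hb.eps1
    have h2 := mul_le_mul_of_nonneg_left h1 (mul_nonneg (show (0 : ℝ) ≤ m by positivity) hr.le)
    show (m : ℝ) * v f ^ (m - 1) * -(refR σ * (phaD σ A f / phaGU σ)) -
      deg (triangles n) A f * v f ^ m ≤ _
    have h4 : 0 ≤ refR σ * v f ^ m := mul_nonneg hr.le hv
    have h5 := mul_le_mul_of_nonneg_left hε h4
    have h6 := mul_le_mul_of_nonneg_left hm2 h4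
    linarith

end

end Vale.Agent.P046.Full
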