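import Mathlib
import Vale.Agent.P046.Full.PhaseAStepUD
import Vale.Agent.P046.Full.PhaseAStepK

/-!
# P046, first phase: survival of small sets, the number of live edges, and the time sums
-/

open Finset

namespace Vale.Agent.P046.Full

open Vale.Agent.P046

noncomputable section

variable {n m : ℕ} {η C σ : ℝ} {A : Finset (Edge n)}

/-- Reference density. -/
def phaDens (n : ℕ) (σ : ℝ) : ℝ := Real.sqrt (refR σ / ((n : ℝ) - 2))

lemma phaE_eq (n : ℕ) (σ : ℝ) : phaE n σ = edgesN n * phaDens n σ := rfl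

lemma phaDens_pos (hn : (3 : ℝ) ≤ n) (hσ : 0 < σ) : 0 < phaDens n σ := by
  have hr : 0 < refR σ := by unfold refR; positivity
  exact Real.sqrt_pos.2 (div_pos hr (by linarith))

/-- The number of live edges over its reference value. -/
def phaY (n : ℕ) (σ : ℝ) (A : Finset (Edge n)) : ℝ := (A.card : ℝ) / phaE n σ

/-- Survival of a set over its reference value. -/
def phaS {n : ℕ} (S : Finset (Edge n)) (σ : ℝ) (A : Finset (Edge n)) : ℝ :=
  (if S ⊆ A then 1 else 0) / phaDens n σ ^ S.card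

lemma phaDens_ratio (hn : (3 : ℝ) ≤ n) (hσ : 0 < σ) {h : ℝ} (hh : 0 ≤ h) :
    phaDens n σ / phaDens n (σ + h) = Real.sqrt (1 + h / σ) := by
  have hr : 0 < refR σ := by unfold refR; positivity
  have hd : (0 : ℝ) < (n : ℝ) - 2 := by linarith
  unfold phaDens
  rw [← Real.sqrt_div (div_pos hr hd).le]
  congr 1
  unfold refR
  field_simp

lemma phaE_ratio_eq (hn : (3 : ℝ) ≤ n) (hσ : 0 < σ) {h : ℝ} (hh : 0 ≤ h) :
    phaE n σ / phaE n (σ + h) = Real.sqrt (1 + h / σ) := by
  have he : edgesN n ≠ 0 := by rw [edgesN_eq]; exact (show (0:ℝ) < _ by nlinarith).ne'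
  rw [phaE_eq, phaE_eq, mul_div_mul_left _ _ he, phaDens_ratio hn hσ hh]

namespace PhaBig

lemma deg_bounds (hb : PhaBig η m C n σ) (hu : ∀ f ∈ A, |phaU σ A f| ≤ Real.sqrt σ * (n : ℝ) ^ η)
    {f : Edge n} (hf : f ∈ A) :
    refR σ * (1 - Real.sqrt σ * (n : ℝ) ^ η) ≤ deg (triangles n) A f ∧
      deg (triangles n) A f ≤ refR σ * (1 + Real.sqrt σ * (n : ℝ) ^ η) := by
  refine ⟨hb.deg_ge (hu f hf), ?_⟩
  have h1 := (abs_le.1 (hu f hf)).2
  unfold phaU at h1
  rw [sub_le_iff_le_add', div_le_iff₀ hb.r_pos] at h1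
  linarith

lemma three_alive (hb : PhaBig η m C n σ) (hu : ∀ f ∈ A, |phaU σ A f| ≤ Real.sqrt σ * (n : ℝ) ^ η) :
    refR σ * (1 - Real.sqrt σ * (n : ℝ) ^ η) * A.card ≤ 3 * ((alive (triangles n) A).card : ℝ) ∧
      3 * ((alive (triangles n) A).card : ℝ) ≤ refR σ * (1 + Real.sqrt σ * (n : ℝ) ^ η) * A.card := by
  have e : ∑ f ∈ A, deg (triangles n) A f = 3 * ((alive (triangles n) A).card : ℝ) := by
    have h := sum_deg (H := triangles n) A (fun _ => (1 : ℝ))
    simp only [mul_one] at h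
    rw [h, Finset.sum_congr rfl fun T hT => by
      rw [Finset.sum_const, triangles_linear.card3 T (mem_alive.1 hT).1]]
    simp [mul_comm]
  rw [← e]
  constructor
  · refine le_trans (le_of_eq ?_) (Finset.card_nsmul_le_sum A _ _ fun f hf => (hb.deg_bounds hu hf).1)
    rw [nsmul_eq_mul]; ring
  · refine (Finset.sum_le_card_nsmul A _ _ fun f hf => (hb.deg_bounds hu hf).2).trans (le_of_eq ?_)
    rw [nsmul_eq_mul]; ring

lemma rh_le (hb : PhaBig η m C n σ) : refR σ * stepH n ≤ 1 / (n : ℝ) ^ 19 := by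
  have h := hb.r_le_n
  have hn := hb.n_pos
  unfold stepH
  rw [mul_one_div, div_le_div_iff₀ (pow_pos hn 20) (pow_pos hn 19), one_mul, pow_succ]
  nlinarith [pow_pos hn 19]

end PhaBig

lemma pha_free_card (h : ℝ) (A : Finset (Edge n)) :
    phaFree (triangles n) h (fun B => (B.card : ℝ)) A =
      (A.card : ℝ) - h * (3 * ((alive (triangles n) A).card : ℝ)) := by
  unfold phaFree
  rw [Finset.sum_congr rfl (g := fun _ => (-3 : ℝ)) fun T hT => by
    obtain ⟨h1, h2⟩ := mem_alive.1 hT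
    have h3 := triangles_linear.card3 T h1
    have h4 := Finset.card_le_card h2
    beta_reduce
    rw [Finset.card_sdiff_of_subset h2, Nat.cast_sub h4, h3]
    push_cast; ring]
  rw [Finset.sum_const, nsmul_eq_mul]
  ring

lemma pha_free_card_sq (h : ℝ) (A : Finset (Edge n)) :
    phaFree (triangles n) h (fun B => (B.card : ℝ) ^ 2) A =
      (A.card : ℝ) ^ 2 - h * (3 * ((alive (triangles n) A).card : ℝ)) * (2 * (A.card : ℝ) - 3) := by
  unfold phaFree
  rw [Finset.sum_congr rfl (g := fun _ => -6 * (A.card : ℝ) + 9) fun T hT => by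
    obtain ⟨h1, h2⟩ := mem_alive.1 hT
    have h3 := triangles_linear.card3 T h1
    have h4 := Finset.card_le_card h2
    beta_reduce
    rw [Finset.card_sdiff_of_subset h2, Nat.cast_sub h4, h3]
    push_cast; ring]
  rw [Finset.sum_const, nsmul_eq_mul]
  ring

lemma pha_free_smul (h c : ℝ) (F : Finset (Edge n) → ℝ) (A : Finset (Edge n)) :
    phaFree (triangles n) h (fun B => c * F B) A = c * phaFree (triangles n) h F A := by
  simp only [pha_free_eq, ← Finset.mul_sum]
  ring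

lemma PhaBig.four_rh_le (hb : PhaBig η m C n σ) :
    4 * (stepH n * refR σ) ≤ Real.sqrt σ * (n : ℝ) ^ η := by
  have hn3 : (3 : ℝ) ≤ n := by linarith [hb.big]
  have hy1 : stepH n * refR σ ≤ 1 / (n : ℝ) ^ 19 := by rw [mul_comm]; exact hb.rh_le
  have h5 : 1 / Real.sqrt (2 * n) ≤ Real.sqrt σ * (n : ℝ) ^ η := by
    refine le_trans ?_ (le_mul_of_one_le_right (Real.sqrt_nonneg σ) (hb.one_le_pow hb.η0.le))
    rw [one_div, ← Real.sqrt_inv]
    exact Real.sqrt_le_sqrt (by rw [← one_div]; exact hb.sigma_lo)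
  refine le_trans ?_ h5
  have h6 : Real.sqrt (2 * n) ≤ 2 * n := by
    rw [Real.sqrt_le_iff]; constructor <;> nlinarith
  refine le_trans ?_ (one_div_le_one_div_of_le (Real.sqrt_pos.2 (by positivity)) h6)
  refine (mul_le_mul_of_nonneg_left hy1 (by norm_num)).trans ?_
  rw [mul_one_div, div_le_div_iff₀ (pow_pos hb.n_pos 19) (by positivity), one_mul]
  have h7 : (n : ℝ) ^ 2 ≤ (n : ℝ) ^ 19 := pow_le_pow_right₀ (by linarith) (by norm_num)
  nlinarith [hb.big]

lemma pha_upper_real {q y ε N L : ℝ} (hN : 0 ≤ N) (hy : y * (1 + ε) ≤ 1) (hq : q ≤ Real.exp y)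
    (hlo : y * (1 - ε) * N ≤ L) (hhi : L ≤ y * (1 + ε) * N) :
    q * (N - L) ≤ Real.exp (ε * y) * N := by
  have h1 : N - L ≤ Real.exp (-(y * (1 - ε))) * N := by
    have := mul_le_mul_of_nonneg_right (Real.add_one_le_exp (-(y * (1 - ε)))) hN
    linarith
  have h2 : 0 ≤ N - L := by
    have := mul_le_mul_of_nonneg_right hy hN
    linarith
  refine (mul_le_mul hq h1 h2 (Real.exp_pos _).le).trans_eq ?_
  rw [← mul_assoc, ← Real.exp_add]
  ring_nf

lemma pha_lower_real {q y ε N L : ℝ} (hN : 0 ≤ N) (hy0 : 0 ≤ y) (hy : y * (1 + ε) ≤ 1) (hε : 0 ≤ ε)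
    (h4 : 4 * y ≤ ε) (hy8 : y ≤ 1 / 8) (hq0 : 0 ≤ q) (hq : 1 + y - 2 * y ^ 2 ≤ q) (hhi : L ≤ y * (1 + ε) * N) :
    (1 - 2 * (ε * y)) * N ≤ q * (N - L) := by
  have h1 : (1 - y * (1 + ε)) * N ≤ N - L := by linarith
  have h2 : 0 ≤ (1 - y * (1 + ε)) * N := mul_nonneg (by linarith) hN
  refine le_trans ?_ (mul_le_mul hq h1 h2 hq0)
  rw [← mul_assoc (1 + y - 2 * y ^ 2)]
  refine mul_le_mul_of_nonneg_right ?_ hN
  have t1 := mul_le_mul_of_nonneg_left h4 hy0
  have t2 := mul_le_mul_of_nonneg_left hy8 (mul_nonneg hy0 hε)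
  have t4 : 0 ≤ y * ε := mul_nonneg hy0 hε
  have t3 : 0 ≤ y ^ 3 * (1 + ε) := by positivity
  linarith

lemma pha_square_real {q y ε N L : ℝ} (hN : 0 ≤ N) (hy0 : 0 ≤ y) (hy : y ≤ 1 / 8) (hε : 0 ≤ ε)
    (hε1 : ε ≤ 1) (hq0 : 0 ≤ q) (hq : q ≤ Real.exp y) (hlo : y * (1 - ε) * N ≤ L)
    (hhi : L ≤ y * (1 + ε) * N) :
    q ^ 2 * (N ^ 2 - L * (2 * N - 3)) ≤ Real.exp (2 * (ε * y)) * N ^ 2 + 12 * y * N := by
  have hq4 : q ^ 2 ≤ Real.exp (2 * y) := by
    refine (pow_le_pow_left₀ hq0 hq 2).trans_eq ?_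
    rw [← Real.exp_nat_mul]; push_cast; ring_nf
  have hye : y * (1 + ε) ≤ 2 * y := by
    have := mul_le_mul_of_nonneg_left hε1 hy0
    linarith
  have h1 : N ^ 2 - L * (2 * N - 3) ≤ (1 - 2 * (y * (1 - ε))) * N ^ 2 + 6 * y * N := by
    have h5 := mul_le_mul_of_nonneg_right hlo (show (0:ℝ) ≤ 2 * N by positivity)
    have h6 := mul_le_mul_of_nonneg_right hye hN
    linarith
  have hc : 0 ≤ 1 - 2 * (y * (1 - ε)) := by
    have : 0 ≤ y * ε := mul_nonneg hy0 hε
    linarith
  have hnn : 0 ≤ (1 - 2 * (y * (1 - ε))) * N ^ 2 + 6 * y * N := by positivity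
  refine (mul_le_mul_of_nonneg_left h1 (sq_nonneg q)).trans
    ((mul_le_mul_of_nonneg_right hq4 hnn).trans ?_)
  have h2 : (1 - 2 * (y * (1 - ε))) * N ^ 2 ≤ Real.exp (-(2 * (y * (1 - ε)))) * N ^ 2 :=
    mul_le_mul_of_nonneg_right (by linarith [Real.add_one_le_exp (-(2 * (y * (1 - ε))))]) (sq_nonneg _)
  have h3 : Real.exp (2 * y) ≤ 2 := by
    refine (Real.exp_le_exp.2 (show 2 * y ≤ 1 / 2 by linarith)).trans ?_
    have := Real.exp_one_lt_three
    have e : Real.exp (1 / 2) * Real.exp (1 / 2) = Real.exp 1 := by rw [← Real.exp_add]; norm_num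
    nlinarith [Real.exp_pos (1 / 2 : ℝ)]
  have h4 := mul_le_mul_of_nonneg_left h2 (Real.exp_pos (2 * y)).le
  rw [← mul_assoc (Real.exp (2 * y)) (Real.exp _), ← Real.exp_add,
    show 2 * y + -(2 * (y * (1 - ε))) = 2 * (ε * y) by ring] at h4
  have h5 := mul_le_mul_of_nonneg_right h3 (show (0:ℝ) ≤ 6 * y * N by positivity)
  linarith

lemma pha_step_Y (hb : PhaBig η m C n σ) (hu : ∀ f ∈ A, |phaU σ A f| ≤ Real.sqrt σ * (n : ℝ) ^ η) :
    phaFree (triangles n) (stepH n) (phaY n (σ + stepH n)) A ≤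
        Real.exp (Real.sqrt σ * (n : ℝ) ^ η * (stepH n * refR σ)) * phaY n σ A ∧
      (1 - 2 * (Real.sqrt σ * (n : ℝ) ^ η * (stepH n * refR σ))) * phaY n σ A ≤
        phaFree (triangles n) (stepH n) (phaY n (σ + stepH n)) A ∧
      phaFree (triangles n) (stepH n) (fun B => phaY n (σ + stepH n) B ^ 2) A ≤
        Real.exp (2 * (Real.sqrt σ * (n : ℝ) ^ η * (stepH n * refR σ))) * phaY n σ A ^ 2 +
          12 * (stepH n * refR σ) / phaE n σ * phaY n σ A := by
  have hσ := hb.sigma_pos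
  have hh : 0 < stepH n := by unfold stepH; exact div_pos one_pos (pow_pos hb.n_pos 20)
  have hn3 : (3 : ℝ) ≤ n := by linarith [hb.big]
  have he := phaE_pos hn3 hσ
  have he' := phaE_pos hn3 (show 0 < σ + stepH n by linarith)
  obtain ⟨hlo, hhi⟩ := hb.three_alive hu
  set ε := Real.sqrt σ * (n : ℝ) ^ η with hε
  have hε0 : 0 ≤ ε := mul_nonneg (Real.sqrt_nonneg _) (Real.rpow_nonneg hb.n_pos.le _)
  have hε1 : ε ≤ 1 / 8 := hb.eps1
  set y := stepH n * refR σ with hy
  have hy0 : 0 ≤ y := mul_nonneg hh.le hb.r_pos.le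
  have hy1 : y ≤ 1 / (n : ℝ) ^ 19 := by rw [hy, mul_comm]; exact hb.rh_le
  have hy2 : y ≤ 1 / 8 := hy1.trans (by
    rw [div_le_iff₀ (pow_pos hb.n_pos 19)]
    have : (n : ℝ) ≤ (n : ℝ) ^ 19 := le_self_pow₀ (by linarith) (by norm_num)
    linarith [hb.big])
  have hx : stepH n / σ = 2 * y := hb.rh_sigma
  set q := phaE n σ / phaE n (σ + stepH n)
  have hq : q = Real.sqrt (1 + 2 * y) := by rw [← hx]; exact phaE_ratio_eq hn3 hσ hh.le
  have hq0 : 0 ≤ q := by rw [hq]; exact Real.sqrt_nonneg _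
  have hq1 : q ≤ Real.exp y := by
    rw [hq]; refine (pha_sqrt_exp (by linarith)).trans_eq ?_; congr 1; ring
  have hq2 : 1 + y - 2 * y ^ 2 ≤ q := by
    rw [hq]
    refine Real.le_sqrt_of_sq_le ?_
    nlinarith [pow_nonneg hy0 3]
  set Λ := stepH n * (3 * ((alive (triangles n) A).card : ℝ)) with hΛ
  have hΛlo : y * (1 - ε) * A.card ≤ Λ := by
    have := mul_le_mul_of_nonneg_left hlo hh.le
    rw [hy, hΛ]; linarith
  have hΛhi : Λ ≤ y * (1 + ε) * A.card := by
    have := mul_le_mul_of_nonneg_left hhi hh.le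
    rw [hy, hΛ]; linarith
  have hA : (0 : ℝ) ≤ A.card := Nat.cast_nonneg _
  have eY : phaFree (triangles n) (stepH n) (phaY n (σ + stepH n)) A =
      q * ((A.card : ℝ) - Λ) / phaE n σ := by
    have hf : phaY n (σ + stepH n) = fun B => q / phaE n σ * (B.card : ℝ) := by
      funext B; simp only [phaY, q]; field_simp
    rw [hf, pha_free_smul, pha_free_card, ← hΛ]; ring
  have eY2 : phaFree (triangles n) (stepH n) (fun B => phaY n (σ + stepH n) B ^ 2) A =
      q ^ 2 * ((A.card : ℝ) ^ 2 - Λ * (2 * (A.card : ℝ) - 3)) / phaE n σ ^ 2 := by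
    have hf : (fun B : Finset (Edge n) => phaY n (σ + stepH n) B ^ 2) =
        fun B => q ^ 2 / phaE n σ ^ 2 * (B.card : ℝ) ^ 2 := by
      funext B; simp only [phaY, q]; field_simp
    rw [hf, pha_free_smul, pha_free_card_sq, ← hΛ]; ring
  have hy3 : y * (1 + ε) ≤ 1 := (mul_le_mul hy2 (show 1 + ε ≤ 2 by linarith) (by linarith)
    (by norm_num)).trans (by norm_num)
  refine ⟨?_, ?_, ?_⟩
  · rw [eY, phaY, ← mul_div_assoc]
    exact div_le_div_of_nonneg_right (pha_upper_real hA hy3 hq1 hΛlo hΛhi) he.le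
  · rw [eY, phaY, ← mul_div_assoc]
    exact div_le_div_of_nonneg_right
      (pha_lower_real hA hy0 hy3 hε0 hb.four_rh_le hy2 hq0 hq2 hΛhi) he.le
  · rw [eY2, phaY, show Real.exp (2 * (ε * y)) * ((A.card : ℝ) / phaE n σ) ^ 2 +
        12 * y / phaE n σ * ((A.card : ℝ) / phaE n σ) =
        (Real.exp (2 * (ε * y)) * (A.card : ℝ) ^ 2 + 12 * y * A.card) / phaE n σ ^ 2 by
      field_simp]
    exact div_le_div_of_nonneg_right
      (pha_square_real hA hy0 hy2 hε0 (by linarith) hq0 hq1 hΛlo hΛhi) (sq_nonneg _)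

lemma pha_step_S (hb : PhaBig η m C n σ) (hu : ∀ f ∈ A, |phaU σ A f| ≤ Real.sqrt σ * (n : ℝ) ^ η)
    (S : Finset (Edge n)) :
    phaFree (triangles n) (stepH n) (phaS S (σ + stepH n)) A ≤
      Real.exp ((S.card : ℝ) * (Real.sqrt σ * (n : ℝ) ^ η * (stepH n * refR σ)) +
        stepH n * (S.card : ℝ) ^ 2) * phaS S σ A := by
  have hσ := hb.sigma_pos
  have hh : 0 < stepH n := by unfold stepH; exact div_pos one_pos (pow_pos hb.n_pos 20)
  have hn3 : (3 : ℝ) ≤ n := by linarith [hb.big]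
  have hp := phaDens_pos hn3 hσ
  have hp' := phaDens_pos hn3 (show 0 < σ + stepH n by linarith)
  set ε := Real.sqrt σ * (n : ℝ) ^ η
  set q := phaDens n σ / phaDens n (σ + stepH n)
  have hq : q ≤ Real.exp (stepH n * refR σ) := by
    show phaDens n σ / _ ≤ _
    rw [phaDens_ratio hn3 hσ hh.le, hb.rh_sigma]
    refine (pha_sqrt_exp (by have := hb.r_pos; positivity)).trans_eq ?_
    congr 1; ring
  have hq0 : 0 ≤ q := div_nonneg hp.le hp'.le
  have hf : phaS S (σ + stepH n) =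
      fun B => (q ^ S.card / phaDens n σ ^ S.card) * (if S ⊆ B then 1 else 0) := by
    funext B; simp only [phaS, q, div_pow]; field_simp
  rw [hf, pha_free_smul]
  by_cases hS : S ⊆ A
  swap
  · have : phaFree (triangles n) (stepH n) (fun B => if S ⊆ B then (1 : ℝ) else 0) A = 0 := by
      rw [pha_free_eq, if_neg hS, Finset.sum_eq_zero fun T _ => if_neg fun h =>
        hS (h.trans Finset.sdiff_subset)]
      ring
    rw [this, mul_zero, phaS, if_neg hS]
    simp
  set M := (alive (triangles n) A).filter fun T => ¬ Disjoint S T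
  have hfree : phaFree (triangles n) (stepH n) (fun B => if S ⊆ B then (1 : ℝ) else 0) A =
      1 - stepH n * (M.card : ℝ) := by
    have e : ∑ T ∈ alive (triangles n) A,
        ((if S ⊆ A \ T then (1 : ℝ) else 0) - (if S ⊆ A then 1 else 0)) = -(M.card : ℝ) := by
      rw [show (M.card : ℝ) = ∑ T ∈ alive (triangles n) A, if ¬ Disjoint S T then (1 : ℝ) else 0 by
        rw [Finset.sum_boole], ← Finset.sum_neg_distrib]
      refine Finset.sum_congr rfl fun T _ => ?_
      by_cases hd : Disjoint S T <;> simp [Finset.subset_sdiff, hS, hd]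
    unfold phaFree
    beta_reduce
    rw [e, if_pos hS]
    ring
  have hM : (S.card : ℝ) * (refR σ * (1 - ε)) - (S.card : ℝ) ^ 2 ≤ (M.card : ℝ) := by
    have h1 : (S.card : ℝ) * (refR σ * (1 - ε)) ≤ ∑ f ∈ S, deg (triangles n) A f := by
      rw [← nsmul_eq_mul]
      exact Finset.card_nsmul_le_sum S _ _ fun f hf => (hb.deg_bounds hu (hS hf)).1
    have h2 : ∑ f ∈ S, deg (triangles n) A f =
        ∑ T ∈ alive (triangles n) A, ((S.filter fun f => f ∈ T).card : ℝ) := by
      simp only [deg, star, Finset.card_filter, Nat.cast_sum]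
      exact Finset.sum_comm
    have h3 : ∀ T ∈ alive (triangles n) A, ((S.filter fun f => f ∈ T).card : ℝ) ≤
        (if ¬ Disjoint S T then (1 : ℝ) else 0) +
          ((S.offDiag.filter fun p => p.1 ∈ T ∧ p.2 ∈ T).card : ℝ) := by
      intro T _
      have h4 : (S.offDiag.filter fun p => p.1 ∈ T ∧ p.2 ∈ T) =
          (S.filter fun f => f ∈ T).offDiag := by
        ext p; simp only [Finset.mem_filter, Finset.mem_offDiag]; tauto
      rw [h4, Finset.offDiag_card]
      by_cases hd : Disjoint S T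
      · have : S.filter (fun f => f ∈ T) = ∅ :=
          Finset.filter_eq_empty_iff.2 fun f hf hfT => (Finset.disjoint_left.1 hd hf hfT)
        simp [this, hd]
      · rw [if_pos hd]
        have : ∀ j : ℕ, j ≤ 1 + (j * j - j) := fun j => by
          rcases Nat.lt_or_ge j 2 with h5 | h5
          · omega
          · have h6 : 2 * j ≤ j * j := Nat.mul_le_mul_right j h5
            omega
        exact_mod_cast this _
    have h5 : ∑ T ∈ alive (triangles n) A,
        ((S.offDiag.filter fun p => p.1 ∈ T ∧ p.2 ∈ T).card : ℝ) ≤ (S.card : ℝ) ^ 2 := by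
      simp only [Finset.card_filter, Nat.cast_sum, Nat.cast_ite, Nat.cast_one, Nat.cast_zero]
      rw [Finset.sum_comm]
      refine (Finset.sum_le_card_nsmul _ _ 1 fun p hp => ?_).trans ?_
      · rw [Finset.sum_boole]
        have h6 : ((alive (triangles n) A).filter fun T => p.1 ∈ T ∧ p.2 ∈ T).card ≤ 1 := by
          rw [Finset.card_le_one]
          intro T hT T' hT'
          obtain ⟨a1, a2, a3⟩ := Finset.mem_filter.1 hT
          obtain ⟨b1, b2, b3⟩ := Finset.mem_filter.1 hT'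
          exact triangles_linear.eq_of_two (mem_alive.1 a1).1 (mem_alive.1 b1).1
            (Finset.mem_offDiag.1 hp).2.2 a2 a3 b2 b3
        exact_mod_cast h6
      · rw [nsmul_eq_mul, mul_one]
        have : S.offDiag.card ≤ S.card ^ 2 := by rw [Finset.offDiag_card, sq]; exact Nat.sub_le _ _
        exact_mod_cast this
    have h7 : (∑ T ∈ alive (triangles n) A, if ¬ Disjoint S T then (1 : ℝ) else 0) = M.card := by
      rw [Finset.sum_boole]
    have h8 := Finset.sum_le_sum h3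
    rw [Finset.sum_add_distrib, h7] at h8
    linarith
  rw [hfree, phaS, if_pos hS, div_mul_eq_mul_div, ← mul_div_assoc, mul_one]
  refine div_le_div_of_nonneg_right ?_ (pow_nonneg hp.le _)
  have h1 : 1 - stepH n * (M.card : ℝ) ≤
      Real.exp (-(stepH n * ((S.card : ℝ) * (refR σ * (1 - ε)) - (S.card : ℝ) ^ 2))) := by
    refine le_trans ?_ (Real.add_one_le_exp _)
    linarith [mul_le_mul_of_nonneg_left hM hh.le]
  refine (mul_le_mul_of_nonneg_left h1 (pow_nonneg hq0 _)).trans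
    ((mul_le_mul_of_nonneg_right (pow_le_pow_left₀ hq0 hq _) (Real.exp_pos _).le).trans_eq ?_)
  rw [← Real.exp_nat_mul, ← Real.exp_add]
  congr 1
  ring

lemma sigmaK_succ (n k : ℕ) : sigmaK n (k + 1) = sigmaK n k + stepH n := by
  simp only [sigmaK]; push_cast; ring

lemma pha_sum_sqrt (hn : 3 ≤ n) : ∀ K : ℕ,
    ∑ k ∈ Finset.range K, Real.sqrt (sigmaK n k) * (stepH n * refR (sigmaK n k)) ≤
      3 / 2 * Real.sqrt (sigmaK n K)
  | 0 => by simp
  | K + 1 => by
    rw [Finset.sum_range_succ, sigmaK_succ]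
    refine le_trans (add_le_add (pha_sum_sqrt hn K) le_rfl) ?_
    have hnR : (3 : ℝ) ≤ n := by exact_mod_cast hn
    have hh : 0 < stepH n := by unfold stepH; positivity
    set s := sigmaK n K with hs
    have h0 : 1 / (2 * (n : ℝ)) ≤ s := by
      have h1 : 1 / (2 * (n : ℝ)) ≤ 1 / (2 * ((n : ℝ) - 2)) :=
        one_div_le_one_div_of_le (by linarith) (by linarith)
      have : 0 ≤ (K : ℝ) * stepH n := by positivity
      rw [hs, sigmaK]; linarith
    have hs0 : 0 < s := lt_of_lt_of_le (by positivity) h0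
    have hhs : stepH n ≤ 3 * s := by
      have : stepH n ≤ 1 / (2 * (n : ℝ)) := by
        unfold stepH
        refine one_div_le_one_div_of_le (by positivity) ?_
        have h2 : (n : ℝ) ^ 2 ≤ (n : ℝ) ^ 20 := pow_le_pow_right₀ (by linarith) (by norm_num)
        nlinarith
      linarith
    have ha : 0 < Real.sqrt s := Real.sqrt_pos.2 hs0
    have e : Real.sqrt s * (stepH n * refR s) = stepH n / (2 * Real.sqrt s) := by
      unfold refR
      field_simp
      rw [Real.sq_sqrt hs0.le]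
    rw [e]
    set b := Real.sqrt (s + stepH n) with hb
    have hb2 : b * b = s + stepH n := Real.mul_self_sqrt (by linarith)
    have ha2 : Real.sqrt s * Real.sqrt s = s := Real.mul_self_sqrt hs0.le
    have hble : b ≤ 2 * Real.sqrt s := by
      rw [hb, Real.sqrt_le_iff]; refine ⟨by positivity, ?_⟩
      rw [mul_pow, Real.sq_sqrt hs0.le]; linarith
    have hab : Real.sqrt s ≤ b := Real.sqrt_le_sqrt (by linarith)
    have h2 : stepH n / (2 * Real.sqrt s) ≤ 3 / 2 * (b - Real.sqrt s) := by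
      rw [div_le_iff₀ (by positivity)]
      nlinarith [mul_le_mul_of_nonneg_left hble (sub_nonneg.2 hab)]
    linarith

end

end Vale.Agent.P046.Full
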