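import Mathlib
import Vale.Agent.P046.Full.PhaseACount

/-!
# P046, first phase: expected moments along the killed chain
-/

open Finset

namespace Vale.Agent.P046.Full

open Vale.Agent.P046

noncomputable section

variable {n m : ℕ} {η C : ℝ}

/-- The one-step estimates on one state. -/
def PhaEst (n : ℕ) (η C σ : ℝ) (A : Finset (Edge n)) : Prop :=
  let H := triangles n
  let r := refR σ
  let a := fun f => deg H A f / r
  let D := devD H A r
  let err := C * (r * σ * (n : ℝ) ^ (2 * η) + 1)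
  (∀ f ∈ A,
    (∑ T ∈ others A f, (deg H (A \ T) f / r - a f) = -(r * (2 * a f + D f)) + 2 * a f) ∧
    |∑ T ∈ others A f, (devD H (A \ T) r f - D f) + 4 * r * a f + 4 * r * D f + r * avgOp H A r D f| ≤ err ∧
    |∑ T ∈ others A f, (devP H (A \ T) r f - devP H A r f) + 6 * r * avgOp H A r D f + 4 * r * a f +
        r * avgOp H A r (devP H A r) f| ≤ err ∧
    (∀ T ∈ others A f, |deg H (A \ T) f / r - a f| ≤ C / r ∧ |devD H (A \ T) r f - D f| ≤ C / r ∧
      |devP H (A \ T) r f - devP H A r f| ≤ C / r) ∧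
    (∑ T ∈ others A f, (deg H (A \ T) f / r - a f) ^ 2 ≤ C) ∧
    (∑ T ∈ others A f, (devD H (A \ T) r f - D f) ^ 2 ≤
      C * (Real.sqrt (r / ((n : ℝ) - 2)) + σ * (n : ℝ) ^ (14 * η))) ∧
    ∑ T ∈ others A f, (devP H (A \ T) r f - devP H A r f) ^ 2 ≤ C * σ * (n : ℝ) ^ (14 * η)) ∧
  ∀ x y z : Fin n, x ≠ y → x ≠ z → y ≠ z →
    let K := codeg3 A x y z
    |∑ T ∈ alive H A, (codeg3 (A \ T) x y z - K) + 3 * r * K| ≤
        C * K * (r * Real.sqrt σ * (n : ℝ) ^ η + 1) ∧
      (∀ T ∈ alive H A, |codeg3 (A \ T) x y z - K| ≤ C) ∧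
      ∑ T ∈ alive H A, (codeg3 (A \ T) x y z - K) ^ 2 ≤ C * r * K

/-- The good states after `k` steps. -/
def phaGood (n : ℕ) (η : ℝ) (k : ℕ) (A : Finset (Edge n)) : Prop := GoodState n η (sigmaK n k) A

/-- The requirements on a run of `K` steps. -/
structure PhaRun (η : ℝ) (m : ℕ) (C : ℝ) (n K : ℕ) : Prop where
  big : ∀ k ≤ K, PhaBig η m C n (sigmaK n k)
  len : (K : ℝ) * stepH n ≤ 1
  est : ∀ k < K, ∀ A, phaGood n η k A → PhaEst n η C (sigmaK n k) A

namespace PhaRun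

variable {K : ℕ}

lemma n3 (hR : PhaRun η m C n K) : 3 ≤ n := by
  have := (hR.big 0 (Nat.zero_le _)).big
  exact_mod_cast (show (3 : ℝ) ≤ n by linarith)

lemma h0 (_hR : PhaRun η m C n K) : 0 ≤ stepH n := by unfold stepH; positivity

lemma hH (hR : PhaRun η m C n K) : stepH n * ((triangles n).card : ℝ) ≤ 1 :=
  pha_stepH_H (by have := hR.n3; omega)

lemma len_le (hR : PhaRun η m C n K) {j : ℕ} (hj : j ≤ K) : (j : ℝ) * stepH n ≤ 1 :=
  (mul_le_mul_of_nonneg_right (by exact_mod_cast hj) hR.h0).trans hR.len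

lemma sum_rh (hR : PhaRun η m C n K) {j : ℕ} (hj : j ≤ K) :
    ∑ k ∈ Finset.range j, stepH n * refR (sigmaK n k) ≤ n := by
  have hn : (0 : ℝ) ≤ n := Nat.cast_nonneg n
  refine (Finset.sum_le_card_nsmul _ _ (stepH n * n) fun k hk => mul_le_mul_of_nonneg_left ?_ hR.h0).trans ?_
  · have := (hR.big k (by have := Finset.mem_range.1 hk; omega)).r_le_n
    linarith
  · rw [Finset.card_range, nsmul_eq_mul, ← mul_assoc]
    exact mul_le_of_le_one_left hn (hR.len_le hj)

lemma sum_eps (hR : PhaRun η m C n K) {j : ℕ} (_hj : j ≤ K) :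
    ∑ k ∈ Finset.range j,
        Real.sqrt (sigmaK n k) * (n : ℝ) ^ η * (stepH n * refR (sigmaK n k)) ≤
      3 / 2 * (Real.sqrt (sigmaK n j) * (n : ℝ) ^ η) := by
  have h := mul_le_mul_of_nonneg_right (pha_sum_sqrt hR.n3 j)
    (Real.rpow_nonneg (Nat.cast_nonneg n) η)
  rw [Finset.sum_mul] at h
  refine le_trans (le_of_eq (Finset.sum_congr rfl fun k _ => by ring)) (h.trans (le_of_eq (by ring)))

lemma eps_nonneg (hR : PhaRun η m C n K) {k : ℕ} (hk : k ≤ K) :
    0 ≤ Real.sqrt (sigmaK n k) * (n : ℝ) ^ η * (stepH n * refR (sigmaK n k)) :=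
  mul_nonneg (mul_nonneg (Real.sqrt_nonneg _) (Real.rpow_nonneg (Nat.cast_nonneg n) η))
    (mul_nonneg hR.h0 (hR.big k hk).r_pos.le)

lemma init_e (hR : PhaRun η m C n K) :
    phaE n (sigmaK n 0) = edgesN n ∧ phaDens n (sigmaK n 0) = 1 := by
  have hn : (3 : ℝ) ≤ n := by exact_mod_cast hR.n3
  have h1 : phaDens n (sigmaK n 0) = 1 := by
    unfold phaDens
    rw [refR_sigma0 hR.n3, div_self (show (n : ℝ) - 2 ≠ 0 by linarith), Real.sqrt_one]
  exact ⟨by rw [phaE_eq, h1, mul_one], h1⟩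

lemma init (hR : PhaRun η m C n K) (hm0 : m ≠ 0) (hm : Even m) :
    phaY n (sigmaK n 0) (Finset.univ : Finset (Edge n)) = 1 ∧
    phaMom m (phaGP n η (sigmaK n 0)) (phaE n (sigmaK n 0)) (phaP (sigmaK n 0)) (Finset.univ : Finset (Edge n)) = 0 ∧
    phaMom m (phaGD n η (sigmaK n 0)) (phaE n (sigmaK n 0)) (phaD (sigmaK n 0)) (Finset.univ : Finset (Edge n)) = 0 ∧
    phaMom m (phaGU (sigmaK n 0)) (phaE n (sigmaK n 0)) (phaU (sigmaK n 0)) (Finset.univ : Finset (Edge n)) = 0 ∧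
    phaMomK n m η (sigmaK n 0) (Finset.univ : Finset (Edge n)) ≤ 1 := by
  have hn : (3 : ℝ) ≤ n := by exact_mod_cast hR.n3
  have hb := hR.big 0 (Nat.zero_le _)
  have hr := refR_sigma0 hR.n3
  obtain ⟨he, hp⟩ := hR.init_e
  have hd : ∀ g : Edge n, deg (triangles n) Finset.univ g / refR (sigmaK n 0) - 1 = 0 := fun g => by
    rw [deg_univ, hr, div_self (by linarith), sub_self]
  have hD : ∀ g : Edge n, devD (triangles n) Finset.univ (refR (sigmaK n 0)) g = 0 := fun g => by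
    simp [devD, hd]
  refine ⟨?_, ?_, ?_, ?_, ?_⟩
  · rw [phaY, he, edgesN, Finset.card_univ, div_self]
    have := edgesN_eq (n := n)
    unfold edgesN at this
    rw [this]
    nlinarith
  · simp [phaMom, phaP, devP, avgOp, hD, hm0]
  · simp [phaMom, phaD, hD, hm0]
  · simp [phaMom, phaU, hd, hm0]
  · have hg : 1 ≤ phaGK n η (sigmaK n 0) := by linarith [hb.gK_lower.1, hb.C0]
    have hK : refK n (sigmaK n 0) = (n : ℝ) - 2 := by
      show refR (sigmaK n 0) * phaDens n (sigmaK n 0) = _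
      rw [hp, hr, mul_one]
    unfold phaMomK
    rw [div_le_one (pow_pos hb.n_pos 3)]
    refine (Finset.sum_le_card_nsmul _ _ 1 fun t ht => ?_).trans ?_
    · obtain ⟨-, h1, h2, h3⟩ := Finset.mem_filter.1 ht
      rw [codeg3_univ h1 h2 h3, hK, ← hm.pow_abs]
      refine pow_le_one₀ (abs_nonneg _) ?_
      rw [abs_div, abs_of_pos (by linarith : (0 : ℝ) < phaGK n η (sigmaK n 0)), div_le_one (by linarith)]
      rw [show ((n : ℝ) - 3 - ((n : ℝ) - 2)) = -1 by ring, abs_neg, abs_one]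
      exact hg
    · rw [nsmul_eq_mul, mul_one]; exact card_phaTriples n

lemma expY_le (hR : PhaRun η m C n K) (hm0 : m ≠ 0) (hm : Even m) {j : ℕ} (hj : j ≤ K) :
    kExp (triangles n) (phaGood n η) (stepH n) j (phaY n (sigmaK n j)) ≤ 2 := by
  have hn : (3 : ℝ) ≤ n := by exact_mod_cast hR.n3
  have h := pha_growth (good := phaGood n η) hR.h0 hR.hH
    (Φ := fun k => phaY n (sigmaK n k)) (src := fun _ _ => 0)
    (c := fun k => Real.sqrt (sigmaK n k) * (n : ℝ) ^ η * (stepH n * refR (sigmaK n k)))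
    (fun k A => ?_) (fun _ _ => le_rfl) j (fun k hk => hR.eps_nonneg (by omega))
    (fun k hk A hA => ?_)
  rotate_left
  · refine div_nonneg (Nat.cast_nonneg _) (mul_nonneg (Nat.cast_nonneg _) (Real.sqrt_nonneg _))
  · have := (pha_step_Y (hR.big k (by omega)) hA.1).1
    rw [← sigmaK_succ] at this
    rw [add_zero]
    exact this
  simp only [pha_kExp_zero, Finset.sum_const_zero, add_zero, (hR.init hm0 hm).1, mul_one] at h
  refine h.trans ?_
  have h1 : ∑ k ∈ Finset.range j,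
      Real.sqrt (sigmaK n k) * (n : ℝ) ^ η * (stepH n * refR (sigmaK n k)) ≤ 1 / 2 := by
    have := hR.sum_eps hj
    have := (hR.big j hj).eps1
    linarith
  refine (Real.exp_le_exp.2 h1).trans ?_
  have := Real.exp_one_lt_three
  have e : Real.exp (1 / 2) * Real.exp (1 / 2) = Real.exp 1 := by rw [← Real.exp_add]; norm_num
  nlinarith [Real.exp_pos (1 / 2 : ℝ)]

end PhaRun

lemma phaMom_nonneg (hm : Even m) {g e : ℝ} (he : 0 ≤ e) (w : Finset (Edge n) → Edge n → ℝ)
    (A : Finset (Edge n)) : 0 ≤ phaMom m g e w A :=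
  div_nonneg (Finset.sum_nonneg fun _ _ => hm.pow_nonneg _) he

lemma phaE_nonneg (n : ℕ) (σ : ℝ) : 0 ≤ phaE n σ :=
  mul_nonneg (Nat.cast_nonneg _) (Real.sqrt_nonneg _)

lemma phaY_nonneg (n : ℕ) (σ : ℝ) (A : Finset (Edge n)) : 0 ≤ phaY n σ A :=
  div_nonneg (Nat.cast_nonneg _) (phaE_nonneg n σ)

lemma phaMomK_nonneg (hm : Even m) (σ : ℝ) (A : Finset (Edge n)) : 0 ≤ phaMomK n m η σ A :=
  div_nonneg (Finset.sum_nonneg fun _ _ => hm.pow_nonneg _) (by positivity)

/-- A moment with a forcing of bounded expectation. -/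
lemma pha_tele_bound {K : ℕ} (hR : PhaRun η m C n K) {Φ Ψ : ℕ → Finset (Edge n) → ℝ} {B M : ℝ}
    (hB : 0 ≤ B) (hM : 0 ≤ M) (hΨ : ∀ k A, 0 ≤ Ψ k A) {j : ℕ} (hj : j ≤ K)
    (hΨE : ∀ k < j, kExp (triangles n) (phaGood n η) (stepH n) k (Ψ k) ≤ M)
    (hstep : ∀ k < j, ∀ A, phaGood n η k A → phaFree (triangles n) (stepH n) (Φ (k + 1)) A ≤
      Φ k A + B * (stepH n * refR (sigmaK n k)) * Ψ k A) :
    kExp (triangles n) (phaGood n η) (stepH n) j (Φ j) +
        ∑ k ∈ Finset.range j,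
          kExp (triangles n) (phaGood n η) (stepH n) k (fun A => phaBad (phaGood n η k) A * Φ k A) ≤
      Φ 0 Finset.univ + B * n * M := by
  classical
  have hr : ∀ k, 0 ≤ stepH n * refR (sigmaK n k) := fun k => by
    refine mul_nonneg hR.h0 ?_
    unfold refR sigmaK
    have hn : (3 : ℝ) ≤ n := by exact_mod_cast hR.n3
    have := hR.h0
    have : (0 : ℝ) < (n : ℝ) - 2 := by linarith
    positivity
  refine (pha_tele hR.h0 hR.hH (src := fun k A => B * (stepH n * refR (sigmaK n k)) * Ψ k A)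
    (fun k A => mul_nonneg (mul_nonneg hB (hr k)) (hΨ k A)) j hstep).trans
    (add_le_add le_rfl ?_)
  refine (Finset.sum_le_sum (g := fun k => B * M * (stepH n * refR (sigmaK n k))) fun k hk => ?_).trans ?_
  · rw [pha_kExp_smul]
    refine (mul_le_mul_of_nonneg_left (hΨE k (Finset.mem_range.1 hk)) (mul_nonneg hB (hr k))).trans_eq ?_
    ring
  · rw [← Finset.mul_sum]
    refine (mul_le_mul_of_nonneg_left (hR.sum_rh hj) (mul_nonneg hB hM)).trans_eq ?_
    ring

/-- The moments stay polynomial in `n`. -/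
lemma pha_moments (hm : Even m) (hm4 : 4 ≤ m)
    (hline : ∀ a b c : ℝ, -(a ^ (m - 1) * (b + c) + b ^ (m - 1) * (a + c) + c ^ (m - 1) * (a + b)) ≤
      (2 - 3 / m) * (a ^ m + b ^ m + c ^ m)) (hC : 0 < C) :
    ∃ B : ℝ, 0 ≤ B ∧ ∀ (n K : ℕ) (η : ℝ), PhaRun η m C n K →
      let E := kExp (triangles n) (phaGood n η) (stepH n)
      let U := fun k => phaMom m (phaGU (sigmaK n k)) (phaE n (sigmaK n k)) (phaU (sigmaK n k))
      let D := fun k => phaMom m (phaGD n η (sigmaK n k)) (phaE n (sigmaK n k)) (phaD (sigmaK n k))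
      let Z := fun k => phaMomK n m η (sigmaK n k)
      E K (U K) + ∑ k ∈ Finset.range K, E k (fun A => phaBad (phaGood n η k) A * U k A) ≤
          B * (n : ℝ) ^ 3 ∧
        E K (D K) ≤ B * (n : ℝ) ^ 3 ∧
        ∑ k ∈ Finset.range K, E k (fun A => phaBad (phaGood n η k) A * Z k A) ≤ B * (n : ℝ) ^ 3 := by
  obtain ⟨BP, hBP, hP⟩ := pha_step_P hm hm4 hline hC
  obtain ⟨BD, hBD, hD⟩ := pha_step_D hm hm4 hC
  obtain ⟨BU, hBU, hU⟩ := pha_step_U hm hm4 hC
  obtain ⟨BK, hBK, hK⟩ := pha_step_K hm hm4 hC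
  set B1 := BD * (BP * 2 + 2)
  have hB1 : 0 ≤ B1 := by positivity
  refine ⟨BU * (B1 + 2) + B1 + BK + 1, by positivity, ?_⟩
  intro n K η hR E U D Z
  have hm0 : m ≠ 0 := by omega
  obtain ⟨-, iP, iD, iU, iK⟩ := hR.init hm0 hm
  have hbad0 : ∀ k, ∀ A, 0 ≤ phaBad (phaGood n η k) A := fun k A => phaBad_nonneg _ _
  set P := fun k => phaMom m (phaGP n η (sigmaK n k)) (phaE n (sigmaK n k)) (phaP (sigmaK n k))
  have hn1 : (1 : ℝ) ≤ n := by exact_mod_cast (by have := hR.n3; omega : 1 ≤ n)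
  have hEP : ∀ j ≤ K, E j (P j) ≤ BP * n * 2 := by
    intro j hj
    have h := pha_tele_bound hR (Φ := P) (Ψ := fun k => phaY n (sigmaK n k)) hBP (M := 2) (by norm_num)
      (fun k A => phaY_nonneg n _ A) hj (fun k hk => hR.expY_le hm0 hm (by omega)) fun k hk A hA => by
        have he := hR.est k (by omega) A hA
        have := hP n η (sigmaK n k) A (hR.big k (by omega)) hA.1 (fun f hf => (he.1 f hf).2.2.1)
          (fun f hf T hT => ((he.1 f hf).2.2.2.1 T hT).2.2) (fun f hf => (he.1 f hf).2.2.2.2.2.2)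
        rw [← sigmaK_succ] at this
        exact this
    have h0 : 0 ≤ ∑ k ∈ Finset.range j, E k (fun A => phaBad (phaGood n η k) A * P k A) :=
      Finset.sum_nonneg fun k _ => pha_kExp_nonneg hR.h0 hR.hH k fun A =>
        mul_nonneg (hbad0 k A) (phaMom_nonneg hm (phaE_nonneg n _) _ A)
    rw [show P 0 Finset.univ = 0 from iP, zero_add] at h
    linarith
  have hEPY : ∀ k ≤ K, E k (fun A => P k A + phaY n (sigmaK n k) A) ≤ (BP * 2 + 2) * n := by
    intro k hk
    show kExp _ _ _ k _ ≤ _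
    rw [pha_kExp_add]
    have := hEP k hk
    have := hR.expY_le hm0 hm hk
    have : (2 : ℝ) ≤ 2 * n := by linarith
    linarith
  have hED : ∀ j ≤ K, E j (D j) ≤ B1 * (n : ℝ) ^ 2 := by
    intro j hj
    have h := pha_tele_bound hR (Φ := D) (Ψ := fun k A => P k A + phaY n (sigmaK n k) A) hBD
      (M := (BP * 2 + 2) * n) (by positivity)
      (fun k A => add_nonneg (phaMom_nonneg hm (phaE_nonneg n _) _ A) (phaY_nonneg n _ A)) hj
      (fun k hk => hEPY k (by omega)) fun k hk A hA => by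
        have he := hR.est k (by omega) A hA
        have := hD n η (sigmaK n k) A (hR.big k (by omega)) hA.1 (fun f hf => (he.1 f hf).2.1)
          (fun f hf T hT => ((he.1 f hf).2.2.2.1 T hT).2.1) (fun f hf => (he.1 f hf).2.2.2.2.2.1)
        rw [← sigmaK_succ] at this
        exact this
    have h0 : 0 ≤ ∑ k ∈ Finset.range j, E k (fun A => phaBad (phaGood n η k) A * D k A) :=
      Finset.sum_nonneg fun k _ => pha_kExp_nonneg hR.h0 hR.hH k fun A =>
        mul_nonneg (hbad0 k A) (phaMom_nonneg hm (phaE_nonneg n _) _ A)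
    rw [show D 0 Finset.univ = 0 from iD, zero_add] at h
    have e : BD * (n : ℝ) * ((BP * 2 + 2) * n) = B1 * (n : ℝ) ^ 2 := by simp only [B1]; ring
    linarith
  have hn2 : (1 : ℝ) ≤ (n : ℝ) ^ 2 := one_le_pow₀ hn1
  have hn23 : (n : ℝ) ^ 2 ≤ (n : ℝ) ^ 3 := pow_le_pow_right₀ hn1 (by norm_num)
  have hn3 : (n : ℝ) ≤ (n : ℝ) ^ 3 := le_self_pow₀ hn1 (by norm_num)
  have hU' : E K (U K) + ∑ k ∈ Finset.range K, E k (fun A => phaBad (phaGood n η k) A * U k A) ≤
      BU * (B1 + 2) * (n : ℝ) ^ 3 := by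
    have h := pha_tele_bound hR (Φ := U) (Ψ := fun k A => D k A + phaY n (sigmaK n k) A) hBU
      (M := (B1 + 2) * (n : ℝ) ^ 2) (by positivity)
      (fun k A => add_nonneg (phaMom_nonneg hm (phaE_nonneg n _) _ A) (phaY_nonneg n _ A)) le_rfl
      (fun k hk => by
        rw [pha_kExp_add]
        have := hED k (by omega)
        have := hR.expY_le hm0 hm (j := k) (by omega)
        linarith) fun k hk A hA => by
        have he := hR.est k hk A hA
        have := hU n η (sigmaK n k) A (hR.big k (by omega)) hA.1 (fun f hf => (he.1 f hf).1)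
          (fun f hf T hT => ((he.1 f hf).2.2.2.1 T hT).1) (fun f hf => (he.1 f hf).2.2.2.2.1)
        rw [← sigmaK_succ] at this
        exact this
    rw [show U 0 Finset.univ = 0 from iU, zero_add] at h
    exact h.trans (le_of_eq (by ring))
  have hZ : ∑ k ∈ Finset.range K, E k (fun A => phaBad (phaGood n η k) A * Z k A) ≤ 1 + BK * n := by
    have h := pha_tele_bound hR (Φ := Z) (Ψ := fun _ _ => 1) hBK (M := 1) zero_le_one
      (fun _ _ => zero_le_one) le_rfl (fun k _ => pha_kExp_one_le hR.h0 hR.hH k) fun k hk A hA => by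
        have he := hR.est k hk A hA
        have := hK n η (sigmaK n k) A (hR.big k (by omega)) he.2
        rw [← sigmaK_succ] at this
        rw [mul_one]
        exact this
    have h0 : 0 ≤ E K (Z K) := pha_kExp_nonneg hR.h0 hR.hH K fun A => phaMomK_nonneg hm _ A
    have h1 : Z 0 Finset.univ ≤ 1 := iK
    linarith
  have hp : 0 ≤ BU * (B1 + 2) * (n : ℝ) ^ 3 := by positivity
  have hp2 : 0 ≤ B1 * (n : ℝ) ^ 3 := by positivity
  have hp3 : 0 ≤ BK * (n : ℝ) ^ 3 := by positivity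
  have hp4 : (1 : ℝ) ≤ (n : ℝ) ^ 3 := one_le_pow₀ hn1
  refine ⟨?_, ?_, ?_⟩
  · linarith
  · have := hED K le_rfl
    have := mul_le_mul_of_nonneg_left hn23 hB1
    linarith
  · have := mul_le_mul_of_nonneg_left hn3 hBK
    linarith

end

end Vale.Agent.P046.Full
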