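import Mathlib
import Vale.Agent.P046.Full.Statements
import Vale.Agent.P046.Full.PhaseAMoments

/-!
# P046: the first phase of the process
-/

open Finset Filter
open scoped Topology

namespace Vale.Agent.P046.Full

open Vale.Agent.P046

noncomputable section

variable {n m : ℕ} {η C σ : ℝ} {A : Finset (Edge n)}

/-- The size of a moment at a forbidden state. -/
def phaThr (n m : ℕ) (η : ℝ) : ℝ := (n : ℝ) ^ (η * m) / (n : ℝ) ^ 3

namespace PhaBig

lemma phaE_le (hb : PhaBig η m C n σ) : phaE n σ ≤ (n : ℝ) ^ 3 := by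
  have h := hb.r_le_n
  have hd : (0 : ℝ) < (n : ℝ) - 2 := by linarith [hb.big]
  unfold phaE
  refine (mul_le_of_le_one_right (Nat.cast_nonneg _)
    (Real.sqrt_le_one.2 ((div_le_one hd).2 h))).trans (edgesN_le.trans ?_)
  exact pow_le_pow_right₀ (by linarith [hb.big]) (by norm_num)

lemma thr_le_mom (hb : PhaBig η m C n σ) (hm : Even m) {g : ℝ}
    (w : Finset (Edge n) → Edge n → ℝ) {f : Edge n} (hf : f ∈ A)
    (hv : (n : ℝ) ^ η ≤ |w A f / g|) : phaThr n m η ≤ phaMom m g (phaE n σ) w A := by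
  have he := phaE_pos (n := n) (by linarith [hb.big]) hb.sigma_pos
  have h1 : (n : ℝ) ^ (η * m) ≤ (w A f / g) ^ m := by
    rw [Real.rpow_mul hb.n_pos.le, Real.rpow_natCast, ← hm.pow_abs (w A f / g)]
    exact pow_le_pow_left₀ (Real.rpow_nonneg hb.n_pos.le _) hv m
  have h2 : (w A f / g) ^ m ≤ ∑ x ∈ A, (w A x / g) ^ m :=
    Finset.single_le_sum (f := fun x => (w A x / g) ^ m) (fun x _ => hm.pow_nonneg _) hf
  unfold phaThr phaMom
  exact (div_le_div₀ (Finset.sum_nonneg fun x _ => hm.pow_nonneg _) (h1.trans h2) he hb.phaE_le)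

lemma thr_le_U (hb : PhaBig η m C n σ) (hm : Even m) {f : Edge n} (hf : f ∈ A)
    (hu : Real.sqrt σ * (n : ℝ) ^ η < |phaU σ A f|) :
    phaThr n m η ≤ phaMom m (phaGU σ) (phaE n σ) (phaU σ) A := by
  refine hb.thr_le_mom hm _ hf ?_
  have hs : 0 < phaGU σ := Real.sqrt_pos.2 hb.sigma_pos
  rw [abs_div, abs_of_pos hs, le_div_iff₀ hs, mul_comm]
  exact hu.le

lemma thr_le_K (hb : PhaBig η m C n σ) (hm : Even m) {x y z : Fin n} (h1 : x ≠ y) (h2 : x ≠ z)
    (h3 : y ≠ z)
    (hK : (n : ℝ) ^ (3 * η) * (Real.sqrt (refK n σ + 1) + refK n σ * Real.sqrt σ) <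
      |codeg3 A x y z - refK n σ|) : phaThr n m η ≤ phaMomK n m η σ A := by
  have hg : 0 < phaGK n η σ := by linarith [hb.gK_lower.1, hb.C0]
  have hn := hb.n_pos
  have hv : (n : ℝ) ^ η ≤ |(codeg3 A x y z - refK n σ) / phaGK n η σ| := by
    rw [abs_div, abs_of_pos hg, le_div_iff₀ hg]
    refine le_trans ?_ hK.le
    have h2η : (n : ℝ) ^ η ≤ (n : ℝ) ^ (2 * η) := hb.pow_mono (by linarith [hb.η0])
    have e : (n : ℝ) ^ η * (n : ℝ) ^ (2 * η) = (n : ℝ) ^ (3 * η) := by
      rw [← Real.rpow_add hn]; congr 1; ring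
    rw [← e, mul_assoc ((n : ℝ) ^ η)]
    refine mul_le_mul_of_nonneg_left ?_ (Real.rpow_nonneg hn.le _)
    unfold phaGK
    have := mul_le_mul_of_nonneg_left h2η (Real.sqrt_nonneg (refK n σ + 1))
    linarith
  have h4 : (n : ℝ) ^ (η * m) ≤ ((codeg3 A x y z - refK n σ) / phaGK n η σ) ^ m := by
    rw [Real.rpow_mul hn.le, Real.rpow_natCast, ← hm.pow_abs ((_ - _) / _)]
    exact pow_le_pow_left₀ (Real.rpow_nonneg hn.le _) hv m
  unfold phaThr phaMomK
  refine div_le_div_of_nonneg_right (h4.trans ?_) (by positivity)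
  exact Finset.single_le_sum
    (f := fun t : Fin n × Fin n × Fin n => ((codeg3 A t.1 t.2.1 t.2.2 - refK n σ) / phaGK n η σ) ^ m)
    (fun t _ => hm.pow_nonneg _) (a := (x, y, z)) (by simp [phaTriples, h1, h2, h3])

lemma thr_le_D (hb : PhaBig η m C n σ) (hm : Even m) (hσ3 : 1 ≤ (n : ℝ) * σ ^ 3) {f : Edge n} (hf : f ∈ A)
    (hD : σ * (n : ℝ) ^ (10 * η) < |phaD σ A f|) :
    phaThr n m η ≤ phaMom m (phaGD n η σ) (phaE n σ) (phaD σ) A := by
  refine hb.thr_le_mom hm _ hf ?_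
  have hσ := hb.sigma_pos
  have hn := hb.n_pos
  have hg : 0 < phaGD n η σ := lt_of_lt_of_le (lt_of_lt_of_le hσ hb.sigma_le_gP) hb.gP_le_gD
  have h1 : Real.sqrt (Real.sqrt (σ / (n : ℝ))) ≤ σ := by
    rw [Real.sqrt_le_iff]
    refine ⟨hσ.le, ?_⟩
    rw [Real.sqrt_le_iff]
    refine ⟨sq_nonneg σ, ?_⟩
    rw [div_le_iff₀ hn]
    have := mul_le_mul_of_nonneg_left hσ3 hσ.le
    linarith
  have h8 := hb.one_le_pow (show 0 ≤ 8 * η by linarith [hb.η0])
  have h2 : phaGD n η σ ≤ 2 * (σ * (n : ℝ) ^ (8 * η)) := by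
    unfold phaGD
    have := mul_le_mul_of_nonneg_left h8 hσ.le
    linarith
  have hη2 : (2 : ℝ) ≤ (n : ℝ) ^ η := by linarith [hb.pw, hb.C0]
  rw [abs_div, abs_of_pos hg, le_div_iff₀ hg]
  refine le_trans ?_ hD.le
  refine (mul_le_mul_of_nonneg_left h2 (Real.rpow_nonneg hn.le _)).trans ?_
  have e : (n : ℝ) ^ η * (n : ℝ) ^ η * (n : ℝ) ^ (8 * η) = (n : ℝ) ^ (10 * η) := by
    rw [← Real.rpow_add hn, ← Real.rpow_add hn]; congr 1; ring
  rw [← e]
  have h0 : 0 ≤ σ * ((n : ℝ) ^ η * (n : ℝ) ^ (8 * η)) :=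
    mul_nonneg hσ.le (mul_nonneg (Real.rpow_nonneg hn.le _) (Real.rpow_nonneg hn.le _))
  have := mul_le_mul_of_nonneg_right hη2 h0
  linarith

end PhaBig

/-- The lost mass and the irregular states. -/
lemma pha_failure {K : ℕ} (hR : PhaRun η m C n K) (hm : Even m) {M : ℝ}
    (hσ3 : 1 ≤ (n : ℝ) * sigmaK n K ^ 3)
    (hU : kExp (triangles n) (phaGood n η) (stepH n) K
        (phaMom m (phaGU (sigmaK n K)) (phaE n (sigmaK n K)) (phaU (sigmaK n K))) +
      ∑ k ∈ Finset.range K, kExp (triangles n) (phaGood n η) (stepH n) k (fun A =>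
        phaBad (phaGood n η k) A *
          phaMom m (phaGU (sigmaK n k)) (phaE n (sigmaK n k)) (phaU (sigmaK n k)) A) ≤ M)
    (hD : kExp (triangles n) (phaGood n η) (stepH n) K
      (phaMom m (phaGD n η (sigmaK n K)) (phaE n (sigmaK n K)) (phaD (sigmaK n K))) ≤ M)
    (hZ : ∑ k ∈ Finset.range K, kExp (triangles n) (phaGood n η) (stepH n) k (fun A =>
        phaBad (phaGood n η k) A * phaMomK n m η (sigmaK n k) A) ≤ M) :
    1 - kExp (triangles n) (phaGood n η) (stepH n) K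
        (open Classical in fun A => if Regular (triangles n) A (refR (sigmaK n K))
            (Real.sqrt (sigmaK n K) * (n : ℝ) ^ η) (sigmaK n K * (n : ℝ) ^ (10 * η))
          then 1 else 0) ≤ 3 * M / phaThr n m η := by
  classical
  set E := kExp (triangles n) (phaGood n η) (stepH n)
  set c0 := phaThr n m η with hc
  have hn := (hR.big 0 (Nat.zero_le _)).n_pos
  have hc0 : 0 < c0 := div_pos (Real.rpow_pos_of_pos hn _) (pow_pos hn 3)
  set ind := fun A : Finset (Edge n) => if Regular (triangles n) A (refR (sigmaK n K))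
      (Real.sqrt (sigmaK n K) * (n : ℝ) ^ η) (sigmaK n K * (n : ℝ) ^ (10 * η))
    then (1 : ℝ) else 0 with hind
  have hb1 : ∀ k < K, E k (fun A => c0 * phaBad (phaGood n η k) A) ≤
      E k (fun A => phaBad (phaGood n η k) A *
          phaMom m (phaGU (sigmaK n k)) (phaE n (sigmaK n k)) (phaU (sigmaK n k)) A +
        phaBad (phaGood n η k) A * phaMomK n m η (sigmaK n k) A) := fun k hk =>
    pha_kExp_mono hR.h0 hR.hH k fun A => by
      by_cases hg : phaGood n η k A
      · simp [phaBad, hg]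
      have hb := hR.big k hk.le
      simp only [phaBad, hg, if_false, mul_one, one_mul]
      have hU0 := phaMom_nonneg hm (phaE_nonneg n (sigmaK n k)) (g := phaGU (sigmaK n k))
        (phaU (sigmaK n k)) A
      have hZ0 := phaMomK_nonneg (η := η) hm (sigmaK n k) A
      simp only [phaGood, GoodState, not_and_or, not_forall, not_le] at hg
      rcases hg with ⟨f, hf, hu⟩ | ⟨x, y, z, h1, h2, h3, hKv⟩
      · have := hb.thr_le_U hm hf hu
        linarith
      · have := hb.thr_le_K hm h1 h2 h3 hKv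
        linarith
  have hb2 : E K (fun A => c0 * (1 - ind A)) ≤
      E K (fun A => phaMom m (phaGU (sigmaK n K)) (phaE n (sigmaK n K)) (phaU (sigmaK n K)) A +
        phaMom m (phaGD n η (sigmaK n K)) (phaE n (sigmaK n K)) (phaD (sigmaK n K)) A) :=
    pha_kExp_mono hR.h0 hR.hH K fun A => by
      have hb := hR.big K le_rfl
      have hU0 := phaMom_nonneg hm (phaE_nonneg n (sigmaK n K)) (g := phaGU (sigmaK n K))
        (phaU (sigmaK n K)) A
      have hD0 := phaMom_nonneg hm (phaE_nonneg n (sigmaK n K)) (g := phaGD n η (sigmaK n K))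
        (phaD (sigmaK n K)) A
      by_cases hg : Regular (triangles n) A (refR (sigmaK n K))
          (Real.sqrt (sigmaK n K) * (n : ℝ) ^ η) (sigmaK n K * (n : ℝ) ^ (10 * η))
      · simp only [hind, if_pos hg, sub_self, mul_zero]
        positivity
      simp only [hind, if_neg hg, sub_zero, mul_one]
      simp only [Regular, not_forall, not_and_or, not_le] at hg
      obtain ⟨f, hf, hu | hd⟩ := hg
      · have := hb.thr_le_U hm hf hu
        linarith
      · have := hb.thr_le_D hm hσ3 hf hd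
        linarith
  have hexit := pha_exit (H := triangles n) (good := phaGood n η) (h := stepH n) K
  have s1 := Finset.sum_le_sum (s := Finset.range K) fun k hk => hb1 k (Finset.mem_range.1 hk)
  simp only [E, pha_kExp_add, pha_kExp_smul, Finset.sum_add_distrib, ← Finset.mul_sum] at s1
  rw [← hexit] at s1
  simp only [E, pha_kExp_add, pha_kExp_smul, pha_kExp_sub] at hb2
  rw [le_div_iff₀ hc0]
  linarith

/-- The second moment of the number of live edges. -/
lemma pha_count {K : ℕ} (hR : PhaRun η m C n K) (hm0 : m ≠ 0) (hm : Even m) {z x : ℝ}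
    (hz : Real.sqrt (sigmaK n K) * (n : ℝ) ^ η ≤ z)
    (hx : 1 - kExp (triangles n) (phaGood n η) (stepH n) K (fun _ => 1) ≤ x) :
    kExp (triangles n) (phaGood n η) (stepH n) K (fun A => (phaY n (sigmaK n K) A - 1) ^ 2) ≤
      Real.exp (3 * z) * (1 + 192 / Real.sqrt n) - 2 * (1 - 6 * z - n * x) + 1 := by
  have hn3 : (3 : ℝ) ≤ n := by exact_mod_cast hR.n3
  set E := kExp (triangles n) (phaGood n η) (stepH n)
  set c := fun k => Real.sqrt (sigmaK n k) * (n : ℝ) ^ η * (stepH n * refR (sigmaK n k))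
  have hc : ∀ k < K, 0 ≤ c k := fun k hk => hR.eps_nonneg hk.le
  have hcs : ∑ k ∈ Finset.range K, c k ≤ 3 / 2 * z := (hR.sum_eps le_rfl).trans (by linarith)
  have hY1 : phaY n (sigmaK n 0) (Finset.univ : Finset (Edge n)) = 1 := (hR.init hm0 hm).1
  have hdens : ∀ k ≤ K, 1 / Real.sqrt (2 * n) ≤ phaDens n (sigmaK n k) := fun k hk => by
    rw [one_div, ← Real.sqrt_inv]
    refine Real.sqrt_le_sqrt ?_
    rw [← one_div, div_le_div_iff₀ (by positivity) (by linarith)]
    have := (hR.big k hk).half_le_r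
    nlinarith
  have hN : (n : ℝ) ^ 2 / 4 ≤ edgesN n := by rw [edgesN_eq]; nlinarith
  have hsn : 0 < Real.sqrt n := Real.sqrt_pos.2 (by linarith)
  have hinv : ∀ k ≤ K, 24 / phaE n (sigmaK n k) ≤ 192 / Real.sqrt n / n := fun k hk => by
    have he : (n : ℝ) ^ 2 / 4 * (1 / Real.sqrt (2 * n)) ≤ phaE n (sigmaK n k) :=
      mul_le_mul hN (hdens k hk) (by positivity) (Nat.cast_nonneg _)
    refine (div_le_div_of_nonneg_left (by norm_num) (by positivity) he).trans ?_
    have h2 : Real.sqrt (2 * n) ≤ 2 * Real.sqrt n := by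
      rw [Real.sqrt_le_iff]
      refine ⟨by positivity, ?_⟩
      rw [mul_pow, Real.sq_sqrt (by linarith)]
      linarith
    rw [div_div, div_le_div_iff₀ (by positivity) (by positivity), mul_one_div, ← mul_div_assoc,
      le_div_iff₀ (Real.sqrt_pos.2 (by positivity))]
    have h3 := mul_le_mul_of_nonneg_left h2 (show (0:ℝ) ≤ 24 * (Real.sqrt n * n) by positivity)
    have h4 : Real.sqrt n * Real.sqrt n = n := Real.mul_self_sqrt (by linarith)
    nlinarith
  have hup := pha_growth (good := phaGood n η) hR.h0 hR.hH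
    (Φ := fun k A => phaY n (sigmaK n k) A ^ 2)
    (src := fun k A => 12 * (stepH n * |refR (sigmaK n k)|) / phaE n (sigmaK n k) * phaY n (sigmaK n k) A)
    (c := fun k => 2 * c k) (fun k A => sq_nonneg _)
    (fun k A => mul_nonneg (div_nonneg (mul_nonneg (by norm_num) (mul_nonneg hR.h0 (abs_nonneg _)))
      (phaE_nonneg n _)) (phaY_nonneg n _ A)) K (fun k hk => by have := hc k hk; linarith)
    (fun k hk A hA => by
      have := (pha_step_Y (hR.big k hk.le) hA.1).2.2
      rw [← sigmaK_succ] at this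
      rw [abs_of_pos (hR.big k hk.le).r_pos]
      exact this)
  have hsrc : ∑ k ∈ Finset.range K, E k (fun A =>
      12 * (stepH n * |refR (sigmaK n k)|) / phaE n (sigmaK n k) * phaY n (sigmaK n k) A) ≤
      192 / Real.sqrt n := by
    refine (Finset.sum_le_sum (g := fun k => stepH n * refR (sigmaK n k) * (192 / Real.sqrt n / n))
      fun k hk => ?_).trans ?_
    · have hk' : k ≤ K := (Finset.mem_range.1 hk).le
      simp only [E, pha_kExp_smul]
      rw [abs_of_pos (hR.big k hk').r_pos]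
      have hy : 0 ≤ stepH n * refR (sigmaK n k) := mul_nonneg hR.h0 (hR.big k hk').r_pos.le
      refine (mul_le_mul_of_nonneg_left (hR.expY_le hm0 hm hk')
        (div_nonneg (by positivity) (phaE_nonneg n _))).trans ?_
      refine le_trans (le_of_eq ?_) (mul_le_mul_of_nonneg_left (hinv k hk') hy)
      ring
    · rw [← Finset.sum_mul]
      refine (mul_le_mul_of_nonneg_right (hR.sum_rh le_rfl) (by positivity)).trans_eq ?_
      field_simp
  have h2 : E K (fun A => phaY n (sigmaK n K) A ^ 2) ≤ Real.exp (3 * z) * (1 + 192 / Real.sqrt n) := by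
    refine hup.trans ?_
    rw [← Finset.mul_sum, hY1, one_pow]
    have h0 : 0 ≤ ∑ k ∈ Finset.range K, E k (fun A =>
        12 * (stepH n * |refR (sigmaK n k)|) / phaE n (sigmaK n k) * phaY n (sigmaK n k) A) :=
      Finset.sum_nonneg fun k _ => pha_kExp_nonneg hR.h0 hR.hH k fun A =>
        mul_nonneg (div_nonneg (mul_nonneg (by norm_num) (mul_nonneg hR.h0 (abs_nonneg _)))
          (phaE_nonneg n _)) (phaY_nonneg n _ A)
    exact mul_le_mul (Real.exp_le_exp.2 (by linarith)) (by linarith) (by linarith) (Real.exp_pos _).le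
  have hlow := pha_lower (good := phaGood n η) hR.h0 hR.hH (Φ := fun k => phaY n (sigmaK n k))
    (c := fun k => 2 * c k) (M := (n : ℝ)) K (fun k hk => by have := hc k hk; linarith)
    (fun k A => phaY_nonneg n _ A)
    (fun k hk A => by
      have hd := hdens k hk.le
      have he : 0 < phaE n (sigmaK n k) := phaE_pos hn3 (hR.big k hk.le).sigma_pos
      rw [phaY, div_le_iff₀ he]
      refine (card_le_edgesN A).trans ?_
      rw [phaE_eq, mul_left_comm]
      refine le_mul_of_one_le_right (Nat.cast_nonneg _) ?_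
      have h3 : Real.sqrt (2 * n) ≤ n := by
        rw [Real.sqrt_le_iff]; constructor <;> nlinarith
      have h4 := mul_le_mul_of_nonneg_left hd (show (0:ℝ) ≤ n by linarith)
      refine le_trans ?_ h4
      rw [mul_one_div, one_le_div (Real.sqrt_pos.2 (by positivity))]
      exact h3)
    (fun k hk A hA => by
      have := (pha_step_Y (hR.big k hk.le) hA.1).2.1
      rw [← sigmaK_succ] at this
      exact this)
  have hc2 : ∑ k ∈ Finset.range K, 2 * c k * E k (phaY n (sigmaK n k)) ≤ 6 * z := by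
    refine (Finset.sum_le_sum (g := fun k => 2 * c k * 2) fun k hk => mul_le_mul_of_nonneg_left
      (hR.expY_le hm0 hm (Finset.mem_range.1 hk).le) ?_).trans ?_
    · have := hc k (Finset.mem_range.1 hk); linarith
    · rw [← Finset.sum_mul, ← Finset.mul_sum]
      linarith
  rw [hY1] at hlow
  have hone := pha_kExp_one_le (good := phaGood n η) hR.h0 hR.hH K
  have e : (fun A : Finset (Edge n) => (phaY n (sigmaK n K) A - 1) ^ 2) =
      fun A => phaY n (sigmaK n K) A ^ 2 + ((-2) * phaY n (sigmaK n K) A + 1) := by funext A; ring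
  show kExp _ _ _ K _ ≤ _
  rw [e, pha_kExp_add, pha_kExp_add, pha_kExp_smul]
  have := mul_le_mul_of_nonneg_left hx (show (0:ℝ) ≤ n by linarith)
  linarith

lemma pha_survive {K : ℕ} (hR : PhaRun η m C n K) {z : ℝ}
    (hz : Real.sqrt (sigmaK n K) * (n : ℝ) ^ η ≤ z) (hlen : (K : ℝ) * stepH n ≤ z)
    (S : Finset (Edge n)) (hS : 3 / 2 * (S.card : ℝ) * z + (S.card : ℝ) ^ 2 * z ≤ 1 / 2) :
    kExp (triangles n) (phaGood n η) (stepH n) K (fun A => if S ⊆ A then 1 else 0) ≤
      2 * phaDens n (sigmaK n K) ^ S.card := by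
  have hn3 : (3 : ℝ) ≤ n := by exact_mod_cast hR.n3
  have hp := phaDens_pos hn3 (hR.big K le_rfl).sigma_pos
  have h := pha_growth (good := phaGood n η) hR.h0 hR.hH (Φ := fun k => phaS S (sigmaK n k))
    (src := fun _ _ => 0)
    (c := fun k => (S.card : ℝ) * (Real.sqrt (sigmaK n k) * (n : ℝ) ^ η * (stepH n * refR (sigmaK n k))) +
      stepH n * (S.card : ℝ) ^ 2)
    (fun k A => div_nonneg (by split_ifs <;> norm_num) (pow_nonneg (Real.sqrt_nonneg _) _))
    (fun _ _ => le_rfl) K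
    (fun k hk => add_nonneg (mul_nonneg (Nat.cast_nonneg _) (hR.eps_nonneg hk.le))
      (mul_nonneg hR.h0 (sq_nonneg _)))
    (fun k hk A hA => by
      have := pha_step_S (hR.big k hk.le) hA.1 S
      rw [← sigmaK_succ] at this
      rw [add_zero]
      exact this)
  have h0 : phaS S (sigmaK n 0) (Finset.univ : Finset (Edge n)) = 1 := by
    simp [phaS, (hR.init_e).2]
  simp only [pha_kExp_zero, Finset.sum_const_zero, add_zero, h0, mul_one] at h
  have hf : phaS S (sigmaK n K) =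
      fun A => (phaDens n (sigmaK n K) ^ S.card)⁻¹ * if S ⊆ A then 1 else 0 := by
    funext A; rw [phaS, div_eq_inv_mul]
  rw [hf, pha_kExp_smul, inv_mul_le_iff₀ (pow_pos hp _), mul_comm _ (Real.exp _)] at h
  refine h.trans (mul_le_mul_of_nonneg_right ?_ (pow_nonneg hp.le _))
  refine (Real.exp_le_exp.2 (?_ : _ ≤ (1 / 2 : ℝ))).trans ?_
  · rw [Finset.sum_add_distrib, ← Finset.mul_sum, Finset.sum_const, Finset.card_range, nsmul_eq_mul]
    have h1 := mul_le_mul_of_nonneg_left (hR.sum_eps le_rfl) (Nat.cast_nonneg (α := ℝ) S.card)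
    have h2 := mul_le_mul_of_nonneg_left hz (Nat.cast_nonneg (α := ℝ) S.card)
    have h3 := mul_le_mul_of_nonneg_right hlen (sq_nonneg (S.card : ℝ))
    linarith
  · have := Real.exp_one_lt_three
    have e : Real.exp (1 / 2) * Real.exp (1 / 2) = Real.exp 1 := by rw [← Real.exp_add]; norm_num
    nlinarith [Real.exp_pos (1 / 2 : ℝ)]

lemma pha_pow_mul_step {θ : ℝ} (hn : (0 : ℝ) < n) :
    (n : ℝ) ^ (20 - θ) * stepH n = (n : ℝ) ^ (-θ) := by
  rw [stepH, mul_one_div, ← Real.rpow_natCast (n : ℝ) 20, ← Real.rpow_sub hn]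
  congr 1
  push_cast
  ring

/-- Phase A. -/
theorem phaseA (hE : EstimateStmt) : PhaseAStmt := by
  classical
  intro θ η hη hθη hθ L₀ δ hδ
  obtain ⟨C, hC, hest⟩ := hE
  obtain ⟨N₀, hN₀⟩ := Filter.eventually_atTop.1 (exists_line_moment 3 (by norm_num))
  obtain ⟨m, hm, hm4, hηm, hmN⟩ : ∃ m : ℕ, Even m ∧ 4 ≤ m ∧ 30 ≤ η * m ∧ N₀ ≤ m := by
    refine ⟨2 * (N₀ + ⌈30 / η⌉₊ + 2), even_two_mul _, by omega, ?_, by omega⟩
    have h := Nat.le_ceil (30 / η)
    rw [div_le_iff₀ hη] at h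
    have h2 : 0 ≤ η * ((N₀ : ℝ) * 2 + (⌈30 / η⌉₊ : ℝ) + 4) := by positivity
    push_cast
    linarith
  have hm0 : m ≠ 0 := by omega
  obtain ⟨B, hB, hmom⟩ := pha_moments hm hm4 (hN₀ m hmN hm) hC
  have hθ0 : 0 < θ := by linarith
  have t0 : ∀ a : ℝ, 0 < a → Tendsto (fun n : ℕ => (n : ℝ) ^ (-a)) atTop (𝓝 0) := fun a ha =>
    (tendsto_rpow_neg_atTop ha).comp tendsto_natCast_atTop_atTop
  set z : ℕ → ℝ := fun n => Real.sqrt 2 * (n : ℝ) ^ (-(θ / 2 - η)) with hzdef
  have tz : Tendsto z atTop (𝓝 0) := by simpa using (t0 _ (by linarith)).const_mul (Real.sqrt 2)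
  have t8 : Tendsto (fun n : ℕ => Real.sqrt 2 * (n : ℝ) ^ (-(θ / 2 - 8 * η))) atTop (𝓝 0) := by
    simpa using (t0 (θ / 2 - 8 * η) (by linarith)).const_mul (Real.sqrt 2)
  have tq : Tendsto (fun n : ℕ => Real.exp (3 * z n) * (1 + 192 / Real.sqrt n) -
      2 * (1 - 6 * z n - (n : ℝ) * (1 / (n : ℝ) ^ 10)) + 1) atTop (𝓝 0) := by
    have a1 : Tendsto (fun n : ℕ => 192 / Real.sqrt n) atTop (𝓝 0) := by
      refine ((t0 (1 / 2) (by norm_num)).const_mul 192).congr' ?_ |>.trans (by simp)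
      filter_upwards with n
      rw [Real.rpow_neg (Nat.cast_nonneg n), ← Real.sqrt_eq_rpow, div_eq_mul_inv]
    have a2 : Tendsto (fun n : ℕ => (n : ℝ) * (1 / (n : ℝ) ^ 10)) atTop (𝓝 0) := by
      refine squeeze_zero' (Eventually.of_forall fun n => by positivity) ?_
        (tendsto_one_div_atTop_nhds_zero_nat (𝕜 := ℝ))
      filter_upwards [eventually_ge_atTop 1] with n hn
      have h1 : (1 : ℝ) ≤ n := by exact_mod_cast hn
      rw [mul_one_div, div_le_div_iff₀ (by positivity) (by positivity), one_mul, ← sq]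
      exact pow_le_pow_right₀ h1 (by norm_num)
    have := ((((tz.const_mul 3).rexp).mul (a1.const_add 1)).sub
      (((tz.const_mul 6).const_sub 1).sub a2 |>.const_mul 2)).add_const 1
    refine this.trans ?_
    norm_num
  have he1 : ∀ᶠ n : ℕ in atTop, 4 * (C + 1) ≤ (n : ℝ) ^ η :=
    ((tendsto_rpow_atTop hη).comp tendsto_natCast_atTop_atTop).eventually_ge_atTop _
  have he2 := t8.eventually_le_const
    (show (0 : ℝ) < 1 / (32 * ((m : ℝ) + 1) * (C + 1)) by positivity)
  have he3 := tz.eventually_le_const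
    (show (0 : ℝ) < 1 / (4 * ((L₀ : ℝ) ^ 2 + 2 * L₀ + 1)) by positivity)
  have he4 := tq.eventually_le_const hδ
  have he5 := tendsto_natCast_atTop_atTop.eventually_ge_atTop (10 ^ 8 + (m : ℝ) + 3 * B)
  filter_upwards [hest θ η hη hθη hθ, he1, he2, he3, he4, he5] with n hn_est hn1 hn2 hn3 hn4 hn5
  have hbig : (10 : ℝ) ^ 8 ≤ n := by linarith [Nat.cast_nonneg (α := ℝ) m]
  have hmn : (m : ℝ) ≤ n := by linarith
  have hn0 : (0 : ℝ) < n := by linarith
  have h1n : (1 : ℝ) ≤ n := by linarith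
  set K := stepsK θ n with hKdef
  have hh : 0 ≤ stepH n := by unfold stepH; positivity
  have hKh : (K : ℝ) * stepH n ≤ (n : ℝ) ^ (-θ) :=
    (mul_le_mul_of_nonneg_right (Nat.floor_le (Real.rpow_nonneg hn0.le _)) hh).trans_eq
      (pha_pow_mul_step hn0)
  have hθn : 1 / (2 * ((n : ℝ) - 2)) ≤ (n : ℝ) ^ (-θ) := by
    rw [Real.rpow_neg hn0.le, ← one_div]
    refine one_div_le_one_div_of_le (Real.rpow_pos_of_pos hn0 _) ?_
    refine (Real.rpow_le_rpow_of_exponent_le h1n (show θ ≤ 1 by linarith)).trans ?_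
    rw [Real.rpow_one]
    linarith
  have hσK : ∀ k ≤ K, sigmaK n k ≤ 2 * (n : ℝ) ^ (-θ) := fun k hk => by
    have : (k : ℝ) * stepH n ≤ (K : ℝ) * stepH n :=
      mul_le_mul_of_nonneg_right (by exact_mod_cast hk) hh
    unfold sigmaK
    linarith
  have hσlo : ∀ k, 1 / (2 * ((n : ℝ) - 2)) ≤ sigmaK n k := fun k => by
    unfold sigmaK
    have : 0 ≤ (k : ℝ) * stepH n := mul_nonneg (Nat.cast_nonneg k) hh
    linarith
  have hsqrt : ∀ k ≤ K, ∀ a : ℝ, Real.sqrt (sigmaK n k) * (n : ℝ) ^ a ≤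
      Real.sqrt 2 * (n : ℝ) ^ (-(θ / 2 - a)) := fun k hk a => by
    refine (mul_le_mul_of_nonneg_right (Real.sqrt_le_sqrt (hσK k hk)) (Real.rpow_nonneg hn0.le _)).trans_eq ?_
    rw [Real.sqrt_mul (by norm_num), Real.sqrt_eq_rpow ((n : ℝ) ^ (-θ)), ← Real.rpow_mul hn0.le,
      mul_assoc, ← Real.rpow_add hn0]
    congr 2
    ring
  have hR : PhaRun η m C n K := by
    refine ⟨fun k hk => ⟨hη, hC, hbig, hmn, hn1, hσlo k, (hsqrt k hk (8 * η)).trans hn2⟩,
      hKh.trans (Real.rpow_le_one_of_one_le_of_nonpos h1n (by linarith)), fun k hk A hA => ?_⟩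
    refine hn_est (sigmaK n k) (hσlo k) ?_ A hA
    refine (hσK k hk.le).trans (le_of_eq ?_)
    rw [Real.rpow_neg hn0.le, div_eq_mul_inv]
  have hsigK : 1 ≤ (n : ℝ) * sigmaK n K ^ 3 := by
    have h1 : (n : ℝ) ^ (-θ) / 2 ≤ sigmaK n K := by
      have h2 := mul_le_mul_of_nonneg_right (Nat.lt_floor_add_one ((n : ℝ) ^ (20 - θ))).le hh
      rw [pha_pow_mul_step hn0] at h2
      have h3 : stepH n ≤ (n : ℝ) ^ (-θ) / 2 := by
        have h4 : (n : ℝ) ^ (-(1 : ℝ)) ≤ (n : ℝ) ^ (-θ) :=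
          Real.rpow_le_rpow_of_exponent_le h1n (by linarith)
        rw [Real.rpow_neg hn0.le, Real.rpow_one, ← one_div] at h4
        refine le_trans ?_ (div_le_div_of_nonneg_right h4 two_pos.le)
        unfold stepH
        rw [div_div]
        refine one_div_le_one_div_of_le (by positivity) ?_
        have : (n : ℝ) ^ 2 ≤ (n : ℝ) ^ 20 := pow_le_pow_right₀ h1n (by norm_num)
        nlinarith
      have h5 : 0 ≤ 1 / (2 * ((n : ℝ) - 2)) := by
        have : (0 : ℝ) < (n : ℝ) - 2 := by linarith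
        positivity
      unfold sigmaK
      show _ ≤ ((stepsK θ n : ℕ) : ℝ) * stepH n + _
      unfold stepsK
      linarith
    have h6 := pow_le_pow_left₀ (by positivity) h1 3
    have h7 : (8 : ℝ) ≤ (n : ℝ) ^ (1 - 3 * θ) := by
      have h8 : (n : ℝ) ^ ((1 : ℝ) / 4) ≤ (n : ℝ) ^ (1 - 3 * θ) :=
        Real.rpow_le_rpow_of_exponent_le h1n (by linarith)
      refine le_trans ?_ h8
      have h9 : ((8 : ℝ) ^ 4) ^ ((1 : ℝ) / 4) ≤ (n : ℝ) ^ ((1 : ℝ) / 4) :=
        Real.rpow_le_rpow (by norm_num) (by linarith) (by norm_num)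
      rwa [← Real.rpow_natCast (8 : ℝ) 4, ← Real.rpow_mul (by norm_num),
        show ((4 : ℕ) : ℝ) * (1 / 4) = 1 by norm_num, Real.rpow_one] at h9
    have e : (n : ℝ) * ((n : ℝ) ^ (-θ) / 2) ^ 3 = (n : ℝ) ^ (1 - 3 * θ) / 8 := by
      rw [div_pow, ← Real.rpow_natCast _ 3, ← Real.rpow_mul hn0.le, ← mul_div_assoc]
      nth_rewrite 1 [← Real.rpow_one (n : ℝ)]
      rw [← Real.rpow_add hn0]
      congr 1
      · congr 1; push_cast; ring
      · norm_num
    have := mul_le_mul_of_nonneg_left h6 hn0.le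
    linarith
  have hz : Real.sqrt (sigmaK n K) * (n : ℝ) ^ η ≤ z n := hsqrt K le_rfl η
  have hlenz : (K : ℝ) * stepH n ≤ z n := by
    refine hKh.trans (le_trans ?_ (le_mul_of_one_le_left (Real.rpow_nonneg hn0.le _)
      (Real.one_le_sqrt.2 one_le_two)))
    exact Real.rpow_le_rpow_of_exponent_le h1n (by linarith)
  obtain ⟨hU, hD, hZ⟩ := hmom n K η hR
  have hfail := pha_failure hR hm hsigK hU hD hZ
  have hfail2 : 3 * (B * (n : ℝ) ^ 3) / phaThr n m η ≤ 1 / (n : ℝ) ^ 10 := by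
    unfold phaThr
    rw [div_div_eq_mul_div, div_le_div_iff₀ (Real.rpow_pos_of_pos hn0 _) (pow_pos hn0 10), one_mul]
    have h30 : (n : ℝ) ^ 30 ≤ (n : ℝ) ^ (η * m) := by
      rw [← Real.rpow_natCast (n : ℝ) 30]
      exact Real.rpow_le_rpow_of_exponent_le h1n (by push_cast; exact hηm)
    have h3 : 3 * B ≤ (n : ℝ) := by linarith [Nat.cast_nonneg (α := ℝ) m]
    have h17 : (n : ℝ) ^ 17 ≤ (n : ℝ) ^ 30 := pow_le_pow_right₀ h1n (by norm_num)
    have := mul_le_mul_of_nonneg_right h3 (show (0:ℝ) ≤ (n : ℝ) ^ 16 by positivity)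
    linarith
  refine ⟨phaGood n η, hfail.trans hfail2, fun S hS => ?_, ?_⟩
  · refine pha_survive hR hz hlenz S ?_
    have h1 : (S.card : ℝ) ≤ L₀ := by exact_mod_cast hS
    have h2 : 3 / 2 * (S.card : ℝ) + (S.card : ℝ) ^ 2 ≤ 2 * ((L₀ : ℝ) ^ 2 + 2 * L₀ + 1) := by
      have := pow_le_pow_left₀ (Nat.cast_nonneg (α := ℝ) S.card) h1 2
      linarith [sq_nonneg (L₀ : ℝ), Nat.cast_nonneg (α := ℝ) L₀]
    have h3 : 0 ≤ z n := (mul_nonneg (Real.sqrt_nonneg _) (Real.rpow_nonneg hn0.le _)).trans hz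
    have h4 := mul_le_mul h2 hn3 h3 (by positivity)
    have h5 : 2 * ((L₀ : ℝ) ^ 2 + 2 * L₀ + 1) * (1 / (4 * ((L₀ : ℝ) ^ 2 + 2 * L₀ + 1))) = 1 / 2 := by
      field_simp; ring
    linarith
  · refine (pha_count hR hm0 hm (x := 1 / (n : ℝ) ^ 10) hz ?_).trans hn4
    refine le_trans ?_ (hfail.trans hfail2)
    have := pha_kExp_mono (good := phaGood n η) hR.h0 hR.hH K
      (F := fun A => if Regular (triangles n) A (refR (sigmaK n K))
            (Real.sqrt (sigmaK n K) * (n : ℝ) ^ η) (sigmaK n K * (n : ℝ) ^ (10 * η))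
          then (1 : ℝ) else 0) (G := fun _ => 1) fun A => by split_ifs <;> norm_num
    linarith

end

end Vale.Agent.P046.Full
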