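import Mathlib

/-!
# P046, exact constant: product-measure lemmas for the query exploration
-/

open Finset MeasureTheory Filter

namespace Vale.Agent.P046.Full

noncomputable section

variable {I : Type*} [Fintype I] [DecidableEq I] (μ : Measure ℝ) [IsProbabilityMeasure μ]

/-- Mixing the coordinates of two independent samples. -/
lemma q_mix_mp (T : Finset I) :
    MeasurePreserving (fun p : (I → ℝ) × (I → ℝ) => T.piecewise p.1 p.2)
      ((Measure.pi fun _ : I => μ).prod (Measure.pi fun _ : I => μ)) (Measure.pi fun _ : I => μ) := by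
  have hm : Measurable fun p : (I → ℝ) × (I → ℝ) => T.piecewise p.1 p.2 := by
    refine measurable_pi_iff.2 fun i => ?_
    by_cases h : i ∈ T
    · simpa [Finset.piecewise, h, Function.comp_def] using (measurable_pi_apply i).comp measurable_fst
    · simpa [Finset.piecewise, h, Function.comp_def] using (measurable_pi_apply i).comp measurable_snd
  refine ⟨hm, (Measure.pi_eq fun s hs => ?_).symm⟩
  rw [Measure.map_apply hm (MeasurableSet.univ_pi hs)]
  have e : (fun p : (I → ℝ) × (I → ℝ) => T.piecewise p.1 p.2) ⁻¹' Set.univ.pi s =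
      (Set.univ.pi fun i => if i ∈ T then s i else Set.univ) ×ˢ
        (Set.univ.pi fun i => if i ∈ T then Set.univ else s i) := by
    ext p
    simp only [Set.mem_preimage, Set.mem_univ_pi, Set.mem_prod, Finset.piecewise]
    constructor
    · intro h
      constructor <;> intro i <;> have := h i <;> split_ifs with hi <;> simp_all
    · rintro ⟨h1, h2⟩ i
      have a1 := h1 i; have a2 := h2 i
      split_ifs with hi <;> simp_all
  rw [e, Measure.prod_prod, Measure.pi_pi, Measure.pi_pi, ← Finset.prod_mul_distrib]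
  refine Finset.prod_congr rfl fun i _ => ?_
  split_ifs <;> simp

/-- Integrate the coordinates in `T` last. -/
lemma q_integral_mix (T : Finset I) {F : (I → ℝ) → ℝ} (hF : Integrable F (Measure.pi fun _ : I => μ)) :
    ∫ w, F w ∂(Measure.pi fun _ : I => μ) =
      ∫ a, ∫ b, F (T.piecewise a b) ∂(Measure.pi fun _ : I => μ) ∂(Measure.pi fun _ : I => μ) := by
  have h := q_mix_mp μ T
  conv_lhs => rw [← h.map_eq]
  rw [integral_map h.measurable.aemeasurable (by rw [h.map_eq]; exact hF.1)]
  exact integral_prod _ ((h.integrable_comp hF.1).2 hF)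

/-- Functions of disjoint coordinates multiply. -/
lemma q_integral_mul {F G : (I → ℝ) → ℝ} {s t : Finset I} (hF : DependsOn F (s : Set I))
    (hG : DependsOn G (t : Set I)) (hst : Disjoint s t)
    (hiF : Integrable F (Measure.pi fun _ : I => μ))
    (hiFG : Integrable (fun w => F w * G w) (Measure.pi fun _ : I => μ)) :
    ∫ w, F w * G w ∂(Measure.pi fun _ : I => μ) =
      (∫ w, F w ∂(Measure.pi fun _ : I => μ)) * ∫ w, G w ∂(Measure.pi fun _ : I => μ) := by
  have e : ∀ a b, F (s.piecewise a b) * G (s.piecewise a b) = F a * G b := fun a b => by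
    congr 1
    · exact hF fun i hi => Finset.piecewise_eq_of_mem _ _ _ (Finset.mem_coe.1 hi)
    · exact hG fun i hi =>
        Finset.piecewise_eq_of_notMem _ _ _ (Finset.disjoint_right.1 hst (Finset.mem_coe.1 hi))
  rw [q_integral_mix μ s hiFG]
  simp only [e, integral_const_mul, integral_mul_const]

/-- A product of bounded functions of disjoint coordinates. -/
lemma q_integral_prod {κ : Type*} (K : Finset κ) {F : κ → (I → ℝ) → ℝ} {s : κ → Finset I}
    (hF : ∀ k ∈ K, DependsOn (F k) (s k : Set I))
    (hd : (K : Set κ).PairwiseDisjoint s)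
    (hm : ∀ k ∈ K, Measurable (F k)) (hb : ∀ k ∈ K, ∀ w, |F k w| ≤ 1) :
    ∫ w, ∏ k ∈ K, F k w ∂(Measure.pi fun _ : I => μ) = ∏ k ∈ K, ∫ w, F k w ∂(Measure.pi fun _ : I => μ) := by
  classical
  induction K using Finset.induction_on with
  | empty => simp
  | insert k K hk ih =>
    have hK : ∀ j ∈ K, j ∈ insert k K := fun j hj => Finset.mem_insert_of_mem hj
    simp only [Finset.prod_insert hk]
    rw [← ih (fun j hj => hF j (hK j hj)) (hd.subset (Finset.coe_subset.2 (Finset.subset_insert _ _)))
      (fun j hj => hm j (hK j hj)) fun j hj => hb j (hK j hj)]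
    have hmp : Measurable fun w => ∏ j ∈ K, F j w :=
      Finset.measurable_prod _ fun j hj => hm j (hK j hj)
    have hbp : ∀ w, |∏ j ∈ K, F j w| ≤ 1 := fun w => by
      rw [Finset.abs_prod]; exact Finset.prod_le_one (fun j _ => abs_nonneg _) fun j hj => hb j (hK j hj) w
    refine q_integral_mul μ (t := K.biUnion s) (hF k (Finset.mem_insert_self _ _)) ?_ ?_ ?_ ?_
    · intro w w' h
      exact Finset.prod_congr rfl fun j hj => hF j (hK j hj) fun i hi =>
        h i (Finset.mem_coe.2 (Finset.mem_biUnion.2 ⟨j, hj, Finset.mem_coe.1 hi⟩))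
    · rw [Finset.disjoint_biUnion_right]
      exact fun j hj => hd (Finset.mem_coe.2 (Finset.mem_insert_self _ _)) (Finset.mem_coe.2 (hK j hj))
        fun h => hk (h ▸ hj)
    · exact Integrable.of_bound (hm k (Finset.mem_insert_self _ _)).aestronglyMeasurable 1
        (Eventually.of_forall fun w => hb k (Finset.mem_insert_self _ _) w)
    · exact Integrable.of_bound
        ((hm k (Finset.mem_insert_self _ _)).mul hmp).aestronglyMeasurable 1 (Eventually.of_forall fun w => by
          rw [Real.norm_eq_abs, abs_mul]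
          exact mul_le_one₀ (hb k (Finset.mem_insert_self _ _) w) (abs_nonneg _) (hbp w))

/-- Integrate one coordinate first. -/
lemma q_integral_coord (i : I) {F : (I → ℝ) → ℝ} (hF : Integrable F (Measure.pi fun _ : I => μ)) :
    ∫ w, F w ∂(Measure.pi fun _ : I => μ) =
      ∫ s, ∫ w, F (Function.update w i s) ∂(Measure.pi fun _ : I => μ) ∂μ := by
  have e : ∀ a b : I → ℝ, ({i} : Finset I).piecewise a b = Function.update b i (a i) := fun a b => by
    funext j
    by_cases h : j = i
    · subst h; simp
    · simp [h]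
  rw [q_integral_mix μ {i} hF]
  simp only [e]
  have hsm : AEStronglyMeasurable (fun s => ∫ w, F (Function.update w i s) ∂(Measure.pi fun _ : I => μ)) μ := by
    have hu : MeasurePreserving (fun p : ℝ × (I → ℝ) => Function.update p.2 i p.1)
        (μ.prod (Measure.pi fun _ : I => μ)) (Measure.pi fun _ : I => μ) := by
      have h1 := q_mix_mp μ ({i} : Finset I)
      have h2 := (measurePreserving_eval (fun _ : I => μ) i).prod (MeasurePreserving.id (Measure.pi fun _ : I => μ))
      refine ⟨by exact measurable_update'.comp measurable_swap, ?_⟩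
      rw [← h2.map_eq, Measure.map_map (by exact measurable_update'.comp measurable_swap) h2.measurable]
      conv_rhs => rw [← h1.map_eq]
      congr 1
      funext p
      exact (e p.1 p.2).symm
    exact ((hu.integrable_comp hF.1).2 hF).1.integral_prod_right'
  have he := (measurePreserving_eval (fun _ : I => μ) i)
  have := integral_map (μ := Measure.pi fun _ : I => μ) (φ := Function.eval i) he.measurable.aemeasurable
    (f := fun s => ∫ w, F (Function.update w i s) ∂(Measure.pi fun _ : I => μ)) (by rw [he.map_eq]; exact hsm)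
  rw [he.map_eq] at this
  exact this.symm

variable {J : Type*} [Fintype J] [DecidableEq J]

/-- An injective reindexing of part of the coordinates preserves probabilities of events on that part. -/
lemma q_inj_eq (proj : I → J) (S : Finset I) (hinj : Set.InjOn proj (S : Set I)) {E : Set (I → ℝ)}
    (hE : MeasurableSet E) (hdep : ∀ w w' : I → ℝ, (∀ i ∈ S, w i = w' i) → (w ∈ E ↔ w' ∈ E)) :
    (Measure.pi fun _ : J => μ) ((fun (w : J → ℝ) i => w (proj i)) ⁻¹' E) = (Measure.pi fun _ : I => μ) E := by
  classical
  set e : I → J := proj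
  have hb : Measurable fun p : (J → ℝ) × (I → ℝ) => S.piecewise (fun i => p.1 (e i)) p.2 := by
    refine measurable_pi_iff.2 fun i => ?_
    by_cases h : i ∈ S
    · simpa [Finset.piecewise, h, Function.comp_def] using (measurable_pi_apply (e i)).comp measurable_fst
    · simpa [Finset.piecewise, h, Function.comp_def] using (measurable_pi_apply i).comp measurable_snd
  have hmap : ((Measure.pi fun _ : J => μ).prod (Measure.pi fun _ : I => μ)).map
      (fun p : (J → ℝ) × (I → ℝ) => S.piecewise (fun i => p.1 (e i)) p.2) = Measure.pi fun _ : I => μ := by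
    refine (Measure.pi_eq fun s hs => ?_).symm
    rw [Measure.map_apply hb (MeasurableSet.univ_pi hs)]
    have e1 : (fun p : (J → ℝ) × (I → ℝ) => S.piecewise (fun i => p.1 (e i)) p.2) ⁻¹' Set.univ.pi s =
        (Set.univ.pi fun j => ⋂ i ∈ S.filter (fun i => e i = j), s i) ×ˢ
          (Set.univ.pi fun i => if i ∈ S then Set.univ else s i) := by
      ext p
      simp only [Set.mem_preimage, Set.mem_univ_pi, Set.mem_prod, Finset.piecewise, Set.mem_iInter,
        Finset.mem_filter]
      constructor
      · intro h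
        refine ⟨fun j i hi => ?_, fun i => ?_⟩
        · have := h i; rw [if_pos hi.1, hi.2] at this; exact this
        · have := h i; split_ifs with hi <;> simp_all
      · rintro ⟨h1, h2⟩ i
        by_cases hi : i ∈ S
        · rw [if_pos hi]; exact h1 (e i) i ⟨hi, rfl⟩
        · have := h2 i; rw [if_neg hi] at this ⊢; exact this
    rw [e1, Measure.prod_prod, Measure.pi_pi, Measure.pi_pi]
    have e2 : ∏ j, μ (⋂ i ∈ S.filter (fun i => e i = j), s i) = ∏ i ∈ S, μ (s i) := by
      rw [← Finset.prod_fiberwise S e fun i => μ (s i)]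
      refine Finset.prod_congr rfl fun j _ => ?_
      rcases (S.filter (fun i => e i = j)).eq_empty_or_nonempty with h | ⟨i, hi⟩
      · rw [h]; simp
      · have he : S.filter (fun i => e i = j) = {i} := by
          refine Finset.eq_singleton_iff_unique_mem.2 ⟨hi, fun x hx => ?_⟩
          simp only [Finset.mem_filter] at hi hx
          exact hinj (Finset.mem_coe.2 hx.1) (Finset.mem_coe.2 hi.1) (hx.2.trans hi.2.symm)
        rw [he]; simp
    rw [e2]
    have e3 : ∀ i, μ (if i ∈ S then Set.univ else s i) = if i ∈ S then 1 else μ (s i) := fun i => by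
      split_ifs <;> simp
    simp only [e3, Finset.prod_ite, Finset.prod_const_one, one_mul]
    rw [← Finset.prod_filter_mul_prod_filter_not Finset.univ (· ∈ S)]
    congr 1
    refine Finset.prod_congr ?_ fun _ _ => rfl
    ext i; simp
  conv_rhs => rw [← hmap, Measure.map_apply hb hE]
  have e4 : (fun p : (J → ℝ) × (I → ℝ) => S.piecewise (fun i => p.1 (e i)) p.2) ⁻¹' E =
      ((fun (w : J → ℝ) i => w (e i)) ⁻¹' E) ×ˢ (Set.univ : Set (I → ℝ)) := by
    ext p
    simp only [Set.mem_preimage, Set.mem_prod, Set.mem_univ, and_true]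
    exact hdep _ _ fun i hi => Finset.piecewise_eq_of_mem _ _ _ hi
  rw [e4, Measure.prod_prod, measure_univ, mul_one]

/-- Shared and independent clocks agree up to a repetition among the scanned coordinates. -/
theorem q_coupling (proj : I → J) (scan : (I → ℝ) → Finset I) (out : (I → ℝ) → Prop)
    (hscan : ∀ w w', (∀ i ∈ scan w, w i = w' i) → scan w' = scan w ∧ (out w' ↔ out w))
    (hsm : ∀ S, MeasurableSet {w | scan w = S}) (hout : MeasurableSet {w | out w}) :
    |(Measure.pi fun _ : J => μ).real ((fun (w : J → ℝ) i => w (proj i)) ⁻¹' {w | out w}) -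
        (Measure.pi fun _ : I => μ).real {w | out w}| ≤
      (Measure.pi fun _ : I => μ).real {w | ¬ Set.InjOn proj (scan w : Set I)} := by
  classical
  obtain ⟨ι', hι⟩ : ∃ f, f = fun (w : J → ℝ) i => w (proj i) := ⟨_, rfl⟩
  rw [← hι]
  have hιm : Measurable ι' := hι ▸ measurable_pi_iff.2 fun i => measurable_pi_apply _
  set P := Measure.pi fun _ : I => μ
  set Q := Measure.pi fun _ : J => μ
  set G := (Finset.univ : Finset (Finset I)).filter fun S : Finset I => Set.InjOn proj (S : Set I)
  set B : Set (I → ℝ) := {w | Set.InjOn proj (scan w : Set I)}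
  have key : ∀ (X : Set (I → ℝ)), MeasurableSet X →
      (∀ w w', (∀ i ∈ scan w, w i = w' i) → (w ∈ X ↔ w' ∈ X)) →
      Q.real (ι' ⁻¹' (X ∩ B)) = P.real (X ∩ B) := by
    intro X hX hdepX
    have hu : X ∩ B = ⋃ S ∈ G, X ∩ {w | scan w = S} := by
      ext w
      simp only [Set.mem_inter_iff, Set.mem_iUnion, Set.mem_setOf_eq, B, G, Finset.mem_filter,
        Finset.mem_univ, true_and, exists_prop]
      exact ⟨fun h => ⟨scan w, h.2, h.1, rfl⟩, fun ⟨S, hS, hw, e⟩ => ⟨hw, e ▸ hS⟩⟩
    have hdj : (G : Set (Finset I)).PairwiseDisjoint fun S => X ∩ {w | scan w = S} :=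
      fun S _ S' _ h => Set.disjoint_left.2 fun w h1 h2 => h (h1.2.symm.trans h2.2)
    rw [hu, Set.preimage_iUnion₂, measureReal_biUnion_finset hdj fun S _ => hX.inter (hsm S),
      measureReal_biUnion_finset (fun S hS S' hS' h => (hdj hS hS' h).preimage ι')
        fun S _ => hιm (hX.inter (hsm S))]
    refine Finset.sum_congr rfl fun S hS => ?_
    simp only [measureReal_def, hι]
    refine congrArg ENNReal.toReal (q_inj_eq μ proj S (Finset.mem_filter.1 hS).2 (hX.inter (hsm S)) ?_)
    intro w w' h
    constructor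
    · rintro ⟨h1, h2⟩
      have h' : ∀ i ∈ scan w, w i = w' i := fun i hi => h i (h2 ▸ hi)
      exact ⟨(hdepX w w' h').1 h1, (hscan w w' h').1.trans h2⟩
    · rintro ⟨h1, h2⟩
      have h' : ∀ i ∈ scan w', w' i = w i := fun i hi => (h i (h2 ▸ hi)).symm
      exact ⟨(hdepX w' w h').1 h1, (hscan w' w h').1.trans h2⟩
  have hB : MeasurableSet B := by
    have : B = ⋃ S ∈ G, {w | scan w = S} := by
      ext w
      simp only [Set.mem_iUnion, Set.mem_setOf_eq, B, G, Finset.mem_filter, Finset.mem_univ, true_and,
        exists_prop]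
      exact ⟨fun h => ⟨scan w, h, rfl⟩, fun ⟨S, hS, e⟩ => e ▸ hS⟩
    rw [this]; exact MeasurableSet.biUnion (Finset.countable_toSet G) fun S _ => hsm S
  have k1 := key {w | out w} hout fun w w' h => (hscan w w' h).2.symm
  have k2 := key {w | ¬ out w} hout.compl fun w w' h => not_congr (hscan w w' h).2.symm
  have a0 := measureReal_inter_add_diff (μ := P) (s := {w | out w}) hB
  have b0 := measureReal_inter_add_diff (μ := Q) (s := ι' ⁻¹' {w | out w}) (hιm hB)
  rw [← Set.preimage_inter, k1] at b0
  have a1 : P.real ({w | out w} \ B) ≤ P.real Bᶜ := measureReal_mono fun w hw => hw.2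
  have a2 : Q.real (ι' ⁻¹' {w | out w} \ ι' ⁻¹' B) ≤ Q.real (ι' ⁻¹' B)ᶜ := measureReal_mono fun w hw => hw.2
  have a3 : Q.real (ι' ⁻¹' B)ᶜ = P.real Bᶜ := by
    have k3 := key Set.univ MeasurableSet.univ fun _ _ _ => Iff.rfl
    rw [Set.univ_inter] at k3
    rw [probReal_compl_eq_one_sub (hιm hB), probReal_compl_eq_one_sub hB, k3]
  have p1 : 0 ≤ P.real ({w | out w} \ B) := measureReal_nonneg
  have p2 : 0 ≤ Q.real (ι' ⁻¹' {w | out w} \ ι' ⁻¹' B) := measureReal_nonneg
  rw [abs_le]
  constructor <;> change _ ≤ _ <;> linarith [show P.real {w | ¬ Set.InjOn proj (scan w : Set I)} = P.real Bᶜ from rfl]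

end

end Vale.Agent.P046.Full
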