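import Mathlib
import Vale.Agent.P046.Full.Defs
import Vale.Agent.P046.Full.QGeneral

/-!
# P046, exact constant: the unfolded tree and its exploration
-/

open Finset MeasureTheory Filter

namespace Vale.Agent.P046.Full

open Vale.Agent.P046

noncomputable section

variable {V : Type*} [DecidableEq V]

/-- A node: the reversed list of (entry point, line) steps from the roots. -/
abbrev Node (V : Type*) : Type _ := List (V × Finset V)

/-- Points whose life a node asks about. -/
def qPts (roots : Finset V) : Node V → Finset V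
  | [] => roots
  | (g, U) :: _ => U.erase g

/-- The line of a node. -/
def qLine : Node V → Finset V
  | [] => ∅
  | (_, U) :: _ => U

/-- Lines a node does not scan. -/
def qExcl : Node V → Finset (Finset V)
  | [] => ∅
  | (_, U) :: _ => {U}

/-- Children of a node. -/
def qKids (H : Finset (Finset V)) (A roots : Finset V) (x : Node V) : Finset (Node V) :=
  (qPts roots x).biUnion fun g => (star H A g \ qExcl x).image fun U => (g, U) :: x

/-- Nodes of a given depth. -/
def qLvl (H : Finset (Finset V)) (A roots : Finset V) : ℕ → Finset (Node V)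
  | 0 => {[]}
  | d + 1 => (qLvl H A roots d).biUnion (qKids H A roots)

/-- Nodes of depth at most `L`. -/
def qNodes (H : Finset (Finset V)) (A roots : Finset V) (L : ℕ) : Finset (Node V) :=
  (Finset.range (L + 1)).biUnion (qLvl H A roots)

/-- Coordinates: a clock and a coin at every node. -/
def qIdx (H : Finset (Finset V)) (A roots : Finset V) (L : ℕ) : Finset (Node V × Bool) :=
  qNodes H A roots L ×ˢ Finset.univ

/-- The coordinates as a type. -/
abbrev QI (H : Finset (Finset V)) (A roots : Finset V) (L : ℕ) : Type _ := ↥(qIdx H A roots L)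

/-- Extend a sample by zero. -/
def qExt {H : Finset (Finset V)} {A roots : Finset V} {L : ℕ} (w : QI H A roots L → ℝ)
    (x : Node V × Bool) : ℝ :=
  if h : x ∈ qIdx H A roots L then w ⟨x, h⟩ else 0

/-- Time of a node. -/
def qTime (w : Node V × Bool → ℝ) : Node V → ℝ
  | [] => 1
  | x :: l => w (x :: l, false)

/-- Probability that all points of a node are alive. -/
def qVal (H : Finset (Finset V)) (A roots : Finset V) (Y : V → Finset V → ℝ → ℝ) (x : Node V) (t : ℝ) : ℝ :=
  ∏ g ∈ qPts roots x, ∏ U ∈ star H A g \ qExcl x, (1 - lineInt Y g U t)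

/-- All points of a node are alive at time `t`, with `d` levels left. -/
def qAlive (H : Finset (Finset V)) (A roots : Finset V) (Y : V → Finset V → ℝ → ℝ)
    (w : Node V × Bool → ℝ) : ℕ → Node V → ℝ → Prop
  | 0, x, t => w (x, true) ≤ qVal H A roots Y x t
  | d + 1, x, t => ∀ c ∈ qKids H A roots x, w (c, false) < t → ¬ qAlive H A roots Y w d c (w (c, false))

/-- Nodes whose outcome is asked for. -/
def qQueried (H : Finset (Finset V)) (A roots : Finset V) (Y : V → Finset V → ℝ → ℝ) (L : ℕ)
    (w : Node V × Bool → ℝ) : Node V → Prop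
  | [] => True
  | x :: l => qQueried H A roots Y L w l ∧ w (x :: l, false) < qTime w l ∧
      qAlive H A roots Y w (L - l.length) l (w (x :: l, false))

/-- Coordinates looked at by the exploration. -/
def qScan (H : Finset (Finset V)) (A roots : Finset V) (Y : V → Finset V → ℝ → ℝ) (L : ℕ)
    (w : QI H A roots L → ℝ) : Finset (QI H A roots L) :=
  open Classical in Finset.univ.filter fun i =>
    (i.1.2 = false ∧ ∃ x ∈ qNodes H A roots L, x.length < L ∧ qQueried H A roots Y L (qExt w) x ∧
      i.1.1 ∈ qKids H A roots x) ∨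
    (i.1.2 = true ∧ i.1.1.length = L ∧ qQueried H A roots Y L (qExt w) i.1.1)

/-- Projection of a coordinate to the line it unfolds. -/
def qProj {H : Finset (Finset V)} {A roots : Finset V} {L : ℕ} (i : QI H A roots L) : Finset V × Bool :=
  (qLine i.1.1, i.1.2)

variable {H : Finset (Finset V)} {A roots : Finset V} {Y : V → Finset V → ℝ → ℝ} {L : ℕ}

lemma mem_qKids {x c : Node V} :
    c ∈ qKids H A roots x ↔ ∃ g ∈ qPts roots x, ∃ U ∈ star H A g, U ∉ qExcl x ∧ c = (g, U) :: x := by
  simp only [qKids, Finset.mem_biUnion, Finset.mem_image, Finset.mem_sdiff]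
  constructor
  · rintro ⟨g, hg, U, ⟨h1, h2⟩, rfl⟩; exact ⟨g, hg, U, h1, h2, rfl⟩
  · rintro ⟨g, hg, U, h1, h2, rfl⟩; exact ⟨g, hg, U, ⟨h1, h2⟩, rfl⟩

lemma qKids_length {x c : Node V} (h : c ∈ qKids H A roots x) : c.length = x.length + 1 := by
  obtain ⟨g, -, U, -, -, rfl⟩ := mem_qKids.1 h
  rfl

lemma qKids_parent {x x' c : Node V} (h : c ∈ qKids H A roots x) (h' : c ∈ qKids H A roots x') : x = x' := by
  obtain ⟨g, -, U, -, -, rfl⟩ := mem_qKids.1 h
  obtain ⟨g', -, U', -, -, he⟩ := mem_qKids.1 h'
  exact (List.cons.injEq .. ▸ he).2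

lemma qLvl_length : ∀ {d : ℕ} {x : Node V}, x ∈ qLvl H A roots d → x.length = d := by
  intro d
  induction d with
  | zero => intro x hx; simp only [qLvl, Finset.mem_singleton] at hx; subst hx; rfl
  | succ d ih =>
    intro x hx
    simp only [qLvl, Finset.mem_biUnion] at hx
    obtain ⟨y, hy, hxy⟩ := hx
    rw [qKids_length hxy, ih hy]

lemma mem_qNodes {x : Node V} : x ∈ qNodes H A roots L ↔ x.length ≤ L ∧ x ∈ qLvl H A roots x.length := by
  simp only [qNodes, Finset.mem_biUnion, Finset.mem_range]
  constructor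
  · rintro ⟨d, hd, hx⟩
    have := qLvl_length hx
    exact ⟨by omega, this ▸ hx⟩
  · rintro ⟨h1, h2⟩; exact ⟨x.length, by omega, h2⟩

lemma qKids_mem_nodes {x c : Node V} (hx : x ∈ qNodes H A roots L) (hlen : x.length < L)
    (hc : c ∈ qKids H A roots x) : c ∈ qNodes H A roots L := by
  obtain ⟨-, hx⟩ := mem_qNodes.1 hx
  have hl := qKids_length hc
  refine mem_qNodes.2 ⟨by omega, ?_⟩
  rw [hl, qLvl, Finset.mem_biUnion]
  exact ⟨x, hx, hc⟩

lemma qNil_mem : ([] : Node V) ∈ qNodes H A roots L :=
  mem_qNodes.2 ⟨Nat.zero_le _, by simp [qLvl]⟩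

lemma qTail_mem {a : V × Finset V} {l : Node V} (h : a :: l ∈ qNodes H A roots L) :
    l ∈ qNodes H A roots L ∧ a :: l ∈ qKids H A roots l ∧ l.length < L := by
  obtain ⟨h1, h2⟩ := mem_qNodes.1 h
  simp only [List.length_cons, qLvl, Finset.mem_biUnion] at h1 h2
  obtain ⟨y, hy, hc⟩ := h2
  have : y = l := by
    obtain ⟨g, -, U, -, -, he⟩ := mem_qKids.1 hc
    exact ((List.cons.injEq .. ▸ he).2).symm
  subst this
  exact ⟨mem_qNodes.2 ⟨by omega, hy⟩, hc, by omega⟩

lemma qExt_mem {w : QI H A roots L → ℝ} {x : Node V} (b : Bool) (h : x ∈ qNodes H A roots L) :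
    qExt w (x, b) = w ⟨(x, b), by simp [qIdx, h]⟩ := by
  rw [qExt, dif_pos (by simp [qIdx, h])]

lemma qAlive_mono (hmono : ∀ (x : Node V) (s t : ℝ), x.length = L → s ≤ t → t ≤ 1 → 0 ≤ s →
      qVal H A roots Y x t ≤ qVal H A roots Y x s) {w : Node V × Bool → ℝ} :
    ∀ {d : ℕ} {x : Node V} {s t : ℝ}, x.length + d = L → 0 ≤ s → s ≤ t → t ≤ 1 →
      qAlive H A roots Y w d x t → qAlive H A roots Y w d x s
  | 0, x, s, t, hL, h0, hst, ht, h => le_trans h (hmono x s t (by omega) hst ht h0)
  | _ + 1, x, s, t, _, _, hst, _, h => fun c hc hcs => h c hc (lt_of_lt_of_le hcs hst)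

/-- The exploration only depends on the coordinates it looks at. -/
lemma qAlive_local {w w' : QI H A roots L → ℝ} (hag : ∀ i ∈ qScan H A roots Y L w, w i = w' i) :
    ∀ (d : ℕ) (x : Node V), x ∈ qNodes H A roots L → x.length + d = L →
      qQueried H A roots Y L (qExt w) x → ∀ t, t ≤ qTime (qExt w) x →
        (qAlive H A roots Y (qExt w) d x t ↔ qAlive H A roots Y (qExt w') d x t) := by
  intro d
  induction d with
  | zero =>
    intro x hx hd hq t _
    have hmem : (⟨(x, true), by simp [qIdx, hx]⟩ : QI H A roots L) ∈ qScan H A roots Y L w := by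
      simp only [qScan, Finset.mem_filter, Finset.mem_univ, true_and]
      exact Or.inr ⟨by omega, hq⟩
    simp only [qAlive, qExt_mem true hx, hag _ hmem]
  | succ d ih =>
    intro x hx hd hq t ht
    have hclk : ∀ c ∈ qKids H A roots x, qExt w' (c, false) = qExt w (c, false) := fun c hc => by
      have hcn := qKids_mem_nodes hx (by omega) hc
      rw [qExt_mem false hcn, qExt_mem false hcn]
      refine (hag _ ?_).symm
      simp only [qScan, Finset.mem_filter, Finset.mem_univ, true_and]
      exact Or.inl ⟨x, hx, by omega, hq, hc⟩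
    -- a child that is asked has the same outcome in both samples
    have hkid : ∀ c ∈ qKids H A roots x, qExt w (c, false) < t →
        qAlive H A roots Y (qExt w) (d + 1) x (qExt w (c, false)) →
        (qAlive H A roots Y (qExt w) d c (qExt w (c, false)) ↔
          qAlive H A roots Y (qExt w') d c (qExt w (c, false))) := by
      intro c hc hct hA
      have hlen := qKids_length hc
      obtain ⟨g, -, U, -, -, rfl⟩ := mem_qKids.1 hc
      refine ih _ (qKids_mem_nodes hx (by omega) hc) (by omega) ?_ _ le_rfl
      simp only [qQueried]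
      refine ⟨hq, hct.trans_le ht, ?_⟩
      rwa [show L - x.length = d + 1 by omega]
    classical
    set S := (qKids H A roots x).filter fun c =>
      qExt w (c, false) < t ∧ qAlive H A roots Y (qExt w) d c (qExt w (c, false))
    rcases S.eq_empty_or_nonempty with hS | hS
    · have hdead : ∀ c ∈ qKids H A roots x, qExt w (c, false) < t →
          ¬ qAlive H A roots Y (qExt w) d c (qExt w (c, false)) := fun c hc h1 h2 => by
        have : c ∈ S := Finset.mem_filter.2 ⟨hc, h1, h2⟩
        rw [hS] at this; simp at this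
      refine ⟨fun _ c hc hct => ?_, fun _ => hdead⟩
      rw [hclk c hc] at hct ⊢
      rw [← hkid c hc hct fun c' hc' h' => hdead c' hc' (h'.trans hct)]
      exact hdead c hc hct
    · obtain ⟨c, hcS, hmin⟩ := S.exists_min_image (fun c => qExt w (c, false)) hS
      obtain ⟨hc, hct, hcA⟩ := Finset.mem_filter.1 hcS
      refine ⟨fun h => absurd hcA (h c hc hct), fun h => ?_⟩
      exfalso
      refine h c hc ((hclk c hc).symm ▸ hct) ?_
      rw [hclk c hc, ← hkid c hc hct fun c' hc' h' h'' => ?_]
      · exact hcA
      · exact (hmin c' (Finset.mem_filter.2 ⟨hc', h'.trans hct, h''⟩)).not_gt h'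

lemma qQueried_local {w w' : QI H A roots L → ℝ} (hag : ∀ i ∈ qScan H A roots Y L w, w i = w' i) :
    ∀ x : Node V, x ∈ qNodes H A roots L →
      (qQueried H A roots Y L (qExt w') x ↔ qQueried H A roots Y L (qExt w) x) := by
  intro x
  induction x with
  | nil => intro _; exact Iff.rfl
  | cons a l ih =>
    intro hx
    obtain ⟨hl, hc, hlen⟩ := qTail_mem hx
    simp only [qQueried, ih hl]
    refine and_congr_right fun hq => ?_
    have hclk : qExt w' (a :: l, false) = qExt w (a :: l, false) := by
      rw [qExt_mem false hx, qExt_mem false hx]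
      refine (hag _ ?_).symm
      simp only [qScan, Finset.mem_filter, Finset.mem_univ, true_and]
      exact Or.inl ⟨l, hl, hlen, hq, hc⟩
    have htime : qTime (qExt w') l = qTime (qExt w) l := by
      cases l with
      | nil => rfl
      | cons b m =>
        obtain ⟨hm, hbm, hmlen⟩ := qTail_mem hl
        simp only [qTime]
        rw [qExt_mem false hl, qExt_mem false hl]
        refine (hag _ ?_).symm
        simp only [qScan, Finset.mem_filter, Finset.mem_univ, true_and]
        exact Or.inl ⟨m, hm, hmlen, hq.1, hbm⟩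
    rw [hclk, htime]
    refine and_congr_right fun ht => ?_
    exact (qAlive_local hag (L - l.length) l hl (by omega) hq _ ht.le).symm

theorem qScan_local {w w' : QI H A roots L → ℝ} (hag : ∀ i ∈ qScan H A roots Y L w, w i = w' i) :
    qScan H A roots Y L w' = qScan H A roots Y L w ∧
      (qAlive H A roots Y (qExt w') L [] 1 ↔ qAlive H A roots Y (qExt w) L [] 1) := by
  refine ⟨?_, (qAlive_local hag L [] qNil_mem (by simp) trivial 1 le_rfl).symm⟩
  ext i
  simp only [qScan, Finset.mem_filter, Finset.mem_univ, true_and]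
  refine or_congr (and_congr_right fun _ => exists_congr fun x => and_congr_right fun hx => ?_)
    (and_congr_right fun _ => and_congr_right fun _ => ?_)
  · rw [qQueried_local hag x hx]
  · exact qQueried_local hag i.1.1 (Finset.mem_product.1 i.2).1

end

end Vale.Agent.P046.Full
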