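import Mathlib
import Vale.Agent.P046.Comb
import Vale.Agent.P046.Full.QTree

/-!
# P046, exact constant: measurability and locality of the exploration
-/

open Finset MeasureTheory Filter

namespace Vale.Agent.P046.Full

open Vale.Agent.P046

noncomputable section

variable {V : Type*} [DecidableEq V]

/-- The uniform law on the unit interval. -/
def qUnif : Measure ℝ := (volume : Measure ℝ).restrict (Set.Icc 0 1)

instance : IsProbabilityMeasure qUnif := ⟨by simp [qUnif]⟩

/-- The law of the coordinates. -/
def qMeas (H : Finset (Finset V)) (A roots : Finset V) (L : ℕ) : Measure (QI H A roots L → ℝ) :=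
  Measure.pi fun _ => qUnif

instance (H : Finset (Finset V)) (A roots : Finset V) (L : ℕ) : IsProbabilityMeasure (qMeas H A roots L) := by
  unfold qMeas; infer_instance

variable {H : Finset (Finset V)} {A roots : Finset V} {Y : V → Finset V → ℝ → ℝ} {L : ℕ}

/-- The outcome at a node only looks at its descendants. -/
lemma qAlive_congr {w w' : Node V × Bool → ℝ} :
    ∀ (d : ℕ) (x : Node V), (∀ y b, x <:+ y → (y, b) ≠ (x, false) → w (y, b) = w' (y, b)) →
      ∀ t, (qAlive H A roots Y w d x t ↔ qAlive H A roots Y w' d x t) := by
  intro d
  induction d with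
  | zero =>
    intro x h t
    simp only [qAlive]
    rw [h x true (List.suffix_refl x) (by simp)]
  | succ d ih =>
    intro x h t
    simp only [qAlive]
    refine forall₂_congr fun c hc => ?_
    obtain ⟨g, -, U, -, -, rfl⟩ := mem_qKids.1 hc
    have hne : ((g, U) :: x, false) ≠ (x, false) := fun e => by
      have := congrArg (fun p : Node V × Bool => p.1.length) e
      simp at this
    rw [h _ false (List.suffix_cons _ _) hne]
    refine imp_congr_right fun _ => not_congr (ih _ (fun y b hy hyc => ?_) _)
    refine h y b ((List.suffix_cons _ _).trans hy) fun e => ?_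
    have h1 := hy.length_le
    have h2 : y = x := (Prod.ext_iff.1 e).1
    rw [h2] at h1
    simp at h1

lemma qExt_measurable (x : Node V × Bool) : Measurable fun w : QI H A roots L → ℝ => qExt w x := by
  unfold qExt
  by_cases h : x ∈ qIdx H A roots L
  · simp only [h, dif_pos]; exact measurable_pi_apply _
  · simp only [h, dif_neg, not_false_eq_true]; exact measurable_const

lemma qTime_measurable : ∀ x : Node V, Measurable fun w : QI H A roots L → ℝ => qTime (qExt w) x
  | [] => measurable_const
  | a :: l => qExt_measurable (a :: l, false)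

lemma qLineInt_continuous (hY : ∀ f T, Continuous (Y f T)) (g : V) (U : Finset V) :
    Continuous fun t => lineInt Y g U t := by
  unfold lineInt
  exact intervalIntegral.continuous_primitive
    (fun a b => (continuous_finsetProd _ fun h _ => hY h U).intervalIntegrable a b) 0

lemma qVal_continuous (hY : ∀ f T, Continuous (Y f T)) (x : Node V) :
    Continuous fun t => qVal H A roots Y x t := by
  unfold qVal
  exact continuous_finsetProd _ fun g _ => continuous_finsetProd _ fun U _ =>
    continuous_const.sub (qLineInt_continuous hY g U)

lemma qAlive_measurable (hY : ∀ f T, Continuous (Y f T)) :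
    ∀ (d : ℕ) (x : Node V),
      MeasurableSet {p : (QI H A roots L → ℝ) × ℝ | qAlive H A roots Y (qExt p.1) d x p.2} := by
  intro d
  induction d with
  | zero =>
    intro x
    simp only [qAlive]
    exact measurableSet_le ((qExt_measurable (x, true)).comp measurable_fst)
      ((qVal_continuous hY x).measurable.comp measurable_snd)
  | succ d ih =>
    intro x
    have e : {p : (QI H A roots L → ℝ) × ℝ | qAlive H A roots Y (qExt p.1) (d + 1) x p.2} =
        ⋂ c ∈ qKids H A roots x, ({p | qExt p.1 (c, false) < p.2}ᶜ ∪
          ((fun p : (QI H A roots L → ℝ) × ℝ => (p.1, qExt p.1 (c, false))) ⁻¹'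
            {p | qAlive H A roots Y (qExt p.1) d c p.2})ᶜ) := by
      ext p
      simp only [qAlive, Set.mem_setOf_eq, Set.mem_iInter, Set.mem_union, Set.mem_compl_iff, Set.mem_preimage]
      exact forall₂_congr fun c _ => imp_iff_not_or
    rw [e]
    refine MeasurableSet.biInter (Finset.countable_toSet _) fun c _ => MeasurableSet.union ?_ ?_
    · exact (measurableSet_lt ((qExt_measurable (c, false)).comp measurable_fst) measurable_snd).compl
    · exact ((measurable_fst.prodMk ((qExt_measurable (c, false)).comp measurable_fst)) (ih c)).compl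

lemma qAlive_measurable_fun (hY : ∀ f T, Continuous (Y f T)) (d : ℕ) (x : Node V)
    {τ : (QI H A roots L → ℝ) → ℝ} (hτ : Measurable τ) :
    MeasurableSet {w : QI H A roots L → ℝ | qAlive H A roots Y (qExt w) d x (τ w)} :=
  (measurable_id.prodMk hτ) (qAlive_measurable hY d x)

lemma qQueried_measurable (hY : ∀ f T, Continuous (Y f T)) :
    ∀ x : Node V, MeasurableSet {w : QI H A roots L → ℝ | qQueried H A roots Y L (qExt w) x} := by
  intro x
  induction x with
  | nil => simp [qQueried]
  | cons a l ih =>
    simp only [qQueried, Set.setOf_and]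
    exact ih.inter ((measurableSet_lt (qExt_measurable _) (qTime_measurable l)).inter
      (qAlive_measurable_fun hY _ l (qExt_measurable _)))

lemma qScan_measurable (hY : ∀ f T, Continuous (Y f T)) (S : Finset (QI H A roots L)) :
    MeasurableSet {w : QI H A roots L → ℝ | qScan H A roots Y L w = S} := by
  classical
  have e : {w : QI H A roots L → ℝ | qScan H A roots Y L w = S} =
      ⋂ i, {w | (i ∈ qScan H A roots Y L w) ↔ i ∈ S} := by
    ext w; simp [Finset.ext_iff]
  rw [e]
  refine MeasurableSet.iInter fun i => ?_
  have hm : MeasurableSet {w : QI H A roots L → ℝ | i ∈ qScan H A roots Y L w} := by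
    simp only [qScan, Finset.mem_filter, Finset.mem_univ, true_and, Set.setOf_or, Set.setOf_and]
    refine MeasurableSet.union ((MeasurableSet.const _).inter ?_)
      ((MeasurableSet.const _).inter ((MeasurableSet.const _).inter (qQueried_measurable hY _)))
    have e : {w : QI H A roots L → ℝ | ∃ x ∈ qNodes H A roots L, x.length < L ∧
        qQueried H A roots Y L (qExt w) x ∧ i.1.1 ∈ qKids H A roots x} =
        ⋃ x ∈ qNodes H A roots L, {w | x.length < L} ∩ ({w | qQueried H A roots Y L (qExt w) x} ∩
          {w | i.1.1 ∈ qKids H A roots x}) := by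
      ext w
      simp only [Set.mem_setOf_eq, Set.mem_iUnion, Set.mem_inter_iff]
      exact exists_congr fun x => ⟨fun ⟨h1, h⟩ => ⟨h1, h⟩, fun ⟨h1, h⟩ => ⟨h1, h⟩⟩
    rw [e]
    exact MeasurableSet.biUnion (Finset.countable_toSet _) fun x _ =>
      (MeasurableSet.const _).inter ((qQueried_measurable hY x).inter (MeasurableSet.const _))
  by_cases hi : i ∈ S
  · simpa [hi] using hm
  · have := hm.compl
    simp only [hi, iff_false]
    exact this

end

end Vale.Agent.P046.Full
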