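import Mathlib
import Vale.Agent.P046.Full.Defs

/-!
# P046, exact constant: closed walks
-/

open Finset

namespace Vale.Agent.P046.Full

open Vale.Agent.P046

noncomputable section

variable {V : Type*} [DecidableEq V] [Fintype V]

/-- Closed walks of length `l` in the graph of live points. -/
def walks (H : Finset (Finset V)) (A : Finset V) (l : ℕ) : Finset (Fin l → V) :=
  open Classical in Finset.univ.filter fun w => ∀ i, w (finRotate l i) ∈ nbr H A (w i)

/-- Closed walks with a step whose line is used by no other step. -/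
def onceWalks (H : Finset (Finset V)) (A : Finset V) (l : ℕ) : Finset (Fin l → V) :=
  open Classical in (walks H A l).filter fun w =>
    ∃ i, ∀ T ∈ alive H A, w i ∈ T → w (finRotate l i) ∈ T →
      ∀ j, j ≠ i → ¬ (w j ∈ T ∧ w (finRotate l j) ∈ T)

/-- Walks with a line used once come from short cycles. -/
def OnceStmt : Prop :=
  ∀ k : ℕ, ∃ C : ℝ,
    ∀ (V : Type) [Fintype V] [DecidableEq V] (H : Finset (Finset V)) (A : Finset V) (R : ℝ), Linear H →
      1 ≤ R → (∀ f ∈ A, deg H A f ≤ 2 * R) → ∀ l, 1 ≤ l → l ≤ k →
        ((onceWalks H A l).card : ℝ) ≤ C * R ^ l * cycleCount H A k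

end

end Vale.Agent.P046.Full
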