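import Mathlib
import Vale.Agent.P046.Comb
import Vale.Agent.P046.Full.Statements
import Vale.Agent.P046.Full.WalkDefs
import Vale.Agent.P046.Full.QMeas

/-!
# P046, exact constant: statements of the parts of the tree comparison
-/

open Finset MeasureTheory

namespace Vale.Agent.P046.Full

open Vale.Agent.P046

noncomputable section

variable {V : Type*} [DecidableEq V]

/-- A clock is looked at: the parent is queried. -/
def qSeen (H : Finset (Finset V)) (A roots : Finset V) (Y : V → Finset V → ℝ → ℝ) (L : ℕ)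
    (w : Node V × Bool → ℝ) (c : Node V) : Prop :=
  ∃ x ∈ qNodes H A roots L, x.length < L ∧ qQueried H A roots Y L w x ∧ c ∈ qKids H A roots x

/-- Two nodes with one line, a stem of length `a`, branches of lengths `b`, `b'`, and no other repeated line
on the path between them. -/
def qPairs (H : Finset (Finset V)) (A roots : Finset V) (L a b b' : ℕ) : Finset (Node V × Node V) :=
  open Classical in (qNodes H A roots L ×ˢ qNodes H A roots L).filter fun p =>
    ∃ v ls ls' : Node V, p = (ls ++ v, ls' ++ v) ∧ v.length = a ∧ ls.length = b ∧ ls'.length = b' ∧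
      ls' ≠ [] ∧ ls ++ v ≠ [] ∧ ls.getLast? ≠ ls'.getLast? ∧ qLine (ls ++ v) = qLine (ls' ++ v) ∧
      (ls.map Prod.snd ++ ls'.tail.map Prod.snd ++ (v.take 1).map Prod.snd).Nodup

/-- Pairs of nodes with one line below two different roots, in both orders. -/
def qCross (H : Finset (Finset V)) (A : Finset V) (f f' : V) (b b' : ℕ) : Finset (Node V × Node V) :=
  ((qLvl H A {f} b ×ˢ qLvl H A {f'} b') ∪ (qLvl H A {f'} b ×ˢ qLvl H A {f} b')).filter fun p =>
    qLine p.1 = qLine p.2

/-- The integral factor of a child. -/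
def qKidI (Y : V → Finset V → ℝ → ℝ) : Node V → ℝ → ℝ
  | [] => fun _ => 0
  | (g, U) :: _ => fun t => lineInt Y g U t

/-- Hypotheses of the tree comparison. -/
structure QHyp (H : Finset (Finset V)) (A : Finset V) (R : ℝ) (Y : V → Finset V → ℝ → ℝ) : Prop where
  lin : Linear H
  degR : ∀ f ∈ A, deg H A f ≤ 101 / 100 * R
  fix : IsFix H A Y
  cont : ∀ f T, Continuous (Y f T)
  top : ∀ f ∈ A, ∀ t ∈ Set.Icc (0 : ℝ) 1, ∀ T ∈ star H A f, Y f T t ≤ 101 / 100 * ybar R t

/-- The tree value is the probability of being alive. -/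
def QExpectStmt : Prop :=
  ∀ (V : Type) [DecidableEq V] (H : Finset (Finset V)) (A : Finset V) (Y : V → Finset V → ℝ → ℝ),
    Linear H → IsFix H A Y → (∀ f T, Continuous (Y f T)) → ∀ (roots : Finset V), roots ⊆ A →
      ∀ (L : ℕ), ∀ x ∈ qNodes H A roots L, ∀ t ∈ Set.Icc (0 : ℝ) 1, ∀ d : ℕ,
        (x.length + d = L →
          (qMeas H A roots L).real {w | qAlive H A roots Y (qExt w) d x t} = qVal H A roots Y x t) ∧
        (x.length + (d + 1) = L → ∀ S ⊆ qKids H A roots x,
          (qMeas H A roots L).real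
              {w | ∀ c ∈ S, qExt w (c, false) < t → ¬ qAlive H A roots Y (qExt w) d c (qExt w (c, false))} =
            ∏ c ∈ S, (1 - qKidI Y c t))

/-- Shared clocks give the greedy process. -/
def QTruthStmt : Prop :=
  ∀ (V : Type) [Fintype V] [DecidableEq V] (H : Finset (Finset V)) (A : Finset V)
    (Y : V → Finset V → ℝ → ℝ), Linear H → (∀ f T, Continuous (Y f T)) →
    ∀ (roots : Finset V), roots ⊆ A → ∀ L : ℕ, (alive H A).card < L →
      (Measure.pi fun _ : Finset V × Bool => qUnif).real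
          ((fun (w : Finset V × Bool → ℝ) (i : QI H A roots L) => w (qProj i)) ⁻¹'
            {w | qAlive H A roots Y (qExt w) L [] 1}) =
        (clocks V).real {w | roots ⊆ survivors H A w}

/-- A repeated line gives a pair of scanned nodes with no other repetition between them. -/
def QCollideStmt : Prop :=
  ∀ (V : Type) [DecidableEq V] (H : Finset (Finset V)) (A : Finset V) (Y : V → Finset V → ℝ → ℝ),
    Linear H → ∀ (roots : Finset V), roots ⊆ A → ∀ L : ℕ, 1 ≤ L → ∀ w : QI H A roots L → ℝ,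
      ¬ Set.InjOn qProj (qScan H A roots Y L w : Set (QI H A roots L)) →
      ∃ a ∈ Finset.range (L + 1), ∃ b ∈ Finset.range (L + 1), ∃ b' ∈ Finset.range (L + 1),
        ∃ p ∈ qPairs H A roots L a b b',
          qSeen H A roots Y L (qExt w) p.1 ∧ qSeen H A roots Y L (qExt w) p.2

/-- Pairs below two roots lie below one root or cross. -/
def QSplitStmt : Prop :=
  ∀ (V : Type) [DecidableEq V] (H : Finset (Finset V)) (A : Finset V), Linear H →
    ∀ (f f' : V) (L a b b' : ℕ), f ∈ A → f' ∈ A → f ≠ f' →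
      qPairs H A {f, f'} L a b b' ⊆ qPairs H A {f} L a b b' ∪ qPairs H A {f'} L a b b' ∪
        (if a = 0 then qCross H A f f' b b' else ∅)

/-- Crossing pairs are few. -/
def QCrossStmt : Prop :=
  ∀ (V : Type) [DecidableEq V] (H : Finset (Finset V)) (A : Finset V) (R : ℝ), Linear H → 1 ≤ R →
    (∀ f ∈ A, deg H A f ≤ 101 / 100 * R) → ∀ f ∈ A, ∀ b b' : ℕ, 1 ≤ b' →
      ∑ f' ∈ A, ((qCross H A f f' b b').card : ℝ) ≤ 6 * (101 / 50 * R) ^ (b + b')

/-- Pairs below one root come from closed walks. -/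
def QCountStmt : Prop :=
  ∀ k : ℕ, Even k → 4 ≤ k → ∃ C : ℝ,
    ∀ (V : Type) [Fintype V] [DecidableEq V] (H : Finset (Finset V)) (A : Finset V) (R : ℝ), Linear H →
      1 ≤ R → (∀ f ∈ A, deg H A f ≤ 101 / 100 * R) → ∀ L a b b' : ℕ,
        ∑ f ∈ A, ((qPairs H A {f} L a b b').card : ℝ) ≤
          C * R ^ 2 * (101 / 50 * R) ^ (a + b + b') *
            ((A.card : ℝ) / R ^ (k / 2) + cycleCount H A k)

/-- A given pair is rarely scanned. -/
def QProbStmt : Prop :=
  ∃ R₀ : ℝ, ∀ (V : Type) [DecidableEq V] (H : Finset (Finset V)) (A : Finset V) (R : ℝ)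
    (Y : V → Finset V → ℝ → ℝ), R₀ ≤ R → QHyp H A R Y → ∀ (roots : Finset V), roots ⊆ A →
      ∀ (L a b b' : ℕ), ∀ p ∈ qPairs H A roots L a b b',
        (qMeas H A roots L).real
            {w | qSeen H A roots Y L (qExt w) p.1 ∧ qSeen H A roots Y L (qExt w) p.2} ≤
          R ^ 12 * (3 / 5 / (101 / 50 * R)) ^ (a + b + b')

end

end Vale.Agent.P046.Full
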