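import Mathlib
import Vale.Agent.P046.Full.Equiv
import Vale.Agent.P046.Full.QStatements

/-!
# P046, exact constant: assembly of the tree comparison
-/

open Finset MeasureTheory Filter

namespace Vale.Agent.P046.Full

open Vale.Agent.P046

noncomputable section

variable {V : Type} [Fintype V] [DecidableEq V]

/-- The bound for a repetition below given roots. -/
def qW (H : Finset (Finset V)) (A roots : Finset V) (L : ℕ) (R : ℝ) : ℝ :=
  ∑ a ∈ Finset.range (L + 1), ∑ b ∈ Finset.range (L + 1), ∑ b' ∈ Finset.range (L + 1),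
    ((qPairs H A roots L a b b').card : ℝ) * (R ^ 12 * (3 / 5 / (101 / 50 * R)) ^ (a + b + b'))

lemma qGeom {x : ℝ} (h0 : 0 ≤ x) (h1 : x ≤ 3 / 5) (N : ℕ) : ∑ a ∈ Finset.range N, x ^ a ≤ 5 / 2 := by
  have h := geom_sum_mul_neg x N
  have : 0 ≤ x ^ N := by positivity
  have hs : 0 ≤ ∑ a ∈ Finset.range N, x ^ a := Finset.sum_nonneg fun _ _ => by positivity
  nlinarith

lemma qIsFix_congr {H : Finset (Finset V)} {A : Finset V} {Y Z : V → Finset V → ℝ → ℝ}
    (h : ∀ f T, ∀ t ∈ Set.Icc (0 : ℝ) 1, Z f T t = Y f T t) :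
    (∀ f U, ∀ t ∈ Set.Icc (0 : ℝ) 1, lineInt Z f U t = lineInt Y f U t) ∧
      (IsFix H A Y → IsFix H A Z) ∧ (∀ f, ∀ t ∈ Set.Icc (0 : ℝ) 1, rootY H A Z f t = rootY H A Y f t) := by
  have hl : ∀ f U, ∀ t ∈ Set.Icc (0 : ℝ) 1, lineInt Z f U t = lineInt Y f U t := fun f U t ht => by
    refine intervalIntegral.integral_congr fun s hs => Finset.prod_congr rfl fun g _ => ?_
    rw [Set.uIcc_of_le ht.1] at hs
    exact h g U s ⟨hs.1, hs.2.trans ht.2⟩
  refine ⟨hl, fun hY => ⟨fun f T => (hY.cont f T).congr fun t ht => h f T t ht,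
    fun f T t ht => (h f T t ht).symm ▸ hY.mem f T t ht, fun f hf T hT t ht => ?_⟩, fun f t ht => ?_⟩
  · rw [h f T t ht, hY.eqn f hf T hT t ht]
    exact Finset.prod_congr rfl fun U _ => by rw [hl f U t ht]
  · exact Finset.prod_congr rfl fun U _ => by rw [hl f U t ht]

lemma measurableSet_subset_survivors (H : Finset (Finset V)) (A S : Finset V) :
    MeasurableSet {w : Finset V → ℝ | S ⊆ survivors H A w} := by
  have e : {w : Finset V → ℝ | S ⊆ survivors H A w} =
      ⋂ f ∈ S, ({_w | f ∈ A} ∩ ⋂ T ∈ star H A f, {w | Fired H A w T}ᶜ) := by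
    ext w
    simp only [survivors, Finset.subset_iff, Finset.mem_filter, Set.mem_setOf_eq, Set.mem_iInter,
      Set.mem_inter_iff, Set.mem_compl_iff]
  rw [e]
  exact Finset.measurableSet_biInter _ fun f _ => (MeasurableSet.const _).inter
    (Finset.measurableSet_biInter _ fun T _ => (measurableSet_firedFuel H A _ T).compl)

lemma rootY_mem {H : Finset (Finset V)} {A : Finset V} {Y : V → Finset V → ℝ → ℝ}
    (hY : IsFix H A Y) (f : V) : rootY H A Y f 1 ∈ Set.Icc (0 : ℝ) 1 := by
  have h : ∀ U, lineInt Y f U 1 ∈ Set.Icc (0 : ℝ) 1 := fun U => by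
    have hc : ContinuousOn (fun s => ∏ g ∈ U.erase f, Y g U s) (Set.Icc 0 1) :=
      continuousOn_finsetProd _ fun g _ => hY.cont g U
    have hi : IntervalIntegrable (fun s => ∏ g ∈ U.erase f, Y g U s) volume 0 1 :=
      (by rwa [Set.uIcc_of_le zero_le_one] : ContinuousOn _ (Set.uIcc (0 : ℝ) 1)).intervalIntegrable
    refine ⟨intervalIntegral.integral_nonneg zero_le_one fun s hs =>
      Finset.prod_nonneg fun g _ => (hY.mem g U s hs).1, ?_⟩
    have := intervalIntegral.integral_mono_on zero_le_one hi (intervalIntegrable_const (c := (1 : ℝ)))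
      fun s hs => Finset.prod_le_one (fun g _ => (hY.mem g U s hs).1) fun g _ => (hY.mem g U s hs).2
    simpa [lineInt] using this
  exact ⟨Finset.prod_nonneg fun U _ => by linarith [(h U).2],
    Finset.prod_le_one (fun U _ => by linarith [(h U).2]) fun U _ => by linarith [(h U).1]⟩

/-- The survival of given roots is close to the product of their tree values. -/
theorem q_delta (hE : QExpectStmt) (hT : QTruthStmt) (hC : QCollideStmt) {R₀ : ℝ}
    (hP : ∀ (V : Type) [DecidableEq V] (H : Finset (Finset V)) (A : Finset V) (R : ℝ)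
      (Y : V → Finset V → ℝ → ℝ), R₀ ≤ R → QHyp H A R Y → ∀ (roots : Finset V), roots ⊆ A →
        ∀ (L a b b' : ℕ), ∀ p ∈ qPairs H A roots L a b b',
          (qMeas H A roots L).real
              {w | qSeen H A roots Y L (qExt w) p.1 ∧ qSeen H A roots Y L (qExt w) p.2} ≤
            R ^ 12 * (3 / 5 / (101 / 50 * R)) ^ (a + b + b'))
    {H : Finset (Finset V)} {A : Finset V} {R : ℝ} {Y : V → Finset V → ℝ → ℝ} (hR : R₀ ≤ R)
    (h : QHyp H A R Y) {roots : Finset V} (hr : roots ⊆ A) :
    |(clocks V).real {w | roots ⊆ survivors H A w} - ∏ f ∈ roots, rootY H A Y f 1| ≤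
      qW H A roots ((alive H A).card + 1) R := by
  classical
  set L := (alive H A).card + 1
  have hout : MeasurableSet {w : QI H A roots L → ℝ | qAlive H A roots Y (qExt w) L [] 1} :=
    qAlive_measurable_fun h.cont L [] measurable_const
  have hc := q_coupling (μ := qUnif) (proj := qProj) (scan := qScan H A roots Y L)
    (out := fun w => qAlive H A roots Y (qExt w) L [] 1) (fun w w' hw => qScan_local hw)
    (qScan_measurable h.cont) hout
  rw [hT V H A Y h.lin h.cont roots hr L (Nat.lt_succ_self _)] at hc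
  have he : (qMeas H A roots L).real {w | qAlive H A roots Y (qExt w) L [] 1} =
      ∏ f ∈ roots, rootY H A Y f 1 := by
    rw [((hE V H A Y h.lin h.fix h.cont roots hr L [] qNil_mem 1 (by simp) L).1 (by simp))]
    refine Finset.prod_congr rfl fun f _ => ?_
    simp [rootY, qExcl]
  rw [← he]
  refine hc.trans ?_
  set P := Finset.range (L + 1)
  set E : ℕ → ℕ → ℕ → Node V × Node V → Set (QI H A roots L → ℝ) := fun _ _ _ p =>
    {w | qSeen H A roots Y L (qExt w) p.1 ∧ qSeen H A roots Y L (qExt w) p.2}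
  have hsub : {w : QI H A roots L → ℝ | ¬ Set.InjOn qProj (qScan H A roots Y L w : Set (QI H A roots L))} ⊆
      ⋃ a ∈ P, ⋃ b ∈ P, ⋃ b' ∈ P, ⋃ p ∈ qPairs H A roots L a b b', E a b b' p := by
    intro w hw
    obtain ⟨a, ha, b, hb, b', hb', p, hp, h1, h2⟩ :=
      hC V H A Y h.lin roots hr L (Nat.succ_pos _) w hw
    simp only [Set.mem_iUnion]
    exact ⟨a, ha, b, hb, b', hb', p, hp, h1, h2⟩
  refine (measureReal_mono hsub (measure_ne_top _ _)).trans ?_
  refine (measureReal_biUnion_finset_le _ _).trans (Finset.sum_le_sum fun a _ => ?_)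
  refine (measureReal_biUnion_finset_le _ _).trans (Finset.sum_le_sum fun b _ => ?_)
  refine (measureReal_biUnion_finset_le _ _).trans (Finset.sum_le_sum fun b' _ => ?_)
  refine (measureReal_biUnion_finset_le _ _).trans ?_
  rw [← nsmul_eq_mul]
  exact (Finset.sum_le_sum fun p hp => hP V H A R Y hR h roots hr L a b b' p hp).trans_eq
    (Finset.sum_const _)

lemma qW_nonneg (H : Finset (Finset V)) (A roots : Finset V) (L : ℕ) {R : ℝ} (hR : 0 ≤ R) :
    0 ≤ qW H A roots L R := by
  unfold qW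
  positivity

/-- The crossing bound summed over lengths. -/
def qX (H : Finset (Finset V)) (A : Finset V) (f f' : V) (L : ℕ) (R : ℝ) : ℝ :=
  ∑ b ∈ Finset.range (L + 1), ∑ b' ∈ Finset.range (L + 1),
    (if 1 ≤ b' then ((qCross H A f f' b b').card : ℝ) else 0) *
      (R ^ 12 * (3 / 5 / (101 / 50 * R)) ^ (b + b'))

lemma qX_nonneg (H : Finset (Finset V)) (A : Finset V) (f f' : V) (L : ℕ) {R : ℝ} (hR : 0 ≤ R) :
    0 ≤ qX H A f f' L R := by
  unfold qX
  positivity

lemma qW_pair (hS : QSplitStmt) {H : Finset (Finset V)} {A : Finset V} (hH : Linear H) {f f' : V}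
    (hf : f ∈ A) (hf' : f' ∈ A) (hne : f ≠ f') (L : ℕ) {R : ℝ} (hR : 0 ≤ R) :
    qW H A {f, f'} L R ≤ qW H A {f} L R + qW H A {f'} L R + qX H A f f' L R := by
  classical
  have hX : qX H A f f' L R = ∑ a ∈ Finset.range (L + 1), ∑ b ∈ Finset.range (L + 1),
      ∑ b' ∈ Finset.range (L + 1), (if a = 0 then (if 1 ≤ b' then ((qCross H A f f' b b').card : ℝ) else 0) else 0) *
        (R ^ 12 * (3 / 5 / (101 / 50 * R)) ^ (a + b + b')) := by
    rw [Finset.sum_eq_single (0 : ℕ) (fun a _ ha => by simp [ha]) (fun h => absurd (by simp) h)]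
    simp [qX]
  rw [hX]
  simp only [qW, ← Finset.sum_add_distrib]
  simp only [← add_mul]
  refine Finset.sum_le_sum fun a _ => Finset.sum_le_sum fun b _ => Finset.sum_le_sum fun b' _ =>
    mul_le_mul_of_nonneg_right ?_ (by positivity)
  have h1 := (Finset.card_le_card (hS V H A hH f f' L a b b' hf hf' hne)).trans
    ((Finset.card_union_le _ _).trans (Nat.add_le_add_right (Finset.card_union_le _ _) _))
  by_cases ha : a = 0
  · subst ha
    simp only [if_true] at h1 ⊢
    by_cases hb : 1 ≤ b'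
    · simp only [hb, if_true]
      exact_mod_cast h1
    · simp only [hb, if_false]
      have h0 : qPairs H A {f, f'} L 0 b b' = ∅ := by
        refine Finset.filter_false_of_mem fun p _ => ?_
        rintro ⟨v, ls, ls', -, -, -, hl', hne', -⟩
        exact hne' (List.length_eq_zero_iff.1 (by omega))
      rw [h0, Finset.card_empty, Nat.cast_zero]
      positivity
  · simp only [ha, if_false, Finset.card_empty] at h1 ⊢
    rw [add_zero]
    exact_mod_cast h1

lemma qW_sum {k : ℕ} {C : ℝ} (hC : 0 ≤ C) {H : Finset (Finset V)} {A : Finset V} {R : ℝ} (hR : 1 ≤ R)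
    (L : ℕ) (hN : ∀ a b b' : ℕ, ∑ f ∈ A, ((qPairs H A {f} L a b b').card : ℝ) ≤
      C * R ^ 2 * (101 / 50 * R) ^ (a + b + b') * ((A.card : ℝ) / R ^ (k / 2) + cycleCount H A k)) :
    ∑ f ∈ A, qW H A {f} L R ≤ 16 * C * R ^ 14 * ((A.card : ℝ) / R ^ (k / 2) + cycleCount H A k) := by
  have hR0 : 0 < R := by linarith
  set G : ℝ := (A.card : ℝ) / R ^ (k / 2) + cycleCount H A k
  have hG : 0 ≤ G := add_nonneg (div_nonneg (Nat.cast_nonneg _) (pow_nonneg hR0.le _))
      (Finset.sum_nonneg fun _ _ => Nat.cast_nonneg _)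
  have hDρ : (101 / 50 * R) * (3 / 5 / (101 / 50 * R)) = 3 / 5 := by field_simp
  have hgeo : ∑ a ∈ Finset.range (L + 1), ((3 : ℝ) / 5) ^ a ≤ 5 / 2 := qGeom (by norm_num) le_rfl _
  have hgeo0 : (0 : ℝ) ≤ ∑ a ∈ Finset.range (L + 1), ((3 : ℝ) / 5) ^ a :=
    Finset.sum_nonneg fun _ _ => by positivity
  simp only [qW]
  rw [Finset.sum_comm]
  refine (Finset.sum_le_sum (g := fun a => ∑ b ∈ Finset.range (L + 1), ∑ b' ∈ Finset.range (L + 1),
    C * R ^ 14 * G * ((3 / 5) ^ a * (3 / 5) ^ b * (3 / 5) ^ b')) fun a _ => ?_).trans ?_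
  · rw [Finset.sum_comm]
    refine Finset.sum_le_sum fun b _ => ?_
    rw [Finset.sum_comm]
    refine Finset.sum_le_sum fun b' _ => ?_
    rw [← Finset.sum_mul]
    refine (mul_le_mul_of_nonneg_right (hN a b b') (by positivity)).trans_eq ?_
    simp only [← pow_add]
    conv_rhs => rw [← hDρ]
    generalize 3 / 5 / (101 / 50 * R) = ρ
    rw [mul_pow]; ring
  · simp only [← Finset.mul_sum, ← Finset.sum_mul]
    refine le_trans (mul_le_mul_of_nonneg_left
      (mul_le_mul (mul_le_mul hgeo hgeo hgeo0 (by norm_num)) hgeo hgeo0 (by norm_num)) (by positivity)) ?_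
    nlinarith [show 0 ≤ C * R ^ 14 * G by positivity]

lemma qX_sum {H : Finset (Finset V)} {A : Finset V} {R : ℝ} (hR : 1 ≤ R) (L : ℕ) (f : V)
    (hX : ∀ b b' : ℕ, 1 ≤ b' → ∑ f' ∈ A, ((qCross H A f f' b b').card : ℝ) ≤ 6 * (101 / 50 * R) ^ (b + b')) :
    ∑ f' ∈ A, qX H A f f' L R ≤ 38 * R ^ 12 := by
  have hR0 : 0 < R := by linarith
  have hDρ : (101 / 50 * R) * (3 / 5 / (101 / 50 * R)) = 3 / 5 := by field_simp
  have hgeo : ∑ a ∈ Finset.range (L + 1), ((3 : ℝ) / 5) ^ a ≤ 5 / 2 := qGeom (by norm_num) le_rfl _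
  have hgeo0 : (0 : ℝ) ≤ ∑ a ∈ Finset.range (L + 1), ((3 : ℝ) / 5) ^ a :=
    Finset.sum_nonneg fun _ _ => by positivity
  simp only [qX]
  rw [Finset.sum_comm]
  refine (Finset.sum_le_sum (g := fun b => ∑ b' ∈ Finset.range (L + 1),
    6 * R ^ 12 * ((3 / 5) ^ b * (3 / 5) ^ b')) fun b _ => ?_).trans ?_
  · rw [Finset.sum_comm]
    refine Finset.sum_le_sum fun b' _ => ?_
    rw [← Finset.sum_mul]
    refine (mul_le_mul_of_nonneg_right (show _ ≤ 6 * (101 / 50 * R) ^ (b + b') from ?_) (by positivity)).trans_eq ?_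
    · by_cases hb : 1 ≤ b'
      · simpa [hb] using hX b b' hb
      · simp [hb]; positivity
    simp only [← pow_add]
    conv_rhs => rw [← hDρ]
    generalize 3 / 5 / (101 / 50 * R) = ρ
    rw [mul_pow]; ring
  · simp only [← Finset.mul_sum, ← Finset.sum_mul]
    refine le_trans (mul_le_mul_of_nonneg_left (mul_le_mul hgeo hgeo hgeo0 (by norm_num)) (by positivity)) ?_
    nlinarith [show 0 ≤ R ^ 12 by positivity]

/-- One term of the second moment. -/
lemma q_term {H : Finset (Finset V)} {A : Finset V} (μ : Measure (Finset V → ℝ)) [IsProbabilityMeasure μ]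
    {f f' : V} {y y' w w' x : ℝ} (hy : y ∈ Set.Icc (0 : ℝ) 1) (hy' : y' ∈ Set.Icc (0 : ℝ) 1) (hx : 0 ≤ x)
    (h1 : |μ.real {c | {f} ⊆ survivors H A c} - y| ≤ w) (h2 : |μ.real {c | {f'} ⊆ survivors H A c} - y'| ≤ w')
    (h12 : f' ≠ f → |μ.real {c | {f, f'} ⊆ survivors H A c} - y * y'| ≤ w + w' + x) :
    Integrable (fun c => ((if f ∈ survivors H A c then (1:ℝ) else 0) - y) *
        ((if f' ∈ survivors H A c then (1:ℝ) else 0) - y')) μ ∧
      ∫ c, ((if f ∈ survivors H A c then (1:ℝ) else 0) - y) *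
        ((if f' ∈ survivors H A c then (1:ℝ) else 0) - y') ∂μ ≤
        (if f' = f then 1 else 0) + (2 * w + 2 * w' + x) := by
  set E : Finset V → (Finset V → ℝ) → ℝ := fun S => {c | S ⊆ survivors H A c}.indicator fun _ => (1 : ℝ)
  have hE : ∀ S, Integrable (E S) μ :=
    fun S => (integrable_const 1).indicator (measurableSet_subset_survivors H A S)
  have hI : ∀ S, ∫ c, E S c ∂μ = μ.real {c | S ⊆ survivors H A c} := fun S => by
    simp only [E]; rw [integral_indicator_const _ (measurableSet_subset_survivors H A S), smul_eq_mul, mul_one]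
  have e : ∀ c, ((if f ∈ survivors H A c then (1:ℝ) else 0) - y) *
      ((if f' ∈ survivors H A c then (1:ℝ) else 0) - y') =
      E {f, f'} c - y' * E {f} c - y * E {f'} c + y * y' := fun c => by
    by_cases h1 : f ∈ survivors H A c <;> by_cases h2 : f' ∈ survivors H A c <;>
      simp [E, Set.indicator_apply, h1, h2, Finset.insert_subset_iff] <;> ring
  simp only [e]
  have i12 : Integrable (fun c => E {f, f'} c - y' * E {f} c) μ := (hE _).sub ((hE _).const_mul _)
  have i123 : Integrable (fun c => E {f, f'} c - y' * E {f} c - y * E {f'} c) μ :=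
    i12.sub ((hE _).const_mul _)
  refine ⟨i123.add (integrable_const _), ?_⟩
  rw [integral_add i123 (integrable_const _), integral_sub i12 ((hE _).const_mul _),
    integral_sub (hE _) ((hE _).const_mul _), integral_const_mul, integral_const_mul, integral_const,
    probReal_univ, one_smul, hI, hI, hI]
  obtain ⟨y0, y1⟩ := hy; obtain ⟨y0', y1'⟩ := hy'
  have a1 := abs_le.1 h1; have a2 := abs_le.1 h2
  have u1 : 0 ≤ μ.real {c | {f} ⊆ survivors H A c} := measureReal_nonneg
  have u2 : 0 ≤ μ.real {c | {f'} ⊆ survivors H A c} := measureReal_nonneg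
  have u3 : μ.real {c | {f, f'} ⊆ survivors H A c} ≤ 1 := measureReal_le_one
  by_cases hff : f' = f
  · simp only [hff, if_true] at *
    nlinarith
  · have a3 := abs_le.1 (h12 hff)
    simp only [hff, if_false, zero_add]
    nlinarith

/-- The second moment of the number of survivors around the tree values. -/
lemma q_second {H : Finset (Finset V)} {A : Finset V} (μ : Measure (Finset V → ℝ)) [IsProbabilityMeasure μ]
    {y W : V → ℝ} {X : V → V → ℝ} {B : ℝ}
    (hterm : ∀ f ∈ A, ∀ f' ∈ A,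
      Integrable (fun c => ((if f ∈ survivors H A c then (1:ℝ) else 0) - y f) *
          ((if f' ∈ survivors H A c then (1:ℝ) else 0) - y f')) μ ∧
        ∫ c, ((if f ∈ survivors H A c then (1:ℝ) else 0) - y f) *
          ((if f' ∈ survivors H A c then (1:ℝ) else 0) - y f') ∂μ ≤
          (if f' = f then 1 else 0) + (2 * W f + 2 * W f' + X f f'))
    (hX : ∀ f ∈ A, ∑ f' ∈ A, X f f' ≤ B) :
    Integrable (fun c => (((survivors H A c).card : ℝ) - ∑ f ∈ A, y f) ^ 2) μ ∧
      ∫ c, (((survivors H A c).card : ℝ) - ∑ f ∈ A, y f) ^ 2 ∂μ ≤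
        (A.card : ℝ) * (1 + 4 * ∑ g ∈ A, W g + B) := by
  have hx : ∀ c, ((survivors H A c).card : ℝ) - ∑ f ∈ A, y f =
      ∑ f ∈ A, ((if f ∈ survivors H A c then (1:ℝ) else 0) - y f) := fun c => by
    rw [Finset.sum_sub_distrib]
    congr 1
    have hsub : survivors H A c ⊆ A := fun x hx => by
      simp only [survivors, Finset.mem_filter] at hx; exact hx.1
    rw [Finset.sum_ite_mem, Finset.inter_eq_right.2 hsub]
    simp
  simp only [hx, sq, Finset.sum_mul_sum]
  refine ⟨integrable_finsetSum _ fun f hf => integrable_finsetSum _ fun f' hf' => (hterm f hf f' hf').1, ?_⟩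
  rw [integral_finsetSum _ fun f hf => integrable_finsetSum _ fun f' hf' => (hterm f hf f' hf').1]
  refine (Finset.sum_le_sum (g := fun f => 1 + 2 * A.card * W f + 2 * ∑ g ∈ A, W g + B) fun f hf => ?_).trans ?_
  · rw [integral_finsetSum _ fun f' hf' => (hterm f hf f' hf').1]
    refine (Finset.sum_le_sum fun f' hf' => (hterm f hf f' hf').2).trans ?_
    simp only [Finset.sum_add_distrib, Finset.sum_ite_eq', hf, if_true, ← Finset.mul_sum,
      Finset.sum_const, nsmul_eq_mul]
    linarith [hX f hf]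
  · simp only [Finset.sum_add_distrib, ← Finset.mul_sum, Finset.sum_const, nsmul_eq_mul]
    linarith

/-- The tree comparison from its parts. -/
theorem query_of (hE : QExpectStmt) (hT : QTruthStmt) (hC : QCollideStmt) (hS : QSplitStmt)
    (hX : QCrossStmt) (hN : QCountStmt) (hPr : QProbStmt) : QueryStmt := by
  classical
  refine ⟨1 / 100, by norm_num, fun k hk hk4 => ?_⟩
  obtain ⟨R₁, hP⟩ := hPr
  obtain ⟨C₀, hCount⟩ := hN k hk hk4
  set C := max C₀ 0
  refine ⟨max (max R₁ 1) ((20 + 32 * C) ^ 2), ?_⟩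
  intro V _ _ H A R hH hR hdeg Y hfix hclose κ hκ
  have hR₁ : R₁ ≤ R := le_trans (le_trans (le_max_left _ _) (le_max_left _ _)) hR
  have hR1 : 1 ≤ R := le_trans (le_trans (le_max_right _ _) (le_max_left _ _)) hR
  have hR0 : 0 < R := by linarith
  set Z : V → Finset V → ℝ → ℝ := fun g U t => Y g U (max 0 (min 1 t))
  have hZ : ∀ f T, ∀ t ∈ Set.Icc (0 : ℝ) 1, Z f T t = Y f T t := fun f T t ht => by
    simp [Z, min_eq_right ht.2, max_eq_right ht.1]
  obtain ⟨-, hfixZ, hroot⟩ := qIsFix_congr (H := H) (A := A) hZ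
  have hq : QHyp H A R Z :=
    { lin := hH
      degR := fun f hf => by
        have h1 := (abs_le.1 (hdeg f hf)).2
        have : deg H A f / R ≤ 101 / 100 := by linarith
        rwa [div_le_iff₀ hR0] at this
      fix := hfixZ hfix
      cont := fun f T => (hfix.cont f T).comp_continuous (by fun_prop)
        fun t => ⟨le_max_left _ _, max_le zero_le_one (min_le_left _ _)⟩
      top := fun f hf t ht T hT => by
        rw [hZ f T t ht]
        have := (hclose f hf t ht).2 T hT
        linarith }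
  set G : ℝ := (A.card : ℝ) / R ^ (k / 2) + cycleCount H A k
  have hG : 0 ≤ G := add_nonneg (div_nonneg (Nat.cast_nonneg _) (pow_nonneg hR0.le _))
      (Finset.sum_nonneg fun _ _ => Nat.cast_nonneg _)
  set L := (alive H A).card + 1
  set y : V → ℝ := fun f => rootY H A Y f 1
  have hy : ∀ f, y f ∈ Set.Icc (0 : ℝ) 1 := fun f => rootY_mem hfix f
  set μ := clocks V
  haveI : IsProbabilityMeasure μ := by
    change IsProbabilityMeasure (Measure.pi fun _ : Finset V => qUnif); infer_instance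
  set p : Finset V → ℝ := fun S => μ.real {w | S ⊆ survivors H A w}
  have hd : ∀ S ⊆ A, |p S - ∏ f ∈ S, y f| ≤ qW H A S L R := fun S hS' => by
    have := q_delta hE hT hC hP hR₁ hq hS'
    have e : ∏ f ∈ S, y f = ∏ f ∈ S, rootY H A Z f 1 :=
      Finset.prod_congr rfl fun f _ => (hroot f 1 (by simp)).symm
    rwa [e]
  set W : V → ℝ := fun f => qW H A {f} L R
  have hW : ∑ f ∈ A, W f ≤ 16 * C * R ^ 14 * G := qW_sum (le_max_right _ _) hR1 L fun a b b' =>
    (hCount V H A R hH hR1 hq.degR L a b b').trans (by have : C₀ ≤ C := le_max_left _ _; gcongr)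
  set X : V → V → ℝ := fun f f' => qX H A f f' L R
  have hX' : ∀ f ∈ A, ∑ f' ∈ A, X f f' ≤ 38 * R ^ 12 := fun f hf =>
    qX_sum hR1 L f fun b b' => hX V H A R hH hR1 hq.degR f hf b b'
  obtain ⟨hint, hsec⟩ := q_second μ (H := H) (A := A) (y := y) (W := W) (X := X) (B := 38 * R ^ 12)
    (fun f hf f' hf' => q_term μ (hy f) (hy f') (qX_nonneg H A f f' L hR0.le)
      ((Finset.prod_singleton (f := y) (a := f)) ▸ hd {f} (Finset.singleton_subset_iff.2 hf))
      ((Finset.prod_singleton (f := y) (a := f')) ▸ hd {f'} (Finset.singleton_subset_iff.2 hf'))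
      (fun hff => by
        have := (hd {f, f'} (Finset.insert_subset hf (Finset.singleton_subset_iff.2 hf'))).trans
          (qW_pair hS hH hf hf' (Ne.symm hff) L hR0.le)
        rwa [Finset.prod_pair (Ne.symm hff)] at this)) hX'
  have hsecond : ∫ c, (((survivors H A c).card : ℝ) - ∑ f ∈ A, y f) ^ 2 ∂μ ≤
      A.card * ((39 + 64 * C) * R ^ 14 * (1 + G)) := by
    refine hsec.trans (mul_le_mul_of_nonneg_left ?_ (Nat.cast_nonneg _))
    have hC0 : 0 ≤ C := le_max_right _ _
    have h14 : R ^ 12 ≤ R ^ 14 := pow_le_pow_right₀ hR1 (by norm_num)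
    have h114 : (1 : ℝ) ≤ R ^ 14 := one_le_pow₀ hR1
    nlinarith [show 0 ≤ C * R ^ 14 by positivity, show 0 ≤ R ^ 14 * G by positivity]
  rcases A.eq_empty_or_nonempty with hA | hA
  · subst hA
    have : ∀ w, survivors H (∅ : Finset V) w = ∅ := fun w => by simp [survivors]
    simp only [this, Finset.card_empty, Finset.sum_empty, Nat.cast_zero, sub_self, abs_zero, integral_zero]
    have hκ0 := hκ.1
    simp only [Finset.card_empty, Nat.cast_zero, zero_div, mul_zero, zero_mul, zero_add]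
    refine div_nonneg (mul_nonneg (pow_nonneg hR0.le _) (add_nonneg (add_nonneg zero_le_one
      (div_nonneg (Nat.cast_nonneg _) (pow_nonneg hR0.le _))) ?_)) hκ0.le
    exact Finset.sum_nonneg fun _ _ => Nat.cast_nonneg _
  · have hAc : (0 : ℝ) < A.card := by exact_mod_cast hA.card_pos
    have hκ0 := hκ.1
    set s : ℝ := Real.sqrt (1 + 2 * R * 1)
    have hs0 : 0 < s := Real.sqrt_pos.2 (by positivity)
    have hyb : ybar R 1 = 1 / s := rfl
    set c : ℝ := κ * A.card * ybar R 1
    have hc0 : 0 < c := by simp only [c, hyb]; positivity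
    have hpt : ∀ w, |((survivors H A w).card : ℝ) - ∑ f ∈ A, y f| ≤
        c + (((survivors H A w).card : ℝ) - ∑ f ∈ A, y f) ^ 2 * (1 / (4 * c)) := fun w => by
      set e := ((survivors H A w).card : ℝ) - ∑ f ∈ A, y f
      have h := sq_nonneg (|e| - 2 * c)
      rw [mul_one_div, ← sub_le_iff_le_add', le_div_iff₀ (by positivity)]
      nlinarith [sq_abs e]
    have hone : ∫ w, |((survivors H A w).card : ℝ) - ∑ f ∈ A, y f| ∂μ ≤
        c + (∫ w, (((survivors H A w).card : ℝ) - ∑ f ∈ A, y f) ^ 2 ∂μ) * (1 / (4 * c)) := by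
      refine (integral_mono_of_nonneg (Eventually.of_forall fun w => abs_nonneg _)
        ((integrable_const c).add (hint.mul_const _)) (Eventually.of_forall hpt)).trans_eq ?_
      simp only [Pi.add_apply]
      rw [integral_add (integrable_const c) (hint.mul_const _), integral_const, integral_mul_const,
        probReal_univ, one_smul]
    refine hone.trans (add_le_add le_rfl ?_)
    refine (mul_le_mul_of_nonneg_right hsecond (by positivity)).trans ?_
    have hgam : gam H A R k = R ^ 15 * (1 + G) := by unfold gam; ring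
    rw [hgam]
    have hs : s ≤ 2 * Real.sqrt R := by
      rw [show (2 : ℝ) * Real.sqrt R = Real.sqrt (4 * R) by
        rw [Real.sqrt_mul (by norm_num), show (4 : ℝ) = 2 ^ 2 by norm_num, Real.sqrt_sq (by norm_num)]]
      exact Real.sqrt_le_sqrt (by linarith)
    have hbig : 20 + 32 * C ≤ Real.sqrt R :=
      Real.le_sqrt_of_sq_le (le_trans (le_max_right _ _) hR)
    have hsR : (39 + 64 * C) * s ≤ 4 * R := by
      have := Real.mul_self_sqrt hR0.le
      have hC0 : 0 ≤ C := le_max_right _ _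
      nlinarith [Real.sqrt_nonneg R]
    have e : (A.card : ℝ) * ((39 + 64 * C) * R ^ 14 * (1 + G)) * (1 / (4 * c)) =
        ((39 + 64 * C) * s) * (R ^ 14 * (1 + G) / (4 * κ)) := by
      simp only [c, hyb]; field_simp
    rw [e]
    refine (mul_le_mul_of_nonneg_right hsR (by positivity)).trans_eq ?_
    field_simp

end

end Vale.Agent.P046.Full
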