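import Vale.Agent.P046.Full.QStatements

/-!
# P046, exact constant: a repeated line gives a clean pair of scanned nodes
-/

open Finset MeasureTheory

namespace Vale.Agent.P046.Full

open Vale.Agent.P046

noncomputable section

variable {V : Type*} [DecidableEq V] {H : Finset (Finset V)} {A roots : Finset V}
  {Y : V → Finset V → ℝ → ℝ} {L : ℕ} {w : Node V × Bool → ℝ}

lemma collide_seen_ne {c : Node V} (h : qSeen H A roots Y L w c) : c ≠ [] := by
  obtain ⟨x, -, -, -, hc⟩ := h
  have := qKids_length hc
  intro e
  simp [e] at this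

lemma collide_seen_mem {c : Node V} (h : qSeen H A roots Y L w c) : c ∈ qNodes H A roots L := by
  obtain ⟨x, hx, hlen, -, hc⟩ := h
  exact qKids_mem_nodes hx hlen hc

/-- A queried node other than the root is looked at. -/
lemma collide_seen_of_queried {a : V × Finset V} {l : Node V} (h : a :: l ∈ qNodes H A roots L)
    (hq : qQueried H A roots Y L w (a :: l)) : qSeen H A roots Y L w (a :: l) :=
  ⟨l, (qTail_mem h).1, (qTail_mem h).2.2, hq.1, (qTail_mem h).2.1⟩

/-- Looked-at nodes are closed under nonempty suffixes. -/
lemma collide_seen_suffix : ∀ {c : Node V}, qSeen H A roots Y L w c → ∀ y : Node V, y ≠ [] → y <:+ c →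
    qSeen H A roots Y L w y := by
  intro c
  induction c with
  | nil => intro h; exact absurd rfl (collide_seen_ne h)
  | cons a l ih =>
    intro h y hy hsuf
    rcases List.suffix_cons_iff.1 hsuf with rfl | hl
    · exact h
    · refine ih ?_ y hy hl
      obtain ⟨x, hx, hlen, hq, hc⟩ := h
      have hxl : x = l := qKids_parent hc (qTail_mem (qKids_mem_nodes hx hlen hc)).2.1
      subst hxl
      cases x with
      | nil => exact absurd (List.suffix_nil.1 hl) hy
      | cons b m => exact collide_seen_of_queried hx hq

lemma collide_line {l : Node V} {i : ℕ} (hi : i < l.length) (v : Node V) :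
    qLine (l.drop i ++ v) = (l.map Prod.snd)[i]'(by simpa using hi) := by
  rw [List.drop_eq_getElem_cons hi, List.getElem_map]
  rfl

/-- Minimal decompositions of colliding pairs have no repeated line between the ends. -/
lemma collide_clean {ls ls' v : Node V} (hne : ls' ≠ []) (hlast : ls.getLast? ≠ ls'.getLast?)
    (hs : qSeen H A roots Y L w (ls ++ v)) (hs' : qSeen H A roots Y L w (ls' ++ v))
    (hmin : ∀ x y u : Node V, qSeen H A roots Y L w (x ++ u) → qSeen H A roots Y L w (y ++ u) → x ≠ y →
      qLine (x ++ u) = qLine (y ++ u) → ls.length + ls'.length ≤ x.length + y.length) :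
    (ls.map Prod.snd ++ ls'.tail.map Prod.snd ++ (v.take 1).map Prod.snd).Nodup := by
  have hpos : 0 < ls'.length := List.length_pos_of_ne_nil hne
  have hsuf : ∀ {l : Node V}, qSeen H A roots Y L w (l ++ v) → ∀ i, i < l.length →
      qSeen H A roots Y L w (l.drop i ++ v) := fun {l} hl i hi =>
    collide_seen_suffix hl _
      (by intro e; have := congrArg List.length e; simp at this; omega)
      (by
        obtain ⟨p, hp⟩ := List.drop_suffix i l
        exact ⟨p, by rw [← List.append_assoc, hp]⟩)
  -- two nodes of one branch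
  have hbranch : ∀ {l : Node V}, qSeen H A roots Y L w (l ++ v) → ∀ i j, i < j → j < l.length →
      (l.length ≤ ls.length + ls'.length) →
      qLine (l.drop i ++ v) ≠ qLine (l.drop j ++ v) := fun {l} hl i j hij hj hlen e => by
    have hd : l.drop i = (l.drop i).take (j - i) ++ l.drop j := by
      conv_lhs => rw [← List.take_append_drop (j - i) (l.drop i)]
      rw [List.drop_drop, Nat.add_sub_cancel' hij.le]
    have hl' : ((l.drop i).take (j - i)).length = j - i := by
      rw [List.length_take, List.length_drop]; omega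
    rw [hd, List.append_assoc] at e
    have h := hmin ((l.drop i).take (j - i)) [] (l.drop j ++ v)
      (by rw [← List.append_assoc, ← hd]; exact hsuf hl i (by omega)) (hsuf hl j hj)
      (by intro e'; rw [e'] at hl'; simp at hl'; omega) e
    simp only [hl', List.length_nil, add_zero] at h
    omega
  have hn1 : (ls.map Prod.snd).Nodup := by
    refine List.nodup_iff_injective_getElem.2 fun ⟨i, hi⟩ ⟨j, hj⟩ e => ?_
    simp only [List.length_map] at hi hj
    simp only [← collide_line hi v, ← collide_line hj v] at e
    rcases lt_trichotomy i j with h | h | h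
    · exact absurd e (hbranch hs i j h hj (Nat.le_add_right _ _))
    · exact Fin.ext h
    · exact absurd e.symm (hbranch hs j i h hi (Nat.le_add_right _ _))
  have hn2 : (ls'.tail.map Prod.snd).Nodup := by
    refine (List.Nodup.sublist ((List.tail_sublist ls').map Prod.snd) ?_)
    -- the first element differs from the others by the same argument
    refine List.nodup_iff_injective_getElem.2 fun ⟨i, hi⟩ ⟨j, hj⟩ e => ?_
    simp only [List.length_map] at hi hj
    simp only [← collide_line hi v, ← collide_line hj v] at e
    by_contra hne'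
    have hij : i ≠ j := fun h => hne' (Fin.ext h)
    rcases Nat.lt_or_gt_of_ne hij with h | h
    · exact hbranch hs' i j h hj (Nat.le_add_left _ _) e
    · exact hbranch hs' j i h hi (Nat.le_add_left _ _) e.symm
  have hv : ∀ U ∈ (v.take 1).map Prod.snd, qLine v = U ∧ v ≠ [] := by
    intro U hU
    cases v with
    | nil => simp at hU
    | cons a m => simp at hU; exact ⟨hU.symm, List.cons_ne_nil _ _⟩
  have hmem : ∀ {l : Node V} {U}, U ∈ l.map Prod.snd →
      ∃ i, i < l.length ∧ qLine (l.drop i ++ v) = U := fun {l U} hU => by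
    obtain ⟨i, hi, rfl⟩ := List.getElem_of_mem hU
    simp only [List.length_map] at hi
    exact ⟨i, hi, collide_line hi v⟩
  have hmemT : ∀ {U}, U ∈ ls'.tail.map Prod.snd →
      ∃ j, 1 ≤ j ∧ j < ls'.length ∧ qLine (ls'.drop j ++ v) = U := fun {U} hU => by
    rw [← List.drop_one] at hU
    obtain ⟨j, hj, e⟩ := hmem hU
    rw [List.length_drop] at hj
    rw [List.drop_drop] at e
    exact ⟨1 + j, by omega, by omega, e⟩
  refine List.nodup_append.2 ⟨List.nodup_append.2 ⟨hn1, hn2, ?_⟩, ?_, ?_⟩
  · intro U hU U' hU' e
    subst e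
    obtain ⟨i, hi, e1⟩ := hmem hU
    obtain ⟨j, hj1, hj, e2⟩ := hmemT hU'
    have h := hmin (ls.drop i) (ls'.drop j) v (hsuf hs i hi) (hsuf hs' j hj)
      (fun e => hlast (by
        have h1 : (ls.drop i).getLast? = ls.getLast? := by
          rw [List.getLast?_drop, if_neg (by omega)]
        have h2 : (ls'.drop j).getLast? = ls'.getLast? := by
          rw [List.getLast?_drop, if_neg (by omega)]
        rw [← h1, e, h2]))
      (e1.trans e2.symm)
    rw [List.length_drop, List.length_drop] at h
    omega
  · cases v <;> simp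
  · intro U hU U' hU' e
    subst e
    obtain ⟨ev, hvne⟩ := hv U hU'
    have hsv : qSeen H A roots Y L w ([] ++ v) :=
      collide_seen_suffix hs v hvne (List.suffix_append _ _)
    rcases List.mem_append.1 hU with hU | hU
    · obtain ⟨i, hi, e1⟩ := hmem hU
      have h := hmin (ls.drop i) [] v (hsuf hs i hi) hsv
        (by intro e; have := congrArg List.length e; simp at this; omega) (e1.trans ev.symm)
      simp at h
      omega
    · obtain ⟨j, hj1, hj, e1⟩ := hmemT hU
      have h := hmin (ls'.drop j) [] v (hsuf hs' j hj) hsv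
        (by intro e; have := congrArg List.length e; simp at this; omega) (e1.trans ev.symm)
      simp at h
      omega

/-- Two coordinates with one line come from two looked-at nodes. -/
lemma collide_pair (hL : 1 ≤ L) (w : QI H A roots L → ℝ)
    (h : ¬ Set.InjOn qProj (qScan H A roots Y L w : Set (QI H A roots L))) :
    ∃ c c' : Node V, qSeen H A roots Y L (qExt w) c ∧ qSeen H A roots Y L (qExt w) c' ∧ c ≠ c' ∧
      qLine c = qLine c' := by
  have hseen : ∀ i ∈ qScan H A roots Y L w, qSeen H A roots Y L (qExt w) i.1.1 := by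
    intro i hi
    simp only [qScan, Finset.mem_filter, Finset.mem_univ, true_and] at hi
    rcases hi with ⟨-, hx⟩ | ⟨-, hlen, hq⟩
    · exact hx
    · have hn := (Finset.mem_product.1 i.2).1
      revert hlen hq hn
      generalize i.1.1 = x
      intro hlen hq hn
      cases x with
      | nil => simp at hlen; omega
      | cons a l => exact collide_seen_of_queried hn hq
  rw [Set.InjOn] at h
  push_neg at h
  obtain ⟨i, hi, j, hj, he, hne⟩ := h
  refine ⟨i.1.1, j.1.1, hseen i hi, hseen j hj, fun e => hne ?_, (Prod.ext_iff.1 he).1⟩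
  exact Subtype.ext (Prod.ext e (Prod.ext_iff.1 he).2)

theorem q_collide : QCollideStmt := by
  intro V _ H A Y _ roots _ L hL w hnot
  classical
  set S := qSeen H A roots Y L (qExt w)
  obtain ⟨c, c', hc, hc', hcne, hcl⟩ := collide_pair hL w hnot
  have hex : ∃ m : ℕ, ∃ x y u : Node V, S (x ++ u) ∧ S (y ++ u) ∧ x ≠ y ∧
      qLine (x ++ u) = qLine (y ++ u) ∧ x.length + y.length = m :=
    ⟨_, c, c', [], by simpa using hc, by simpa using hc', hcne, by simpa using hcl, rfl⟩
  obtain ⟨x, y, v, hx, hy, hxy, hline, hlen⟩ := Nat.find_spec hex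
  have hmin : ∀ x' y' u : Node V, S (x' ++ u) → S (y' ++ u) → x' ≠ y' →
      qLine (x' ++ u) = qLine (y' ++ u) → x.length + y.length ≤ x'.length + y'.length :=
    fun x' y' u h1 h2 h3 h4 => hlen ▸ Nat.find_min' hex ⟨x', y', u, h1, h2, h3, h4, rfl⟩
  have hlast : x.getLast? ≠ y.getLast? := by
    intro e
    rcases List.eq_nil_or_concat x with rfl | ⟨x₀, a, rfl⟩
    · simp [eq_comm] at e
      exact hxy e.symm
    · rcases List.eq_nil_or_concat y with rfl | ⟨y₀, b, rfl⟩
      · simp at e
      · simp at e
        subst e
        have h := hmin x₀ y₀ (a :: v) (by simpa using hx) (by simpa using hy)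
          (fun e => hxy (by rw [e])) (by simpa using hline)
        simp at h
        omega
  -- orient the pair
  obtain ⟨ls, ls', hls, hls', hne, hll, hline', hmin'⟩ : ∃ ls ls' : Node V, S (ls ++ v) ∧ S (ls' ++ v) ∧
      ls' ≠ [] ∧ ls.getLast? ≠ ls'.getLast? ∧ qLine (ls ++ v) = qLine (ls' ++ v) ∧
      ∀ x' y' u : Node V, S (x' ++ u) → S (y' ++ u) → x' ≠ y' →
        qLine (x' ++ u) = qLine (y' ++ u) → ls.length + ls'.length ≤ x'.length + y'.length := by
    by_cases hy0 : y = []
    · refine ⟨y, x, hy, hx, fun e => hxy (e.trans hy0.symm), hlast.symm, hline.symm,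
        fun x' y' u h1 h2 h3 h4 => ?_⟩
      have := hmin x' y' u h1 h2 h3 h4
      omega
    · exact ⟨x, y, hx, hy, hy0, hlast, hline, hmin⟩
  have hm := collide_seen_mem hls
  have hm' := collide_seen_mem hls'
  have hl1 := (mem_qNodes.1 hm).1
  have hl2 := (mem_qNodes.1 hm').1
  rw [List.length_append] at hl1 hl2
  refine ⟨v.length, Finset.mem_range.2 (by omega), ls.length, Finset.mem_range.2 (by omega),
    ls'.length, Finset.mem_range.2 (by omega), (ls ++ v, ls' ++ v), ?_, hls, hls'⟩
  simp only [qPairs, Finset.mem_filter, Finset.mem_product]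
  exact ⟨⟨hm, hm'⟩, v, ls, ls', rfl, rfl, rfl, rfl, hne, collide_seen_ne hls, hll, hline',
    collide_clean hne hll hls hls' hmin'⟩

end

end Vale.Agent.P046.Full
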