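import Mathlib
import Vale.Agent.P046.Full.Cycles
import Vale.Agent.P046.Full.WalkDefs

/-!
# P046, exact constant: closed walks

A closed walk either uses each of its lines twice, and is then determined by few choices,
or passes through a point of a short loose cycle.
-/

open Finset

namespace Vale.Agent.P046.Full

open Vale.Agent.P046

noncomputable section

variable {V : Type*} [DecidableEq V] {H : Finset (Finset V)}

/-- A live line through two points. -/
def wkLine (H : Finset (Finset V)) (A : Finset V) (a b : V) : Finset V :=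
  open Classical in if h : ∃ T ∈ star H A a, b ∈ T then h.choose else ∅

lemma wkLine_spec {A : Finset V} {a b : V} (h : b ∈ nbr H A a) :
    wkLine H A a b ∈ star H A a ∧ b ∈ wkLine H A a b := by
  have h' : ∃ T ∈ star H A a, b ∈ T := (mem_nbr.1 h).2
  unfold wkLine
  rw [dif_pos h']
  exact h'.choose_spec

lemma wkLine_alive {A : Finset V} {a b : V} (h : b ∈ nbr H A a) :
    wkLine H A a b ∈ alive H A :=
  star_sub A a (wkLine_spec h).1

lemma wk_deg_le {A : Finset V} {R : ℝ} (hR : 0 ≤ R) (hd : ∀ f ∈ A, deg H A f ≤ 2 * R) (f : V) :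
    deg H A f ≤ 2 * R := by
  by_cases hf : f ∈ A
  · exact hd f hf
  · have h0 : star H A f = ∅ := Finset.eq_empty_of_forall_notMem fun T hT =>
      hf ((mem_star.1 hT).2.1 (mem_star.1 hT).2.2)
    simp [deg, h0]; linarith

/-- A walk as a function on the naturals. -/
def wkPt {k : ℕ} (v : Fin (k + 1) → V) (i : ℕ) : V := if h : i ≤ k then v ⟨i, by omega⟩ else v 0

variable [Fintype V]

/-- The walks of length `k` from `f` to `g`. -/
def wk (H : Finset (Finset V)) (A : Finset V) (k : ℕ) (f g : V) : Finset (Fin (k + 1) → V) :=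
  Finset.univ.filter fun v =>
    v 0 = f ∧ v (Fin.last k) = g ∧ ∀ i : Fin k, v i.succ ∈ nbr H A (v i.castSucc)

lemma mem_wk {A : Finset V} {k : ℕ} {f g : V} {v : Fin (k + 1) → V} :
    v ∈ wk H A k f g ↔
      v 0 = f ∧ v (Fin.last k) = g ∧ ∀ i : Fin k, v i.succ ∈ nbr H A (v i.castSucc) := by
  simp [wk]

lemma wk_pts {A : Finset V} {k : ℕ} {f g : V} {v : Fin (k + 1) → V} (hv : v ∈ wk H A k f g) :
    wkPt v 0 = f ∧ wkPt v k = g ∧ ∀ i < k, wkPt v (i + 1) ∈ nbr H A (wkPt v i) := by
  obtain ⟨h0, hl, hs⟩ := mem_wk.1 hv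
  refine ⟨by simp [wkPt, h0], ?_, fun i hi => ?_⟩
  · rw [← hl]; simp [wkPt, Fin.last]
  · have := hs ⟨i, hi⟩
    simp only [wkPt, dif_pos (by omega : i ≤ k), dif_pos (by omega : i + 1 ≤ k)]
    exact this

lemma adjM_pow_apply (A : Finset V) (k : ℕ) :
    ∀ f g, (adjM H A ^ k) f g = ((wk H A k f g).card : ℝ) := by
  induction k with
  | zero =>
    intro f g
    rw [pow_zero, Matrix.one_apply]
    split_ifs with h
    · subst h
      have : wk H A 0 f f = {fun _ => f} := by
        ext v
        simp only [mem_wk, Finset.mem_singleton]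
        constructor
        · rintro ⟨h, -, -⟩; funext i; rw [Subsingleton.elim (α := Fin 1) i 0]; exact h
        · rintro rfl; exact ⟨rfl, rfl, fun i => i.elim0⟩
      simp [this]
    · have : wk H A 0 f g = ∅ := by
        refine Finset.eq_empty_of_forall_notMem fun v hv => h ?_
        obtain ⟨h0, hl, -⟩ := mem_wk.1 hv
        rw [← h0, ← hl]; rfl
      simp [this]
  | succ k ih =>
    intro f g
    have hset : wk H A (k + 1) f g
        = (nbr H A f).biUnion fun h => (wk H A k h g).image fun w => Fin.cons f w := by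
      ext v
      simp only [Finset.mem_biUnion, Finset.mem_image, mem_wk]
      constructor
      · rintro ⟨h0, hl, hs⟩
        refine ⟨v 1, ?_, Fin.tail v, ⟨rfl, ?_, fun i => ?_⟩, ?_⟩
        · have := hs 0; simpa [h0] using this
        · rw [← hl]; simp [Fin.tail]
        · have := hs i.succ
          simpa [Fin.tail] using this
        · rw [← h0]; exact Fin.cons_self_tail v
      · rintro ⟨h, hh, w, ⟨w0, wl, ws⟩, rfl⟩
        refine ⟨Fin.cons_zero _ _, ?_, fun i => ?_⟩
        · rw [← Fin.succ_last, Fin.cons_succ]; exact wl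
        · refine Fin.cases ?_ (fun j => ?_) i
          · simpa [w0] using hh
          · rw [Fin.cons_succ, show j.succ.castSucc = j.castSucc.succ from rfl, Fin.cons_succ]
            exact ws j
    have hdisj : ((nbr H A f : Finset V) : Set V).PairwiseDisjoint
        fun h => (wk H A k h g).image fun w => Fin.cons (α := fun _ => V) f w := by
      intro a _ b _ hab
      rw [Function.onFun, Finset.disjoint_left]
      intro v hv hv'
      obtain ⟨w, hw, rfl⟩ := Finset.mem_image.1 hv
      obtain ⟨w', hw', he⟩ := Finset.mem_image.1 hv'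
      have hww := Fin.cons_right_injective (α := fun _ => V) f he
      exact hab ((mem_wk.1 hw).1.symm.trans (hww ▸ (mem_wk.1 hw').1))
    have hcard : ∀ h, ((wk H A k h g).image fun w => Fin.cons (α := fun _ => V) f w).card
        = (wk H A k h g).card := fun h =>
      Finset.card_image_of_injective _ (Fin.cons_right_injective (α := fun _ => V) f)
    rw [hset, Finset.card_biUnion hdisj, Nat.cast_sum, pow_succ', Matrix.mul_apply]
    simp only [hcard, adjM, ite_mul, one_mul, zero_mul, ← ih]
    rw [Finset.sum_ite_mem, Finset.univ_inter]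

lemma wk_row_le (hH : Linear H) {A : Finset V} {R : ℝ} (hR : 0 ≤ R)
    (hd : ∀ f, deg H A f ≤ 2 * R) (k : ℕ) :
    ∀ f, ∑ g, ((wk H A k f g).card : ℝ) ≤ (4 * R) ^ k := by
  simp only [← adjM_pow_apply]
  induction k with
  | zero => intro f; simp [Matrix.one_apply]
  | succ k ih =>
    intro f
    simp only [pow_succ' (adjM H A), Matrix.mul_apply]
    rw [Finset.sum_comm]
    calc ∑ h, ∑ g, adjM H A f h * (adjM H A ^ k) h g
        = ∑ h, adjM H A f h * ∑ g, (adjM H A ^ k) h g := by simp [Finset.mul_sum]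
      _ ≤ ∑ h, adjM H A f h * (4 * R) ^ k := by
          refine Finset.sum_le_sum fun h _ => mul_le_mul_of_nonneg_left (ih h) ?_
          unfold adjM; split_ifs <;> norm_num
      _ = ((nbr H A f).card : ℝ) * (4 * R) ^ k := by
          rw [← Finset.sum_mul]
          simp [adjM]
      _ ≤ (4 * R) ^ (k + 1) := by
          rw [pow_succ', card_nbr hH]
          exact mul_le_mul_of_nonneg_right (by linarith [hd f]) (by positivity)

/-- Closed walks of length `k`. -/
def wkClosed (H : Finset (Finset V)) (A : Finset V) (k : ℕ) : Finset (Fin (k + 1) → V) :=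
  Finset.univ.biUnion fun f => wk H A k f f

lemma trace_le_wk (A : Finset V) (k : ℕ) :
    Matrix.trace (adjM H A ^ k) = ((wkClosed H A k).card : ℝ) := by
  have hdisj : ((Finset.univ : Finset V) : Set V).PairwiseDisjoint fun f => wk H A k f f := by
    intro a _ b _ hab
    rw [Function.onFun, Finset.disjoint_left]
    intro v hv hv'
    exact hab ((mem_wk.1 hv).1.symm.trans (mem_wk.1 hv').1)
  rw [wkClosed, Finset.card_biUnion hdisj, Nat.cast_sum, Matrix.trace]
  simp [adjM_pow_apply]

/-- Closed walks through a given point at a given time. -/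
lemma wk_through (hH : Linear H) {A : Finset V} {R : ℝ} (hR : 0 ≤ R)
    (hd : ∀ f, deg H A f ≤ 2 * R) {k i : ℕ} (hi : i < k) (p : V) :
    (((wkClosed H A k).filter fun v => wkPt v i = p).card : ℝ) ≤ (4 * R) ^ k := by
  refine le_trans ?_ (wk_row_le hH hR hd k p)
  rw [← Nat.cast_sum]
  refine Nat.cast_le.2 ?_
  let rot : (Fin (k + 1) → V) → (Fin (k + 1) → V) := fun v t =>
    if i + t ≤ k then wkPt v (i + t) else wkPt v (i + t - k)
  refine le_trans ?_ (Finset.card_biUnion_le (s := Finset.univ) (t := fun g => wk H A k p g))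
  refine Finset.card_le_card_of_injOn rot ?_ ?_
  · intro v hv
    obtain ⟨hv1, hv2⟩ := Finset.mem_filter.1 (Finset.mem_coe.1 hv)
    obtain ⟨f, -, hf⟩ := Finset.mem_biUnion.1 hv1
    obtain ⟨h0, hk, hs⟩ := wk_pts hf
    refine Finset.mem_coe.2 (Finset.mem_biUnion.2 ⟨rot v (Fin.last k), Finset.mem_univ _,
      mem_wk.2 ⟨?_, rfl, fun t => ?_⟩⟩)
    · simp only [rot, Fin.val_zero, add_zero, if_pos hi.le]; exact hv2
    · simp only [rot, Fin.val_succ, Fin.val_castSucc]
      have := t.isLt
      by_cases h1 : i + (t + 1) ≤ k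
      · rw [if_pos h1, if_pos (by omega), show i + (t + 1) = i + (t : ℕ) + 1 by omega]
        exact hs _ (by omega)
      · rw [if_neg h1, show i + (t + 1) - k = i + (t : ℕ) - k + 1 by omega]
        by_cases h2 : i + (t : ℕ) ≤ k
        · rw [if_pos h2, show i + (t : ℕ) = k by omega, hk, ← h0, Nat.sub_self]
          exact hs 0 (by omega)
        · rw [if_neg h2]; exact hs _ (by omega)
  · intro v hv w hw he
    obtain ⟨f, -, hf⟩ := Finset.mem_biUnion.1 (Finset.mem_filter.1 (Finset.mem_coe.1 hv)).1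
    obtain ⟨f', -, hf'⟩ := Finset.mem_biUnion.1 (Finset.mem_filter.1 (Finset.mem_coe.1 hw)).1
    obtain ⟨a0, ak, -⟩ := wk_pts hf
    obtain ⟨b0, bk, -⟩ := wk_pts hf'
    have key : ∀ j ≤ k, wkPt v j = wkPt w j := by
      intro j hj
      by_cases h1 : i ≤ j
      · have := congrFun he ⟨j - i, by omega⟩
        simp only [rot, if_pos (by omega : i + (j - i) ≤ k), show i + (j - i) = j by omega] at this
        exact this
      · have := congrFun he ⟨j + k - i, by omega⟩
        simp only [rot, show i + (j + k - i) = j + k by omega] at this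
        by_cases h2 : j = 0
        · subst h2
          rw [if_pos (by omega), if_pos (by omega), Nat.zero_add] at this
          rw [a0, b0, ← ak, ← bk]; exact this
        · rw [if_neg (by omega), if_neg (by omega), Nat.add_sub_cancel] at this
          exact this
    funext j
    have h := key j (Nat.lt_succ_iff.1 j.isLt)
    simpa [wkPt, Nat.lt_succ_iff.1 j.isLt] using h

/-- The line of the `i`-th step. -/
def wkL (H : Finset (Finset V)) (A : Finset V) {k : ℕ} (v : Fin (k + 1) → V) (i : ℕ) : Finset V :=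
  wkLine H A (wkPt v i) (wkPt v (i + 1))

/-- Each line of the walk is used at least twice. -/
def wkTwice (H : Finset (Finset V)) (A : Finset V) {k : ℕ} (v : Fin (k + 1) → V) : Prop :=
  ∀ i < k, ∃ j < k, j ≠ i ∧ wkL H A v j = wkL H A v i

/-- Closed walks from `f` that use every line twice. -/
lemma wk_twice_card (hH : Linear H) (A : Finset V) (D : ℕ) (hD1 : 1 ≤ D)
    (hD : ∀ f, (star H A f).card ≤ D) (k : ℕ) (f : V) :
    (open Classical in (wk H A k f f).filter fun v => wkTwice H A v).card
      ≤ ((k + 1) * 3) ^ k * D ^ (k / 2) := by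
  classical
  let fr : (Fin (k + 1) → V) → Fin k → Option (Fin k) := fun v i =>
    if h : ∃ j : Fin k, j < i ∧ wkL H A v j = wkL H A v i then some h.choose else none
  let pat : (Fin (k + 1) → V) → Fin k → Option (Fin k) × ℕ := fun v i =>
    (fr v i, cyIdx (wkL H A v i) (wkPt v (i + 1)))
  let num : (Fin (k + 1) → V) → Fin k → ℕ := fun v i =>
    if fr v i = none then cyIdx (star H A (wkPt v i)) (wkL H A v i) else 0
  let code : (Fin (k + 1) → V) → (_ : Fin k → Option (Fin k) × ℕ) × (Fin k → ℕ) := fun v =>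
    ⟨pat v, num v⟩
  let S : Finset (Fin k → Option (Fin k) × ℕ) :=
    (Fintype.piFinset fun _ : Fin k => (Finset.univ : Finset (Option (Fin k))) ×ˢ Finset.range 3).filter
      fun P => 2 * (Finset.univ.filter fun i => (P i).1 = none).card ≤ k
  let tgt : (Fin k → Option (Fin k) × ℕ) → Finset (Fin k → ℕ) := fun P =>
    Fintype.piFinset fun i => if (P i).1 = none then Finset.range D else {0}
  have hlines : ∀ v ∈ wk H A k f f, ∀ i < k,
      wkL H A v i ∈ star H A (wkPt v i) ∧ wkPt v (i + 1) ∈ wkL H A v i := fun v hv i hi =>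
    wkLine_spec ((wk_pts hv).2.2 i hi)
  have hmaps : ∀ v ∈ (wk H A k f f).filter fun v => wkTwice H A v, code v ∈ S.sigma tgt := by
    intro v hv
    obtain ⟨hv, htw⟩ := Finset.mem_filter.1 hv
    refine Finset.mem_sigma.2 ⟨Finset.mem_filter.2 ⟨?_, ?_⟩, ?_⟩
    · refine Fintype.mem_piFinset.2 fun i => Finset.mem_product.2 ⟨Finset.mem_univ _, ?_⟩
      obtain ⟨a, b⟩ := hlines v hv i i.isLt
      exact Finset.mem_range.2 ((cyIdx_lt b).trans_le (hH.card3 _ (mem_star.1 a).1).le)
    · -- the new steps are at most half of all steps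
      show 2 * (Finset.univ.filter fun i => fr v i = none).card ≤ k
      have hle : (Finset.univ.filter fun i => fr v i = none).card
          ≤ (Finset.univ.filter fun i => ¬ fr v i = none).card := by
        refine Finset.card_le_card_of_forall_subsingleton
          (fun (i j : Fin k) => i ≠ j ∧ wkL H A v j = wkL H A v i) ?_ ?_
        · intro i hi
          obtain ⟨j, hj, hne, he⟩ := htw i i.isLt
          have hnew : ¬ ∃ j : Fin k, j < i ∧ wkL H A v j = wkL H A v i := by
            intro h
            simp only [Finset.mem_filter, Finset.mem_univ, true_and, fr, dif_pos h] at hi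
            exact Option.some_ne_none _ hi
          have hlt : i < (⟨j, hj⟩ : Fin k) := by
            rcases lt_trichotomy (⟨j, hj⟩ : Fin k) i with h | h | h
            · exact absurd ⟨_, h, he⟩ hnew
            · exact absurd (congrArg Fin.val h) hne
            · exact h
          refine ⟨⟨j, hj⟩, Finset.mem_filter.2 ⟨Finset.mem_univ _, ?_⟩, ne_of_lt hlt, he⟩
          simp only [fr]
          rw [dif_pos ⟨i, hlt, he.symm⟩]
          exact Option.some_ne_none _
        · intro j _ a ha b hb
          obtain ⟨ha1, -, ha3⟩ := ha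
          obtain ⟨hb1, -, hb3⟩ := hb
          have hab : wkL H A v a = wkL H A v b := ha3.symm.trans hb3
          have hnone : ∀ c ∈ Finset.univ.filter (fun i => fr v i = none),
              ∀ d : Fin k, d < c → wkL H A v d ≠ wkL H A v c := by
            intro c hc d hdc he
            simp only [Finset.mem_filter, Finset.mem_univ, true_and, fr] at hc
            rw [dif_pos ⟨d, hdc, he⟩] at hc
            exact Option.some_ne_none _ hc
          rcases lt_trichotomy a b with h | h | h
          · exact absurd hab (hnone b hb1 a h)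
          · exact h
          · exact absurd hab.symm (hnone a ha1 b h)
      have := Finset.card_filter_add_card_filter_not (fun i => fr v i = none)
        (s := (Finset.univ : Finset (Fin k)))
      simp only [Finset.card_univ, Fintype.card_fin] at this
      omega
    · refine Fintype.mem_piFinset.2 fun i => ?_
      show num v i ∈ if fr v i = none then Finset.range D else {0}
      simp only [num]
      split_ifs
      · exact Finset.mem_range.2 ((cyIdx_lt (hlines v hv i i.isLt).1).trans_le (hD _))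
      · simp
  have hinj : Set.InjOn code ((wk H A k f f).filter fun v => wkTwice H A v : Finset _) := by
    intro v hv w hw he
    have hv' := (Finset.mem_filter.1 (Finset.mem_coe.1 hv)).1
    have hw' := (Finset.mem_filter.1 (Finset.mem_coe.1 hw)).1
    simp only [code, Sigma.mk.injEq, heq_eq_eq] at he
    obtain ⟨hp, hn⟩ := he
    have key : ∀ i ≤ k, wkPt v i = wkPt w i ∧ ∀ j < i, wkL H A v j = wkL H A w j := by
      intro i
      induction i with
      | zero => intro _; exact ⟨(wk_pts hv').1.trans (wk_pts hw').1.symm, fun j hj => absurd hj j.not_lt_zero⟩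
      | succ i ih =>
        intro hi
        obtain ⟨hx, hL⟩ := ih (by omega)
        have hp1 : fr v ⟨i, by omega⟩ = fr w ⟨i, by omega⟩ := (Prod.ext_iff.1 (congrFun hp ⟨i, by omega⟩)).1
        have hp2 : cyIdx (wkL H A v i) (wkPt v (i + 1)) = cyIdx (wkL H A w i) (wkPt w (i + 1)) :=
          (Prod.ext_iff.1 (congrFun hp ⟨i, by omega⟩)).2
        obtain ⟨va, vb⟩ := hlines v hv' i (by omega)
        obtain ⟨wa, wb⟩ := hlines w hw' i (by omega)
        have hLi : wkL H A v i = wkL H A w i := by
          by_cases hnew : fr v ⟨i, by omega⟩ = none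
          · have hni := congrFun hn ⟨i, by omega⟩
            simp only [num] at hni
            rw [if_pos hnew, if_pos (hp1 ▸ hnew)] at hni
            rw [hx] at va hni
            exact cyIdx_inj va wa hni
          · obtain ⟨j, hj⟩ := Option.ne_none_iff_exists'.1 hnew
            have get : ∀ u, fr u ⟨i, by omega⟩ = some j →
                j < (⟨i, by omega⟩ : Fin k) ∧ wkL H A u j = wkL H A u i := by
              intro u hu
              simp only [fr] at hu
              split_ifs at hu with h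
              rw [Option.some_inj] at hu
              rw [← hu]; exact h.choose_spec
            obtain ⟨j1, e1⟩ := get v hj
            obtain ⟨-, e2⟩ := get w (hp1 ▸ hj)
            rw [← e1, hL j j1, e2]
        refine ⟨?_, fun j hj => ?_⟩
        · rw [hLi] at vb hp2
          exact cyIdx_inj vb wb hp2
        · rcases Nat.lt_succ_iff_lt_or_eq.1 hj with h | h
          · exact hL j h
          · rw [h]; exact hLi
    funext j
    have h := (key j (Nat.lt_succ_iff.1 j.isLt)).1
    simpa [wkPt, Nat.lt_succ_iff.1 j.isLt] using h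
  refine (Finset.card_le_card_of_injOn code hmaps hinj).trans ?_
  rw [Finset.card_sigma]
  have hper : ∀ P ∈ S, (tgt P).card ≤ D ^ (k / 2) := by
    intro P hP
    have h2 := (Finset.mem_filter.1 hP).2
    simp only [tgt, Fintype.card_piFinset, apply_ite Finset.card, Finset.card_range,
      Finset.card_singleton]
    rw [← Finset.prod_filter, Finset.prod_const]
    exact Nat.pow_le_pow_right hD1 (by omega)
  refine (Finset.sum_le_card_nsmul _ _ _ hper).trans ?_
  rw [smul_eq_mul]
  refine Nat.mul_le_mul_right _ ((Finset.card_filter_le _ _).trans (le_of_eq ?_))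
  simp

/-- A walk with a line used once passes through a point of a short cycle. -/
lemma wk_once (hH : Linear H) {A : Finset V} {k : ℕ} {f : V} {v : Fin (k + 1) → V}
    (hv : v ∈ wk H A k f f) (ho : ¬ wkTwice H A v) :
    ∃ l ∈ Finset.Icc 3 k, ∃ U ∈ cycles H A l, ∃ p ∈ Finset.univ.biUnion U, ∃ i < k,
      wkPt v i = p := by
  obtain ⟨h0, hk, hs⟩ := wk_pts hv
  obtain ⟨i₀, hi₀, hon⟩ : ∃ i₀ < k, ∀ j < k, j ≠ i₀ → wkL H A v j ≠ wkL H A v i₀ := by
    by_contra hc
    refine ho fun i hi => ?_
    by_contra hc'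
    exact hc ⟨i, hi, fun j hj hne he => hc' ⟨j, hj, hne, he⟩⟩
  obtain ⟨l, h3, hl, U, hU, hmem⟩ := exists_cycle_of_closed hH (wkPt v) (wkL H A v)
    (hk.trans h0.symm)
    (fun i hi => ⟨(mem_alive.1 (wkLine_alive (hs i hi))).1,
      (mem_star.1 (wkLine_spec (hs i hi)).1).2.2, (wkLine_spec (hs i hi)).2⟩)
    hi₀ (Ne.symm (mem_nbr.1 (hs i₀ hi₀)).1) hon
  refine ⟨l, Finset.mem_Icc.2 ⟨h3, hl⟩, U, mem_cycles.2 ⟨fun i => ?_, hU⟩, ?_⟩
  · obtain ⟨j, hj, he⟩ := hmem i
    rw [he]; exact wkLine_alive (hs j hj)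
  · obtain ⟨j, hj, he⟩ := hmem ⟨0, by omega⟩
    refine ⟨wkPt v j, Finset.mem_biUnion.2 ⟨⟨0, by omega⟩, Finset.mem_univ _, ?_⟩, j, hj, rfl⟩
    rw [he]; exact (mem_star.1 (wkLine_spec (hs j hj)).1).2.2

/-- Few closed walks have a line used once, unless there are short cycles. -/
lemma wk_bad_card (hH : Linear H) {A : Finset V} {R : ℝ} (hR0 : 0 ≤ R)
    (hd : ∀ f, deg H A f ≤ 2 * R) (k : ℕ) :
    ((open Classical in (wkClosed H A k).filter fun v => ¬ wkTwice H A v).card : ℝ)
      ≤ 2 * (k : ℝ) ^ 2 * 4 ^ k * (R ^ k * cycleCount H A k) := by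
  classical
  have hsub : ((wkClosed H A k).filter fun v => ¬ wkTwice H A v) ⊆ (Finset.Icc 3 k).biUnion fun l => (cycles H A l).biUnion fun U =>
      ((Finset.univ.biUnion U) ×ˢ Finset.range k).biUnion fun q =>
        (wkClosed H A k).filter fun v => wkPt v q.2 = q.1 := by
    intro v hv
    obtain ⟨hv1, hv2⟩ := Finset.mem_filter.1 hv
    obtain ⟨f, -, hf⟩ := Finset.mem_biUnion.1 hv1
    obtain ⟨l, hl, U, hU, p, hp, i, hi, he⟩ := wk_once hH hf hv2
    exact Finset.mem_biUnion.2 ⟨l, hl, Finset.mem_biUnion.2 ⟨U, hU, Finset.mem_biUnion.2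
      ⟨(p, i), Finset.mem_product.2 ⟨hp, Finset.mem_range.2 hi⟩, Finset.mem_filter.2 ⟨hv1, he⟩⟩⟩⟩
  refine (Nat.cast_le.2 ((Finset.card_le_card hsub).trans Finset.card_biUnion_le)).trans ?_
  rw [Nat.cast_sum, cycleCount, Finset.mul_sum, Finset.mul_sum]
  refine Finset.sum_le_sum fun l hl => ?_
  refine (Nat.cast_le.2 Finset.card_biUnion_le).trans ?_
  rw [Nat.cast_sum]
  have hper : ∀ U ∈ cycles H A l,
      ((((Finset.univ.biUnion U) ×ˢ Finset.range k).biUnion fun q =>
        (wkClosed H A k).filter fun v => wkPt v q.2 = q.1).card : ℝ) ≤ 2 * (k : ℝ) ^ 2 * 4 ^ k * R ^ k := by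
    intro U hU
    refine (Nat.cast_le.2 Finset.card_biUnion_le).trans ?_
    rw [Nat.cast_sum]
    refine (Finset.sum_le_sum (g := fun _ => (4 * R) ^ k) fun q hq =>
      wk_through hH hR0 hd (Finset.mem_range.1 (Finset.mem_product.1 hq).2) q.1).trans ?_
    rw [Finset.sum_const, nsmul_eq_mul, Finset.card_product, (mem_cycles.1 hU).2.2.2.2,
      Finset.card_range, mul_pow]
    push_cast
    have hl' : (l : ℝ) ≤ k := by exact_mod_cast (Finset.mem_Icc.1 hl).2
    have hp : (0 : ℝ) ≤ (k : ℝ) * ((4 : ℝ) ^ k * R ^ k) := by positivity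
    nlinarith [mul_le_mul_of_nonneg_right hl' hp]
  refine (Finset.sum_le_sum hper).trans (le_of_eq ?_)
  rw [Finset.sum_const, nsmul_eq_mul]; ring

theorem walk_stmt : WalkStmt := by
  intro k _ hk
  refine ⟨max ((((k + 1) * 3) ^ k : ℕ) * (2 : ℝ) ^ (k / 2)) (2 * (k : ℝ) ^ 2 * 4 ^ k), ?_⟩
  intro V _ _ H A R hH hR hdeg
  classical
  have hR0 : (0 : ℝ) ≤ R := by linarith
  have hd := wk_deg_le hR0 hdeg
  set C₁ : ℝ := (((k + 1) * 3) ^ k : ℕ) * (2 : ℝ) ^ (k / 2) with hC₁
  set C₂ : ℝ := 2 * (k : ℝ) ^ 2 * 4 ^ k with hC₂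
  let D := ⌊2 * R⌋₊
  have hD : ∀ f, (star H A f).card ≤ D := fun f => Nat.le_floor (hd f)
  have hD1 : 1 ≤ D := Nat.le_floor (by push_cast; linarith)
  let good : Finset (Fin (k + 1) → V) := (wkClosed H A k).filter fun v => wkTwice H A v
  let bad : Finset (Fin (k + 1) → V) := (wkClosed H A k).filter fun v => ¬ wkTwice H A v
  have hsplit : good.card + bad.card = (wkClosed H A k).card :=
    Finset.card_filter_add_card_filter_not _
  have hgood : (good.card : ℝ) ≤ C₁ * ((A.card : ℝ) * R ^ (k / 2)) := by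
    have hsub : good ⊆ A.biUnion fun f => (wk H A k f f).filter fun v => wkTwice H A v := by
      intro v hv
      obtain ⟨hv1, hv2⟩ := Finset.mem_filter.1 hv
      obtain ⟨f, -, hf⟩ := Finset.mem_biUnion.1 hv1
      refine Finset.mem_biUnion.2 ⟨f, ?_, Finset.mem_filter.2 ⟨hf, hv2⟩⟩
      obtain ⟨h0, -, hs⟩ := wk_pts hf
      rw [← h0]
      exact nbr_sub A _ (nbr_symm (hs 0 (by omega)))
    have h1 := (Finset.card_le_card hsub).trans
      (Finset.card_biUnion_le_card_mul _ _ _ fun f _ => wk_twice_card hH A D hD1 hD k f)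
    have h2 := (Nat.cast_le (α := ℝ)).2 h1
    push_cast at h2
    refine h2.trans ?_
    rw [hC₁]
    push_cast
    calc (A.card : ℝ) * ((((k : ℝ) + 1) * 3) ^ k * (D : ℝ) ^ (k / 2))
        ≤ (A.card : ℝ) * ((((k : ℝ) + 1) * 3) ^ k * (2 * R) ^ (k / 2)) := by
          gcongr
          exact Nat.floor_le (by linarith)
      _ = _ := by ring
  have hbad : (bad.card : ℝ) ≤ C₂ * (R ^ k * cycleCount H A k) := wk_bad_card hH hR0 hd k
  rw [trace_le_wk, ← hsplit, Nat.cast_add]
  have hcc : (0 : ℝ) ≤ R ^ k * cycleCount H A k :=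
    mul_nonneg (by positivity) (Finset.sum_nonneg fun _ _ => Nat.cast_nonneg _)
  have hA : (0 : ℝ) ≤ (A.card : ℝ) * R ^ (k / 2) := by positivity
  calc (good.card : ℝ) + bad.card
      ≤ max C₁ C₂ * ((A.card : ℝ) * R ^ (k / 2)) + max C₁ C₂ * (R ^ k * cycleCount H A k) :=
        add_le_add (hgood.trans (mul_le_mul_of_nonneg_right (le_max_left _ _) hA))
          (hbad.trans (mul_le_mul_of_nonneg_right (le_max_right _ _) hcc))
    _ = _ := by ring


/-- A cyclic sequence as a function on one more index. -/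
def wkExt {m : ℕ} (w : Fin (m + 1) → V) : Fin (m + 2) → V :=
  fun i => w ⟨(i : ℕ) % (m + 1), Nat.mod_lt _ (Nat.succ_pos m)⟩

omit [DecidableEq V] [Fintype V] in
lemma wkExt_castSucc {m : ℕ} (w : Fin (m + 1) → V) (i : Fin (m + 1)) :
    wkExt w i.castSucc = w i := by
  unfold wkExt
  congr 1
  exact Fin.ext (Nat.mod_eq_of_lt i.isLt)

omit [DecidableEq V] [Fintype V] in
lemma wkExt_succ {m : ℕ} (w : Fin (m + 1) → V) (i : Fin (m + 1)) :
    wkExt w i.succ = w (finRotate (m + 1) i) := by
  unfold wkExt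
  congr 1
  refine Fin.ext ?_
  simp only [cy_val_rot, Fin.val_succ]
  split_ifs with h
  · rw [h, Nat.mod_self]
  · exact Nat.mod_eq_of_lt (by have := i.isLt; omega)

omit [DecidableEq V] [Fintype V] in
lemma wkExt_zero {m : ℕ} (w : Fin (m + 1) → V) : wkExt w 0 = w 0 := by
  simp [wkExt]

omit [DecidableEq V] [Fintype V] in
lemma wkExt_last {m : ℕ} (w : Fin (m + 1) → V) : wkExt w (Fin.last (m + 1)) = w 0 := by
  simp [wkExt]

lemma wkExt_mem {A : Finset V} {m : ℕ} {w : Fin (m + 1) → V} (hw : w ∈ walks H A (m + 1)) :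
    wkExt w ∈ wkClosed H A (m + 1) := by
  have hs : ∀ i, w (finRotate (m + 1) i) ∈ nbr H A (w i) := by simpa [walks] using hw
  refine Finset.mem_biUnion.2 ⟨w 0, Finset.mem_univ _, mem_wk.2 ⟨wkExt_zero w, wkExt_last w,
    fun i => ?_⟩⟩
  rw [wkExt_succ, wkExt_castSucc]
  exact hs i

/-- The trace counts the closed walks. -/
lemma trace_eq_walks (A : Finset V) {l : ℕ} (hl : 1 ≤ l) :
    Matrix.trace (adjM H A ^ l) = ((walks H A l).card : ℝ) := by
  obtain ⟨m, rfl⟩ : ∃ m, l = m + 1 := ⟨l - 1, by omega⟩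
  rw [trace_le_wk, Nat.cast_inj]
  symm
  refine Finset.card_nbij' wkExt (fun v => v ∘ Fin.castSucc) (fun w hw => wkExt_mem hw) ?_ ?_ ?_
  · intro v hv
    obtain ⟨f, -, hf⟩ := Finset.mem_biUnion.1 (Finset.mem_coe.1 hv)
    obtain ⟨h0, hl, hs⟩ := mem_wk.1 hf
    simp only [walks, Finset.mem_coe, Finset.mem_filter, Finset.mem_univ, true_and,
      Function.comp_apply]
    intro i
    have hrot : v (finRotate (m + 1) i).castSucc = v i.succ := by
      by_cases h : (i : ℕ) = m
      · rw [show (finRotate (m + 1) i).castSucc = 0 from Fin.ext (by rw [Fin.val_castSucc, cy_val_rot, if_pos h]; rfl),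
          show i.succ = Fin.last (m + 1) from Fin.ext (by simp [h]), h0, hl]
      · exact congrArg v (Fin.ext (by rw [Fin.val_castSucc, cy_val_rot, if_neg h, Fin.val_succ]))
    rw [hrot]
    exact hs i
  · intro w _
    funext i
    exact wkExt_castSucc w i
  · intro v hv
    obtain ⟨f, -, hf⟩ := Finset.mem_biUnion.1 (Finset.mem_coe.1 hv)
    obtain ⟨h0, hl, -⟩ := mem_wk.1 hf
    funext i
    refine Fin.lastCases ?_ (fun j => ?_) i
    · simp only [wkExt_last, Function.comp_apply, Fin.castSucc_zero, h0, hl]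
    · rw [wkExt_castSucc]; rfl

theorem once_stmt : OnceStmt := by
  intro k
  refine ⟨2 * (k : ℝ) ^ 2 * 4 ^ k, ?_⟩
  intro V _ _ H A R hH hR hdeg l hl1 hlk
  classical
  have hR0 : (0 : ℝ) ≤ R := by linarith
  obtain ⟨m, rfl⟩ : ∃ m, l = m + 1 := ⟨l - 1, by omega⟩
  have hle : (onceWalks H A (m + 1)).card
      ≤ ((wkClosed H A (m + 1)).filter fun v => ¬ wkTwice H A v).card := by
    refine Finset.card_le_card_of_injOn wkExt ?_ ?_
    · intro w hw
      obtain ⟨hw1, i, hi⟩ := Finset.mem_filter.1 (Finset.mem_coe.1 hw)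
      have hm := wkExt_mem hw1
      refine Finset.mem_filter.2 ⟨hm, fun htw => ?_⟩
      obtain ⟨f, -, hf⟩ := Finset.mem_biUnion.1 hm
      have hs := (wk_pts hf).2.2
      have pt : ∀ j : Fin (m + 1), wkPt (wkExt w) j = w j ∧
          wkPt (wkExt w) ((j : ℕ) + 1) = w (finRotate (m + 1) j) := by
        intro j
        have := j.isLt
        constructor
        · rw [wkPt, dif_pos (by omega)]; exact wkExt_castSucc w j
        · rw [wkPt, dif_pos (by omega)]; exact wkExt_succ w j
      have ln : ∀ j : Fin (m + 1), w j ∈ wkL H A (wkExt w) j ∧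
          w (finRotate (m + 1) j) ∈ wkL H A (wkExt w) j := by
        intro j
        obtain ⟨a, b⟩ := wkLine_spec (hs j j.isLt)
        refine ⟨?_, ?_⟩
        · rw [← (pt j).1]; exact (mem_star.1 a).2.2
        · rw [← (pt j).2]; exact b
      obtain ⟨j, hj, hne, he⟩ := htw i i.isLt
      have h1 := ln ⟨j, hj⟩
      rw [show wkL H A (wkExt w) ((⟨j, hj⟩ : Fin (m + 1)) : ℕ) = _ from he] at h1
      exact hi _ (wkLine_alive (hs i i.isLt)) (ln i).1 (ln i).2 ⟨j, hj⟩
        (fun h => hne (congrArg Fin.val h)) h1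
    · intro w _ w' _ he
      funext i
      rw [← wkExt_castSucc w i, ← wkExt_castSucc w' i, he]
  refine (Nat.cast_le.2 hle).trans ((wk_bad_card hH hR0 (wk_deg_le hR0 hdeg) (m + 1)).trans ?_)
  rw [mul_assoc _ (R ^ (m + 1)) (cycleCount H A k)]
  have hc0 : ∀ j, (0 : ℝ) ≤ cycleCount H A j := fun j =>
    Finset.sum_nonneg fun _ _ => Nat.cast_nonneg _
  have hc : cycleCount H A (m + 1) ≤ cycleCount H A k :=
    Finset.sum_le_sum_of_subset_of_nonneg (Finset.Icc_subset_Icc_right hlk)
      fun _ _ _ => Nat.cast_nonneg _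
  gcongr
  · exact mul_nonneg (by positivity) (hc0 _)
  · norm_num

end

end Vale.Agent.P046.Full
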