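import Mathlib
import Vale.Agent.P046.Full.QStatements
import Vale.Agent.P046.Full.Walks

/-!
# P046, exact constant: pairs of nodes with one line come from closed walks
-/

open Finset

namespace Vale.Agent.P046.Full

open Vale.Agent.P046

noncomputable section

variable {V : Type*} [DecidableEq V] {H : Finset (Finset V)} {A : Finset V}

/-- A path of steps (line, next point). -/
def cTrail (H : Finset (Finset V)) (A : Finset V) : V → List (Finset V × V) → V → Prop
  | x, [], z => x = z
  | x, (T, y) :: s, z => (y ≠ x ∧ T ∈ star H A x ∧ y ∈ T) ∧ cTrail H A y s z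

/-- A step, unless it stands still. -/
def cGlue (x : V) (T : Finset V) (y : V) : List (Finset V × V) := if x = y then [] else [(T, y)]

/-- The steps from the bottom of a branch to its top. -/
def cDown (ls : Node V) : List (Finset V × V) := ls.tail.map Prod.swap

/-- The steps from the top of a branch to its bottom. -/
def cUp : Node V → List (Finset V × V)
  | [] => []
  | [_] => []
  | (g, _) :: (g', U') :: r => cUp ((g', U') :: r) ++ [(U', g)]

/-- The deepest entry point of a branch. -/
def cBot (ls : Node V) (x : V) : V := (ls.head?.map Prod.fst).getD x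

/-- The shallowest entry point of a branch. -/
def cTop (ls : Node V) (x : V) : V := (ls.getLast?.map Prod.fst).getD x

/-- The `i`-th point of a path. -/
def cPt (x : V) (s : List (Finset V × V)) (i : ℕ) : V := (x :: s.map Prod.snd).getD i x

lemma cTrail_append : ∀ {x y z : V} {s s' : List (Finset V × V)},
    cTrail H A x s y → cTrail H A y s' z → cTrail H A x (s ++ s') z
  | x, y, z, [], s', h, h' => by simp only [cTrail] at h; subst h; exact h'
  | x, y, z, (T, y') :: s, s', h, h' => ⟨h.1, cTrail_append h.2 h'⟩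

lemma cGlue_trail {x y : V} {T : Finset V} (hT : T ∈ star H A x) (hy : y ∈ T) :
    cTrail H A x (cGlue x T y) y := by
  unfold cGlue
  split_ifs with h
  · exact h
  · exact ⟨⟨Ne.symm h, hT, hy⟩, rfl⟩

lemma cTrail_ext (hH : Linear H) : ∀ {x z z' : V} {s s' : List (Finset V × V)},
    cTrail H A x s z → cTrail H A x s' z' → s.map Prod.snd = s'.map Prod.snd → s = s'
  | x, z, z', [], [], _, _, _ => rfl
  | x, z, z', [], _ :: _, _, _, e => by simp at e
  | x, z, z', _ :: _, [], _, _, e => by simp at e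
  | x, z, z', (T, y) :: s, (T', y') :: s', h, h', e => by
    simp only [List.map_cons, List.cons.injEq] at e
    obtain ⟨rfl, e⟩ := e
    obtain ⟨⟨hne, hT, hy⟩, hs⟩ := h
    obtain ⟨⟨-, hT', hy'⟩, hs'⟩ := h'
    obtain ⟨a1, -, a3⟩ := mem_star.1 hT
    obtain ⟨b1, -, b3⟩ := mem_star.1 hT'
    rw [hH.eq_of_two a1 b1 hne hy a3 hy' b3, cTrail_ext hH hs hs' e]

lemma cTrail_step : ∀ {x z : V} {s : List (Finset V × V)}, cTrail H A x s z →
    cPt x s s.length = z ∧ ∀ (i : ℕ) (hi : i < s.length),
      cPt x s (i + 1) ≠ cPt x s i ∧ (s[i]).1 ∈ star H A (cPt x s i) ∧ cPt x s (i + 1) ∈ (s[i]).1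
  | x, z, [], h => ⟨by simpa [cPt, cTrail] using h, fun i hi => by simp at hi⟩
  | x, z, (T, y) :: s, h => by
    obtain ⟨hhead, hs⟩ := h
    obtain ⟨hz, hstep⟩ := cTrail_step hs
    have sh : ∀ i, i ≤ s.length → cPt x ((T, y) :: s) (i + 1) = cPt y s i := by
      intro i hi
      simp only [cPt, List.map_cons, List.getD_cons_succ]
      rw [List.getD_eq_getElem _ _ (by simp; omega), List.getD_eq_getElem _ _ (by simp; omega)]
    refine ⟨by rw [List.length_cons, sh _ le_rfl, hz], ?_⟩
    rintro (_ | i) hi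
    · rw [sh 0 (Nat.zero_le _)]
      simpa [cPt] using hhead
    · simp only [List.length_cons] at hi
      rw [sh (i + 1) (by omega), sh i (by omega)]
      simpa using hstep i (by omega)

lemma cPt_append (x : V) (s s' : List (Finset V × V)) {i : ℕ} (hi : i ≤ s.length) :
    cPt x (s ++ s') i = cPt x s i := by
  simp only [cPt, List.map_append, ← List.cons_append]
  exact List.getD_append _ _ _ _ (by simp; omega)

lemma cUp_lines : ∀ ls : Node V, (cUp ls).map Prod.fst = (ls.tail.map Prod.snd).reverse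
  | [] => rfl
  | [_] => rfl
  | (g, U) :: (g', U') :: r => by
    simp [cUp, cUp_lines ((g', U') :: r)]

lemma cUp_length (ls : Node V) : (cUp ls).length = ls.length - 1 := by
  have := congrArg List.length (cUp_lines ls)
  simpa using this

lemma cUp_inj : ∀ {ls ms : Node V} {x : V}, ls.length = ms.length → cUp ls = cUp ms →
    qLine ls = qLine ms → cTop ls x = cTop ms x → ls = ms
  | [], [], _, _, _, _, _ => rfl
  | [], _ :: _, _, h, _, _, _ => by simp at h
  | _ :: _, [], _, h, _, _, _ => by simp at h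
  | [(g, U)], [(h, W)], x, _, _, hl, ht => by
    simp only [qLine, cTop, List.getLast?_singleton, Option.map_some, Option.getD_some] at hl ht
    simp [hl, ht]
  | [_], _ :: _ :: _, _, h, _, _, _ => by simp at h
  | _ :: _ :: _, [_], _, h, _, _, _ => by simp at h
  | (g, U) :: (g', U') :: r, (h, W) :: (h', W') :: r', x, hlen, he, hl, ht => by
    simp only [cUp] at he
    obtain ⟨e1, e2⟩ := List.append_inj' he rfl
    simp only [List.cons.injEq, Prod.mk.injEq, and_true] at e2
    simp only [qLine] at hl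
    simp only [cTop, List.getLast?_cons_cons] at ht
    rw [cUp_inj (ls := (g', U') :: r) (ms := (h', W') :: r') (x := x) (by simpa using hlen) e1
      (by simpa [qLine] using e2.1) (by simpa [cTop] using ht), e2.2, hl]

lemma cNode_suffix {roots : Finset V} {L : ℕ} : ∀ (ls : Node V) {v : Node V},
    ls ++ v ∈ qNodes H A roots L → v ∈ qNodes H A roots L
  | [], _, h => h
  | c :: ls, _, h => cNode_suffix ls (qTail_mem (l := ls ++ _) h).1

/-- What membership of a branch says. -/
lemma cBranch {roots : Finset V} {L : ℕ} : ∀ (ls : Node V) {v : Node V}, ls ≠ [] →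
    ls ++ v ∈ qNodes H A roots L → ∀ x : V,
      qLine (ls ++ v) ∈ star H A (cBot ls x) ∧
      cTrail H A (cBot ls x) (cDown ls) (cTop ls x) ∧ cTrail H A (cTop ls x) (cUp ls) (cBot ls x) ∧
      cTop ls x ∈ qPts roots v ∧ (ls.length = 1 → qLine (ls ++ v) ∉ qExcl v)
  | [], _, hne, _, _ => absurd rfl hne
  | [(g, U)], v, _, h, x => by
    obtain ⟨-, hc, -⟩ := qTail_mem (l := v) h
    obtain ⟨g', hg', U', hU', hex, he⟩ := mem_qKids.1 hc
    simp only [List.cons.injEq, Prod.mk.injEq, and_true] at he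
    obtain ⟨rfl, rfl⟩ := he
    simp [qLine, cBot, cTop, cDown, cUp, cTrail, hU', hg', hex]
  | (g, U) :: (g', U') :: r, v, _, h, x => by
    obtain ⟨hr, hc, -⟩ := qTail_mem (l := (g', U') :: r ++ v) h
    obtain ⟨h1, h2, h3, h4, -⟩ := cBranch ((g', U') :: r) (List.cons_ne_nil _ _) hr x
    obtain ⟨g₀, hg₀, U₀, hU₀, -, he⟩ := mem_qKids.1 hc
    simp only [List.cons.injEq, Prod.mk.injEq, and_true] at he
    obtain ⟨rfl, rfl⟩ := he
    simp only [List.cons_append, qPts] at hg₀
    simp only [List.cons_append, qLine, cBot, List.head?_cons, Option.map_some, Option.getD_some] at h1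
    obtain ⟨hne, hgU⟩ := Finset.mem_erase.1 hg₀
    obtain ⟨a1, a2, a3⟩ := mem_star.1 h1
    have ht : cTop ((g, U) :: (g', U') :: r) x = cTop ((g', U') :: r) x := by
      simp [cTop, List.getLast?_cons_cons]
    refine ⟨by simpa [qLine, cBot] using hU₀, ?_, ?_, ht ▸ h4, fun hl => by simp at hl⟩
    · rw [ht]
      simp only [cDown, List.tail_cons, List.map_cons, Prod.swap_prod_mk]
      simp only [cBot, List.head?_cons, Option.map_some, Option.getD_some]
      refine ⟨⟨Ne.symm hne, mem_star.2 ⟨a1, a2, hgU⟩, a3⟩, ?_⟩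
      simpa [cDown, cBot] using h2
    · rw [ht]
      simp only [cUp]
      refine cTrail_append h3 ?_
      simp only [cBot, List.head?_cons, Option.map_some, Option.getD_some]
      exact ⟨⟨hne, h1, hgU⟩, rfl⟩

/-- The closed path of a pair of branches over `v`. -/
def cLoop (ls ls' v : Node V) (f : V) : List (Finset V × V) :=
  cUp ls' ++ (cGlue (cBot ls' f) (qLine (ls' ++ v)) (cBot ls (cTop ls' f)) ++
    (cDown ls ++ cGlue (cTop ls (cTop ls' f)) (qLine v) (cTop ls' f)))

lemma cGlue_lines (x : V) (T : Finset V) (y : V) : ((cGlue x T y).map Prod.fst).Sublist [T] := by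
  unfold cGlue; split_ifs <;> simp

/-- The facts about a pair needed for the count. -/
lemma cLoop_spec {f : V} {L a b b' : ℕ} (ha : a ≤ 1) {p : Node V × Node V}
    (hp : p ∈ qPairs H A {f} L a b b') :
    ∃ v ls ls' : Node V, p = (ls ++ v, ls' ++ v) ∧ v.length = a ∧ ls.length = b ∧ ls'.length = b' ∧
      ls' ≠ [] ∧ qLine (ls ++ v) = qLine (ls' ++ v) ∧
      cTrail H A (cTop ls' f) (cLoop ls ls' v f) (cTop ls' f) ∧
      ((cLoop ls ls' v f).map Prod.fst).Nodup ∧
      1 ≤ (cLoop ls ls' v f).length ∧ (cLoop ls ls' v f).length ≤ b + b' ∧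
      (qLine (ls' ++ v) ∈ star H A (cBot ls' f)) ∧ cBot ls (cTop ls' f) ∈ qLine (ls' ++ v) ∧
      ((v = [] ∧ cTop ls' f = f) ∨
        ∃ U, v = [(f, U)] ∧ U ∈ star H A (cTop ls' f) ∧ f ∈ U.erase (cTop ls' f)) := by
  classical
  obtain ⟨hmem, v, ls, ls', rfl, hv, hb, hb', hne', hne, hlast, hline, hnd⟩ := Finset.mem_filter.1 hp
  obtain ⟨hm, hm'⟩ := Finset.mem_product.1 hmem
  refine ⟨v, ls, ls', rfl, hv, hb, hb', hne', hline, ?_⟩
  obtain ⟨hT, -, hup, htop', hex⟩ := cBranch ls' hne' hm' f
  set x := cTop ls' f with hx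
  set T := qLine (ls' ++ v) with hTdef
  have hvn := cNode_suffix ls' hm'
  -- the two shapes of the stem
  have hstem : (v = [] ∧ x = f) ∨ ∃ U, v = [(f, U)] ∧ U ∈ star H A x ∧ f ∈ U.erase x := by
    match v, hv, hvn, htop' with
    | [], _, _, ht => exact Or.inl ⟨rfl, by simpa [qPts] using ht⟩
    | [(g, U)], _, hvn, ht =>
      obtain ⟨-, hc, -⟩ := qTail_mem (l := []) hvn
      obtain ⟨g', hg', U', hU', -, he⟩ := mem_qKids.1 hc
      simp only [List.cons.injEq, Prod.mk.injEq, and_true] at he
      obtain ⟨rfl, rfl⟩ := he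
      simp only [qPts, Finset.mem_singleton] at hg'
      subst hg'
      simp only [qPts] at ht
      obtain ⟨h1, h2⟩ := Finset.mem_erase.1 ht
      obtain ⟨a1, a2, a3⟩ := mem_star.1 hU'
      exact Or.inr ⟨U, rfl, mem_star.2 ⟨a1, a2, h2⟩, Finset.mem_erase.2 ⟨Ne.symm h1, a3⟩⟩
    | _ :: _ :: _, hv, _, _ => simp at hv; omega
  obtain ⟨hTs, hTA, hTy⟩ := mem_star.1 hT
  -- the other branch
  have hbr : cBot ls x ∈ T ∧ cTrail H A (cBot ls x) (cDown ls) (cTop ls x) ∧
      cTrail H A (cTop ls x) (cGlue (cTop ls x) (qLine v) x) x := by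
    rcases eq_or_ne ls [] with rfl | hls
    · simp only [cBot, cTop, cDown, List.head?_nil, List.getLast?_nil, Option.map_none, Option.getD_none,
        List.tail_nil, List.map_nil, cTrail, cGlue, if_true, and_true]
      rcases hstem with ⟨rfl, -⟩ | ⟨U, rfl, hU, -⟩
      · simp at hne
      · have : T = U := by simpa [qLine, hTdef] using hline.symm
        rw [this]; exact (mem_star.1 hU).2.2
    · obtain ⟨hT', hdown, -, htop, -⟩ := cBranch ls hls hm x
      refine ⟨?_, hdown, ?_⟩
      · rw [← hline]; exact (mem_star.1 hT').2.2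
      · rcases hstem with ⟨rfl, hxf⟩ | ⟨U, rfl, hU, -⟩
        · have : cTop ls x = x := by
            simp only [qPts, Finset.mem_singleton] at htop
            exact htop.trans hxf.symm
          simp [cGlue, this, cTrail]
        · obtain ⟨-, h2⟩ := Finset.mem_erase.1 (show cTop ls x ∈ U.erase f by simpa [qPts] using htop)
          obtain ⟨a1, a2, a3⟩ := mem_star.1 hU
          exact cGlue_trail (mem_star.2 ⟨a1, a2, by simpa [qLine] using h2⟩) (by simpa [qLine] using a3)
  refine ⟨?_, ?_, ?_, ?_, hT, hbr.1, hstem⟩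
  · exact cTrail_append hup
      (cTrail_append (cGlue_trail hT hbr.1) (cTrail_append hbr.2.1 hbr.2.2))
  · -- distinct lines
    simp only [cLoop, List.map_append, cUp_lines, cDown, List.map_map,
      show (Prod.fst ∘ Prod.swap : V × Finset V → Finset V) = Prod.snd from rfl,
      ← hTdef, ← hx]
    rcases ls with _ | ⟨⟨g, U⟩, r⟩
    · have hg2 : cGlue (cTop ([] : Node V) x) (qLine v) x = [] := by simp [cGlue, cTop]
      rcases hstem with ⟨rfl, -⟩ | ⟨U, rfl, -, -⟩
      · simp at hne
      · have hTU : T = U := by simpa [qLine, hTdef] using hline.symm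
        simp only [List.map_nil, List.nil_append, List.take_succ_cons, List.take_zero, List.map_cons] at hnd
        simp only [hg2, List.tail_nil, List.map_nil, List.append_nil]
        refine (List.Sublist.append (List.Sublist.refl _) (cGlue_lines _ _ _)).nodup ?_
        rw [hTU]
        exact ((List.reverse_perm _).append_right [U]).nodup_iff.2 hnd
    · have hUT : U = T := by simpa [qLine] using hline
      have hsub : ((cGlue (cTop ((g, U) :: r) x) (qLine v) x).map Prod.fst).Sublist
          ((v.take 1).map Prod.snd) := by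
        rcases hstem with ⟨rfl, hxf⟩ | ⟨W, rfl, -, -⟩
        · have hz : cTop ((g, U) :: r) x = x := by
            have := (cBranch _ (List.cons_ne_nil _ _) hm x).2.2.2.1
            simp only [qPts, Finset.mem_singleton] at this
            rw [this, hxf]
          simp [cGlue, hz]
        · simpa [qLine] using cGlue_lines (cTop ((g, U) :: r) x) W x
      refine (List.Sublist.append (List.Sublist.refl _) (List.Sublist.append (cGlue_lines _ _ _)
        (List.Sublist.append (List.Sublist.refl _) hsub))).nodup ?_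
      refine (List.Perm.nodup_iff ?_).2 hnd
      subst hUT
      rw [List.perm_iff_count]
      intro W
      simp only [List.map_cons, List.tail_cons, List.count_append, List.count_cons, List.count_reverse,
        List.count_nil]
      omega
  · -- at least one step
    by_contra hcon
    have hnil : cLoop ls ls' v f = [] := List.length_eq_zero_iff.1 (by omega)
    simp only [cLoop, List.append_eq_nil_iff] at hnil
    obtain ⟨h1, h2, h3, -⟩ := hnil
    have hl1 : ls'.length = 1 := by
      have e := congrArg List.length h1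
      rw [cUp_length] at e
      have := List.length_pos_of_ne_nil hne'
      simp only [List.length_nil] at e
      omega
    obtain ⟨⟨g', U'⟩, rfl⟩ := List.length_eq_one_iff.1 hl1
    simp only [cGlue, ite_eq_left_iff, List.cons_ne_nil, imp_false, not_not] at h2
    rcases ls with _ | ⟨⟨g, U⟩, _ | ⟨c, r⟩⟩
    · rcases hstem with ⟨rfl, -⟩ | ⟨U, rfl, -, -⟩
      · simp at hne
      · exact hex rfl (by simpa [qExcl, qLine, hTdef] using hline.symm)
    · apply hlast
      simp [cBot, cTop, qLine] at h2 hline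
      simp [h2, hline, hTdef, qLine]
    · simp [cDown] at h3
  · -- at most `b + b'` steps
    have hg : ∀ (p q : V) (W : Finset V), (cGlue p W q).length ≤ 1 := fun p q W => by
      unfold cGlue; split_ifs <;> simp
    simp only [cLoop, List.length_append, cUp_length, cDown, List.length_map, List.length_tail]
    have := hg (cBot ls' f) (cBot ls (cTop ls' f)) (qLine (ls' ++ v))
    have := hg (cTop ls (cTop ls' f)) (cTop ls' f) (qLine v)
    have := List.length_pos_of_ne_nil hne'
    rcases ls with _ | ⟨c, r⟩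
    · simp [cGlue, cTop] at *
      omega
    · simp only [List.length_cons] at *
      omega

section count

variable [Fintype V]

/-- The walks that a closed path can give. -/
def cWalks (H : Finset (Finset V)) (A : Finset V) (k m : ℕ) : Finset (Fin (m + 1) → V) :=
  if m + 1 ≤ k then onceWalks H A (m + 1) else walks H A (m + 1)

/-- The stems of depth at most one through a point. -/
def cBase (H : Finset (Finset V)) (A : Finset V) (x : V) : Finset (V × Node V) :=
  insert (x, []) ((star H A x).biUnion fun U => (U.erase x).image fun g => (g, [(g, U)]))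

/-- What is needed besides the walk. -/
def cExtra (H : Finset (Finset V)) (A : Finset V) (b' : ℕ) (e : Σ m, Fin (m + 1) → V) :
    Finset ((Finset V × V) × (V × Node V)) :=
  ((star H A (e.2 ⟨(b' - 1) % (e.1 + 1), Nat.mod_lt _ (Nat.succ_pos _)⟩)).biUnion
      fun T => T.image fun g => (T, g)) ×ˢ cBase H A (e.2 0)

/-- The code of a stem and two branches. -/
def cMk (f : V) (v ls ls' : Node V) : Σ _ : (Σ m, Fin (m + 1) → V), (Finset V × V) × (V × Node V) :=
  ⟨⟨(cLoop ls ls' v f).length - 1, fun i => cPt (cTop ls' f) (cLoop ls ls' v f) i⟩,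
    (qLine (ls' ++ v), cBot ls (cTop ls' f)), (f, v)⟩

/-- The code of a pair. -/
def cCode (b b' : ℕ) (e : Σ _ : V, Node V × Node V) :
    Σ _ : (Σ m, Fin (m + 1) → V), (Finset V × V) × (V × Node V) :=
  cMk e.1 (e.2.1.drop b) (e.2.1.take b) (e.2.2.take b')

lemma cWalk_mem (hH : Linear H) {k m : ℕ} {x : V} {s : List (Finset V × V)} (hs : cTrail H A x s x)
    (hnd : (s.map Prod.fst).Nodup) (hm : s.length = m + 1) :
    (fun i : Fin (m + 1) => cPt x s i) ∈ cWalks H A k m := by
  obtain ⟨hend, hstep⟩ := cTrail_step hs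
  have hrot : ∀ i : Fin (m + 1), cPt x s (finRotate (m + 1) i : Fin (m + 1)) = cPt x s (i + 1) := by
    intro i
    rw [finRotate_apply]
    rcases eq_or_ne i (Fin.last m) with rfl | hi
    · rw [Fin.val_add_one, if_pos rfl, Fin.val_last, ← hm, hend]
      simp [cPt]
    · rw [Fin.val_add_one, if_neg hi]
  have hw : (fun i : Fin (m + 1) => cPt x s i) ∈ walks H A (m + 1) := by
    simp only [walks, Finset.mem_filter, Finset.mem_univ, true_and]
    intro i
    rw [hrot i]
    obtain ⟨h1, h2, h3⟩ := hstep i (by have := i.isLt; omega)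
    exact mem_nbr.2 ⟨h1, _, h2, h3⟩
  unfold cWalks
  split_ifs
  · simp only [onceWalks, Finset.mem_filter]
    refine ⟨hw, 0, fun T hT h0 h0' j hj hcon => ?_⟩
    rw [hrot] at h0' hcon
    have key : ∀ i : Fin (m + 1), cPt x s i ∈ T → cPt x s (i + 1) ∈ T →
        T = (s[(i : ℕ)]'(by have := i.isLt; omega)).1 := by
      intro i hi hi'
      obtain ⟨h1, h2, h3⟩ := hstep i (by have := i.isLt; omega)
      obtain ⟨a1, -, a3⟩ := mem_star.1 h2
      exact hH.eq_of_two (mem_alive.1 hT).1 a1 h1 hi' hi h3 a3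
    have e : (s.map Prod.fst)[(0 : ℕ)]'(by simp [hm]) =
        (s.map Prod.fst)[(j : ℕ)]'(by simpa [hm] using j.isLt) := by
      rw [List.getElem_map, List.getElem_map, ← key j hcon.1 hcon.2]
      simpa using (key 0 h0 h0').symm
    exact hj (Fin.ext (by simpa using ((hnd.getElem_inj_iff).1 e).symm))
  · exact hw

lemma cCode_spec (hH : Linear H) {k L a b b' : ℕ} (ha : a ≤ 1) {e : Σ _ : V, Node V × Node V}
    (he : e ∈ A.sigma fun f => qPairs H A {f} L a b b') :
    cCode b b' e ∈ ((Finset.range (b + b')).sigma (cWalks H A k)).sigma (cExtra H A b') ∧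
      ∀ e' ∈ A.sigma (fun f => qPairs H A {f} L a b b'), cCode b b' e' = cCode b b' e → e' = e := by
  obtain ⟨f, p⟩ := e
  classical
  have hp : p ∈ qPairs H A {f} L a b b' := (Finset.mem_sigma.1 he).2
  obtain ⟨v, ls, ls', rfl, hv, hb, hb', hne', hline, htr, hnd, hs1, hsb, hT, hgb, hstem⟩ :=
    cLoop_spec ha hp
  subst hb hb'
  have hdec : (ls ++ v).drop ls.length = v ∧ (ls ++ v).take ls.length = ls ∧
      (ls' ++ v).take ls'.length = ls' := by simp
  simp only [cCode, hdec.1, hdec.2.1, hdec.2.2]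
  set x := cTop ls' f with hx
  set s := cLoop ls ls' v f with hs
  obtain ⟨hend, -⟩ := cTrail_step htr
  have hy : cPt x s ((ls'.length - 1) % (s.length - 1 + 1)) = cBot ls' f := by
    have hle : (cUp ls').length = ls'.length - 1 := cUp_length ls'
    have h1 : cPt x s (ls'.length - 1) = cBot ls' f := by
      rcases eq_or_ne ls' [] with h | _
      · exact absurd h hne'
      · obtain ⟨-, -, hup, -, -⟩ := cBranch ls' hne' (Finset.mem_product.1 (Finset.mem_filter.1 hp).1).2 f
        rw [hs, cLoop, cPt_append _ _ _ (by omega), ← hle]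
        exact (cTrail_step hup).1
    have h2 : ls'.length - 1 ≤ s.length := by rw [hs, cLoop, List.length_append, hle]; omega
    rw [show s.length - 1 + 1 = s.length by omega]
    rcases h2.lt_or_eq with h | h
    · rwa [Nat.mod_eq_of_lt h]
    · rw [h, Nat.mod_self, ← h1, h, hend]
      simp [cPt]
  constructor
  · simp only [cMk, ← hx, ← hs]
    refine Finset.mem_sigma.2 ⟨Finset.mem_sigma.2 ⟨Finset.mem_range.2 (show s.length - 1 < _ by omega),
      cWalk_mem (m := s.length - 1) hH htr hnd (by omega)⟩, ?_⟩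
    simp only [cExtra, Finset.mem_product, Finset.mem_biUnion, Finset.mem_image]
    refine ⟨⟨_, ?_, _, hgb, rfl⟩, ?_⟩
    · show qLine (ls' ++ v) ∈ star H A (cPt x s ((ls'.length - 1) % (s.length - 1 + 1)))
      rw [hy]
      exact hT
    have h0 : cPt x s 0 = x := by simp [cPt]
    simp only [Fin.val_zero, h0, cBase, Finset.mem_insert, Finset.mem_biUnion, Finset.mem_image]
    rcases hstem with ⟨h1, h2⟩ | ⟨U, h1, h2, h3⟩
    · exact Or.inl (by rw [h1, h2])
    · exact Or.inr ⟨U, h2, f, h3, by rw [h1]⟩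
  · rintro ⟨f', p'⟩ he' heq
    have hp' : p' ∈ qPairs H A {f'} L a ls.length ls'.length := (Finset.mem_sigma.1 he').2
    obtain ⟨v₂, ms, ms', rfl, -, hm, hm', hmne', hline₂, htr₂, -, hs1', -, hT₂, -, -⟩ :=
      cLoop_spec ha hp'
    have hdec₂ : (ms ++ v₂).drop ls.length = v₂ ∧ (ms ++ v₂).take ls.length = ms ∧
        (ms' ++ v₂).take ls'.length = ms' := by rw [← hm, ← hm']; simp
    simp only [hdec₂.1, hdec₂.2.1, hdec₂.2.2] at heq
    simp only [cMk, ← hx, ← hs, Sigma.mk.injEq] at heq
    obtain ⟨⟨hlen, hw⟩, hext⟩ := heq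
    have hext := eq_of_heq hext
    simp only [Prod.mk.injEq] at hext
    obtain ⟨⟨hTT, hgg⟩, rfl, rfl⟩ := hext
    set s₂ := cLoop ms ms' v₂ f' with hs₂
    have hll : s₂.length = s.length := by omega
    have hpt : ∀ i, i < s.length → cPt (cTop ms' f') s₂ i = cPt x s i := by
      intro i hi
      rw! (castMode := .all) [show s₂.length - 1 = s.length - 1 by omega] at hw
      have := congrFun (eq_of_heq hw) ⟨i, by omega⟩
      exact this
    have hx0 : cTop ms' f' = x := by simpa [cPt] using hpt 0 (by omega)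
    have hss : s₂ = s := by
      rw [hx0] at htr₂
      refine cTrail_ext hH htr₂ htr (List.ext_getElem (by simp [hll]) fun i hi hi' => ?_)
      simp only [List.length_map] at hi hi'
      have e : cPt x s₂ (i + 1) = cPt x s (i + 1) := by
        rcases (show i + 1 ≤ s.length by omega).lt_or_eq with h | h
        · have := hpt (i + 1) h
          rwa [hx0] at this
        · rw [h, hend, ← hll, (cTrail_step htr₂).1]
      simp only [cPt, List.getD_cons_succ] at e
      rwa [List.getD_eq_getElem _ _ (by simpa using hi), List.getD_eq_getElem _ _ (by simpa using hi')] at e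
    rw [hs₂, hs, cLoop, cLoop] at hss
    obtain ⟨eup, erest⟩ := List.append_inj hss (by simp [cUp_length, hm'])
    have e' : ms' = ls' := by
      refine cUp_inj (x := f') hm' eup ?_ hx0
      obtain ⟨c, r, rfl⟩ := List.exists_cons_of_ne_nil hne'
      obtain ⟨c', r', rfl⟩ := List.exists_cons_of_ne_nil hmne'
      obtain ⟨g, U⟩ := c
      obtain ⟨g', U'⟩ := c'
      simpa [qLine] using hTT
    subst e'
    rw [hgg] at erest
    obtain ⟨edown, -⟩ := List.append_inj (List.append_cancel_left erest) (by simp [cDown, hm])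
    have e : ms = ls := by
      rcases ls with _ | ⟨⟨g, U⟩, r⟩
      · exact List.eq_nil_of_length_eq_zero hm
      · rcases ms with _ | ⟨⟨g', U'⟩, r'⟩
        · simp at hm
        · simp only [cBot, List.head?_cons, Option.map_some, Option.getD_some] at hgg
          simp only [cDown, List.tail_cons] at edown
          simp only [List.cons_append, qLine] at hline hline₂
          rw [List.map_injective_iff.2 Prod.swap_injective edown, hgg, hline₂, hline]
    subst e
    rfl

/-- Walk counts against the trace of a power. -/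
lemma cTrace_le {B : Matrix V V ℝ} (hB0 : ∀ i j, 0 ≤ B i j) (hBs : B.IsSymm) {D : ℝ} (hD : 0 ≤ D)
    (hrow : ∀ i, ∑ j, B i j ≤ D) (j i : ℕ) :
    Matrix.trace (B ^ (j + i + j)) ≤ D ^ i * Matrix.trace (B ^ (j + j)) := by
  have hnn : ∀ (n : ℕ) (p q : V), 0 ≤ (B ^ n) p q := by
    intro n
    induction n with
    | zero => intro p q; simp [Matrix.one_apply]; split_ifs <;> norm_num
    | succ n ih =>
      intro p q; rw [pow_succ, Matrix.mul_apply]
      exact Finset.sum_nonneg fun r _ => mul_nonneg (ih p r) (hB0 r q)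
  have hrown : ∀ (n : ℕ) (p : V), ∑ q, (B ^ n) p q ≤ D ^ n := by
    intro n
    induction n with
    | zero => intro p; simp [Matrix.one_apply]
    | succ n ih =>
      intro p
      simp only [pow_succ, Matrix.mul_apply]
      rw [Finset.sum_comm]
      calc ∑ r, ∑ q, (B ^ n) p r * B r q = ∑ r, (B ^ n) p r * ∑ q, B r q := by simp [Finset.mul_sum]
        _ ≤ ∑ r, (B ^ n) p r * D :=
            Finset.sum_le_sum fun r _ => mul_le_mul_of_nonneg_left (hrow r) (hnn n p r)
        _ ≤ D ^ n * D := by rw [← Finset.sum_mul]; exact mul_le_mul_of_nonneg_right (ih p) hD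
  have hsym : ∀ (n : ℕ) (p q : V), (B ^ n) p q = (B ^ n) q p := fun n p q => ((hBs.pow n).apply q p)
  have h2 : Matrix.trace (B ^ (j + j)) = ∑ f, ∑ g, (B ^ j) f g ^ 2 := by
    simp only [Matrix.trace, Matrix.diag, pow_add, Matrix.mul_apply]
    refine Finset.sum_congr rfl fun f _ => Finset.sum_congr rfl fun g _ => ?_
    rw [hsym j g f, sq]
  rw [h2, Finset.mul_sum]
  simp only [Matrix.trace, Matrix.diag, pow_add, Matrix.mul_apply, Finset.sum_mul]
  refine Finset.sum_le_sum fun f _ => ?_
  rw [Finset.sum_comm]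
  have amgm : ∀ g h, (B ^ j) f g * (B ^ i) g h * (B ^ j) h f ≤
      (B ^ i) g h * (B ^ j) f g ^ 2 / 2 + (B ^ i) h g * (B ^ j) f h ^ 2 / 2 := by
    intro g h
    rw [hsym j h f, hsym i h g]
    nlinarith [mul_nonneg (hnn i g h) (sq_nonneg ((B ^ j) f g - (B ^ j) f h))]
  refine (Finset.sum_le_sum fun g _ => Finset.sum_le_sum fun h _ => amgm g h).trans ?_
  simp only [Finset.sum_add_distrib]
  rw [Finset.sum_comm (f := fun g h => (B ^ i) h g * (B ^ j) f h ^ 2 / 2), ← two_mul, Finset.mul_sum,
    Finset.mul_sum]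
  refine Finset.sum_le_sum fun g _ => ?_
  have e : ∀ h, (B ^ i) g h * (B ^ j) f g ^ 2 / 2 = (B ^ i) g h * ((B ^ j) f g ^ 2 / 2) := fun h => by ring
  simp only [e, ← Finset.sum_mul]
  nlinarith [hrown i g, sq_nonneg ((B ^ j) f g)]

lemma cWalks_card (hw : WalkStmt) (ho : OnceStmt) (k : ℕ) (hk : Even k) (hk4 : 4 ≤ k) : ∃ C : ℝ, 0 ≤ C ∧
    ∀ (V : Type) [Fintype V] [DecidableEq V] (H : Finset (Finset V)) (A : Finset V) (R : ℝ), Linear H →
      1 ≤ R → (∀ f ∈ A, deg H A f ≤ 101 / 100 * R) → ∀ m : ℕ,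
        ((cWalks H A k m).card : ℝ) ≤
          C * (101 / 50 * R) ^ (m + 1) * ((A.card : ℝ) / R ^ (k / 2) + cycleCount H A k) := by
  obtain ⟨C₁, hC₁⟩ := hw k hk hk4
  obtain ⟨C₂, hC₂⟩ := ho k
  refine ⟨max (max C₁ C₂) 0, le_max_right _ _, fun V _ _ H A R hH hR hdeg m => ?_⟩
  set C := max (max C₁ C₂) 0
  set D := 101 / 50 * R with hD
  have hR0 : 0 < R := by linarith
  have hRD : R ≤ D := by linarith
  have hdeg2 : ∀ f ∈ A, deg H A f ≤ 2 * R := fun f hf => (hdeg f hf).trans (by linarith)
  have hcyc : 0 ≤ cycleCount H A k := Finset.sum_nonneg fun _ _ => Nat.cast_nonneg _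
  have hA : 0 ≤ (A.card : ℝ) / R ^ (k / 2) := by positivity
  set M := (A.card : ℝ) / R ^ (k / 2) + cycleCount H A k
  have hC : 0 ≤ C := le_max_right _ _
  unfold cWalks
  split_ifs with hm
  · calc _ ≤ C₂ * R ^ (m + 1) * cycleCount H A k := hC₂ V H A R hH hR hdeg2 _ (by omega) hm
      _ ≤ C * R ^ (m + 1) * cycleCount H A k := by
          gcongr; exact (le_max_right _ _).trans (le_max_left _ _)
      _ ≤ C * D ^ (m + 1) * M := by
          refine mul_le_mul ?_ (by simp [M, hA]) hcyc (by positivity)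
          gcongr
  · obtain ⟨j, rfl⟩ := hk
    obtain ⟨i, hi⟩ : ∃ i, m + 1 = j + i + j := ⟨m + 1 - (j + j), by omega⟩
    rw [← trace_eq_walks A (by omega : 1 ≤ m + 1), hi]
    have hrow : ∀ g, ∑ h, adjM H A g h ≤ D := by
      intro g
      have : ∑ h, adjM H A g h = ((nbr H A g).card : ℝ) := by simp [adjM]
      rw [this, card_nbr hH]
      by_cases hg : g ∈ A
      · linarith [hdeg g hg]
      · have : star H A g = ∅ := Finset.eq_empty_of_forall_notMem fun T hT =>
          hg ((mem_star.1 hT).2.1 (mem_star.1 hT).2.2)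
        simp [deg, this]; positivity
    have hsymm : (adjM H A).IsSymm := by
      refine Matrix.IsSymm.ext fun p q => ?_
      simp only [adjM]
      exact if_congr ⟨nbr_symm, nbr_symm⟩ rfl rfl
    refine (cTrace_le (fun p q => by simp [adjM]; split_ifs <;> norm_num) hsymm (by positivity) hrow j i).trans ?_
    calc D ^ i * Matrix.trace (adjM H A ^ (j + j))
        ≤ D ^ i * (C₁ * ((A.card : ℝ) * R ^ ((j + j) / 2) + R ^ (j + j) * cycleCount H A (j + j))) := by
          gcongr; exact hC₁ V H A R hH hR hdeg2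
      _ ≤ D ^ i * (C * ((A.card : ℝ) * R ^ ((j + j) / 2) + R ^ (j + j) * cycleCount H A (j + j))) := by
          gcongr; exact (le_max_left _ _).trans (le_max_left _ _)
      _ = C * (D ^ i * R ^ (j + j)) * M := by
          have hj : (j + j) / 2 = j := by omega
          simp only [M, hj, pow_add]
          field_simp
      _ ≤ C * (D ^ i * D ^ (j + j)) * M := by gcongr
      _ = C * D ^ (j + i + j) * M := by ring

lemma cPairs_top {hH : Linear H} {R : ℝ} (hR : 1 ≤ R) (hdeg : ∀ f ∈ A, deg H A f ≤ 101 / 100 * R)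
    {k L a b b' : ℕ} (ha : a ≤ 1) {C : ℝ} (hC : 0 ≤ C) {M : ℝ} (hM : 0 ≤ M)
    (hW : ∀ m : ℕ, ((cWalks H A k m).card : ℝ) ≤ C * (101 / 50 * R) ^ (m + 1) * M) :
    ∑ f ∈ A, ((qPairs H A {f} L a b b').card : ℝ) ≤ 30 * C * R ^ 2 * (101 / 50 * R) ^ (b + b') * M := by
  set D := 101 / 50 * R with hD
  have h1 : (A.sigma fun f => qPairs H A {f} L a b b').card ≤
      (((Finset.range (b + b')).sigma (cWalks H A k)).sigma (cExtra H A b')).card :=
    Finset.card_le_card_of_injOn (cCode b b') (fun e he => (cCode_spec hH ha he).1)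
      fun e he e' he' h => ((cCode_spec (k := k) hH ha he).2 e' he' h.symm).symm
  have hstar : ∀ f, ((star H A f).card : ℝ) ≤ 101 / 100 * R := by
    intro f
    by_cases hf : f ∈ A
    · exact hdeg f hf
    · have : star H A f = ∅ := Finset.eq_empty_of_forall_notMem fun T hT =>
          hf ((mem_star.1 hT).2.1 (mem_star.1 hT).2.2)
      simp [this]; positivity
  have hex : ∀ e : Σ m, Fin (m + 1) → V, ((cExtra H A b' e).card : ℝ) ≤ 15 * R ^ 2 := by
    intro e
    simp only [cExtra, Finset.card_product]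
    push_cast
    set y := e.2 ⟨(b' - 1) % (e.1 + 1), Nat.mod_lt _ (Nat.succ_pos _)⟩
    have a1 : ((star H A y).biUnion fun T => T.image fun g => (T, g)).card ≤ (star H A y).card * 3 :=
      Finset.card_biUnion_le_card_mul _ _ _ fun T hT =>
        Finset.card_image_le.trans (hH.card3 T (mem_star.1 hT).1).le
    have a2 : (cBase H A (e.2 0)).card ≤ (star H A (e.2 0)).card * 3 + 1 :=
      (Finset.card_insert_le _ _).trans (Nat.add_le_add_right (Finset.card_biUnion_le_card_mul _ _ _
        fun U hU => Finset.card_image_le.trans ((Finset.card_erase_le).trans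
          (hH.card3 U (mem_star.1 hU).1).le)) 1)
    have b1 := (Nat.cast_le (α := ℝ)).2 a1
    have b2 := (Nat.cast_le (α := ℝ)).2 a2
    push_cast at b1 b2
    have := hstar y; have := hstar (e.2 0)
    calc _ ≤ (101 / 100 * R * 3) * (101 / 100 * R * 3 + 1) :=
          mul_le_mul (by linarith) (by linarith) (Nat.cast_nonneg _) (by positivity)
      _ ≤ 15 * R ^ 2 := by nlinarith
  have hgeo : ∀ n : ℕ, ∑ m ∈ Finset.range n, D ^ (m + 1) ≤ 2 * D ^ n := by
    intro n
    induction n with
    | zero => simp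
    | succ n ih =>
      rw [Finset.sum_range_succ, pow_succ]
      have : (0 : ℝ) ≤ D ^ n := by positivity
      nlinarith
  have h2 := (Nat.cast_le (α := ℝ)).2 h1
  simp only [Finset.card_sigma, Nat.cast_sum, Finset.sum_sigma] at h2
  refine h2.trans ?_
  calc ∑ m ∈ Finset.range (b + b'), ∑ w ∈ cWalks H A k m, ((cExtra H A b' ⟨m, w⟩).card : ℝ)
      ≤ ∑ m ∈ Finset.range (b + b'), C * D ^ (m + 1) * M * (15 * R ^ 2) := by
        refine Finset.sum_le_sum fun m _ => ?_
        calc _ ≤ ∑ _w ∈ cWalks H A k m, 15 * R ^ 2 := Finset.sum_le_sum fun w _ => hex _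
          _ = ((cWalks H A k m).card : ℝ) * (15 * R ^ 2) := by simp
          _ ≤ _ := mul_le_mul_of_nonneg_right (hW m) (by positivity)
    _ = C * M * (15 * R ^ 2) * ∑ m ∈ Finset.range (b + b'), D ^ (m + 1) := by
        rw [Finset.mul_sum]; exact Finset.sum_congr rfl fun m _ => by ring
    _ ≤ C * M * (15 * R ^ 2) * (2 * D ^ (b + b')) := by gcongr; exact hgeo _
    _ = _ := by ring

/-- The stems ending at a given step. -/
def cStems (H : Finset (Finset V)) (A : Finset V) (a : ℕ) (t : V × Finset V) : Finset (Σ _ : V, Node V) :=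
  (A.sigma fun f => qLvl H A {f} a).filter fun e => e.2.head? = some t

lemma cStems_card (hH : Linear H) {D : ℝ} (hD : 0 ≤ D)
    (hdeg : ∀ f, 2 * ((star H A f).card : ℝ) ≤ D) :
    ∀ (a : ℕ) (t : V × Finset V), ((cStems H A (a + 1) t).card : ℝ) ≤ D ^ a
  | 0, t => by
    have h : (cStems H A 1 t).card ≤ ({⟨t.1, [t]⟩} : Finset (Σ _ : V, Node V)).card := by
      refine Finset.card_le_card fun e he => ?_
      obtain ⟨f, l⟩ := e
      obtain ⟨hm, hh⟩ := Finset.mem_filter.1 he
      obtain ⟨-, hl⟩ := Finset.mem_sigma.1 hm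
      simp only [qLvl, Finset.singleton_biUnion] at hl
      obtain ⟨g, hg, U, -, -, rfl⟩ := mem_qKids.1 hl
      simp only [qPts, Finset.mem_singleton] at hg
      simp only [List.head?_cons, Option.some.injEq] at hh
      subst hg hh
      simp
    simpa using (Nat.cast_le (α := ℝ)).2 h
  | a + 1, t => by
    classical
    let P := (star H A t.1).biUnion fun U => (U.erase t.1).image fun g => (g, U)
    have h : (cStems H A (a + 2) t).card ≤ (P.sigma fun t' => cStems H A (a + 1) t').card := by
      refine Finset.card_le_card_of_injOn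
        (fun e => ⟨(e.2.tail.head?).getD t, ⟨e.1, e.2.tail⟩⟩) (fun e he => ?_) ?_
      · obtain ⟨f, l⟩ := e
        obtain ⟨hm, hh⟩ := Finset.mem_filter.1 (Finset.mem_coe.1 he)
        obtain ⟨hf, hl⟩ := Finset.mem_sigma.1 hm
        simp only [qLvl, Finset.mem_biUnion] at hl
        obtain ⟨l₁, hl₁, hc⟩ := hl
        obtain ⟨g, hg, U, -, -, rfl⟩ := mem_qKids.1 hc
        obtain ⟨l₂, hl₂, hc₂⟩ := hl₁
        obtain ⟨g', -, U', hU', -, rfl⟩ := mem_qKids.1 hc₂
        simp only [List.head?_cons, Option.some.injEq] at hh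
        subst hh
        obtain ⟨hne, hgU⟩ := Finset.mem_erase.1 hg
        obtain ⟨a1, a2, a3⟩ := mem_star.1 hU'
        refine Finset.mem_coe.2 (Finset.mem_sigma.2 ⟨?_, Finset.mem_filter.2 ⟨Finset.mem_sigma.2 ⟨hf, ?_⟩, by simp⟩⟩)
        · simp only [List.tail_cons, List.head?_cons, Option.getD_some, P, Finset.mem_biUnion,
            Finset.mem_image]
          exact ⟨U', mem_star.2 ⟨a1, a2, hgU⟩, g', Finset.mem_erase.2 ⟨Ne.symm hne, a3⟩, rfl⟩
        · simp only [List.tail_cons, qLvl, Finset.mem_biUnion]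
          exact ⟨l₂, hl₂, hc₂⟩
      · intro e he e' he' h
        obtain ⟨f, l⟩ := e
        obtain ⟨f', l'⟩ := e'
        simp only [Sigma.mk.injEq, heq_eq_eq] at h
        obtain ⟨-, hf, hl⟩ := h
        have h1 := (Finset.mem_filter.1 (Finset.mem_coe.1 he)).2
        have h2 := (Finset.mem_filter.1 (Finset.mem_coe.1 he')).2
        rcases l with _ | ⟨c, r⟩
        · simp at h1
        rcases l' with _ | ⟨c', r'⟩
        · simp at h2
        simp only [List.head?_cons, Option.some.injEq, List.tail_cons] at h1 h2 hl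
        subst hf hl
        rw [h1, h2]
    have hP : (P.card : ℝ) ≤ D := by
      have hn : P.card ≤ (star H A t.1).card * 2 :=
        Finset.card_biUnion_le_card_mul _ _ _ fun U hU => Finset.card_image_le.trans (by
          rw [Finset.card_erase_of_mem (mem_star.1 hU).2.2, hH.card3 U (mem_star.1 hU).1])
      have hn := (Nat.cast_le (α := ℝ)).2 hn
      push_cast at hn
      linarith [hdeg t.1]
    have h2 := (Nat.cast_le (α := ℝ)).2 h
    simp only [Finset.card_sigma, Nat.cast_sum] at h2
    calc _ ≤ ∑ t' ∈ P, ((cStems H A (a + 1) t').card : ℝ) := h2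
      _ ≤ ∑ _t' ∈ P, D ^ a := Finset.sum_le_sum fun t' _ => cStems_card hH hD hdeg a t'
      _ ≤ D ^ (a + 1) := by
        rw [Finset.sum_const, nsmul_eq_mul, pow_succ, mul_comm (D ^ a)]
        exact mul_le_mul_of_nonneg_right hP (pow_nonneg hD a)

lemma cLow_mem {f g : V} {U : Finset V} {r : Node V} {L : ℕ} : ∀ ls : Node V,
    ls ++ (g, U) :: r ∈ qNodes H A {f} L → ls ++ [(g, U)] ∈ qNodes H A {g} L
  | [], h => by
    obtain ⟨-, hc, hlt⟩ := qTail_mem (l := r) h
    obtain ⟨g', -, U', hU', -, he⟩ := mem_qKids.1 hc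
    simp only [List.cons.injEq, Prod.mk.injEq, and_true] at he
    obtain ⟨rfl, rfl⟩ := he
    exact qKids_mem_nodes qNil_mem (by simp; omega)
      (mem_qKids.2 ⟨g, by simp [qPts], U, hU', by simp [qExcl], rfl⟩)
  | c :: ls, h => by
    obtain ⟨hl, hc, hlt⟩ := qTail_mem (l := ls ++ (g, U) :: r) h
    refine qKids_mem_nodes (cLow_mem ls hl) (by simp at hlt ⊢; omega) ?_
    obtain ⟨g₁, h1, U₁, h2, h3, he⟩ := mem_qKids.1 hc
    simp only [List.cons.injEq, and_true] at he
    refine mem_qKids.2 ⟨g₁, ?_, U₁, h2, ?_, by rw [he]; rfl⟩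
    · rcases ls with _ | ⟨⟨p, q⟩, ls⟩ <;> simpa [qPts] using h1
    · rcases ls with _ | ⟨⟨p, q⟩, ls⟩ <;> simpa [qExcl] using h3

lemma cPairs_low {hH : Linear H} {D : ℝ} (hD : 0 ≤ D) (hdeg : ∀ f, 2 * ((star H A f).card : ℝ) ≤ D)
    {L a b b' : ℕ} :
    ∑ f ∈ A, ((qPairs H A {f} L (a + 1) b b').card : ℝ) ≤
      D ^ a * ∑ f ∈ A, ((qPairs H A {f} L 1 b b').card : ℝ) := by
  classical
  let S := A.sigma fun f => qPairs H A {f} L 1 b b'
  let top : (Σ _ : V, Node V × Node V) → V × Finset V := fun e => ((e.2.1.drop b).head?).getD (e.1, ∅)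
  have h : (A.sigma fun f => qPairs H A {f} L (a + 1) b b').card ≤
      (S.sigma fun e => cStems H A (a + 1) (top e)).card := by
    refine Finset.card_le_card_of_injOn
      (fun e => ⟨⟨(((e.2.1.drop b).head?).getD (e.1, ∅)).1,
        (e.2.1.take (b + 1), e.2.2.take (b' + 1))⟩, ⟨e.1, e.2.1.drop b⟩⟩) (fun e he => ?_) ?_
    · obtain ⟨f, p⟩ := e
      obtain ⟨hf, hp⟩ := Finset.mem_sigma.1 (Finset.mem_coe.1 he)
      obtain ⟨hmem, v, ls, ls', rfl, hv, hb, hb', hne', -, hlast, hline, hnd⟩ := Finset.mem_filter.1 hp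
      obtain ⟨hm, hm'⟩ := Finset.mem_product.1 hmem
      rcases v with _ | ⟨⟨g, U⟩, r⟩
      · simp at hv
      subst hb hb'
      have hgA : g ∈ A := by
        obtain ⟨-, hc, -⟩ := qTail_mem (l := r) (cNode_suffix ls hm)
        obtain ⟨g', -, U', hU', -, he⟩ := mem_qKids.1 hc
        simp only [List.cons.injEq, Prod.mk.injEq, and_true] at he
        obtain ⟨rfl, rfl⟩ := he
        exact (mem_star.1 hU').2.1 (mem_star.1 hU').2.2
      have e1 : (ls ++ (g, U) :: r).take (ls.length + 1) = ls ++ [(g, U)] := by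
        simp [List.take_append]
      have e2 : (ls' ++ (g, U) :: r).take (ls'.length + 1) = ls' ++ [(g, U)] := by
        simp [List.take_append]
      have e3 : (ls ++ (g, U) :: r).drop ls.length = (g, U) :: r := by simp
      refine Finset.mem_coe.2 (Finset.mem_sigma.2 ⟨Finset.mem_sigma.2 ⟨by simpa [e3] using hgA, ?_⟩, ?_⟩)
      · simp only [e1, e2, e3, List.head?_cons, Option.getD_some]
        refine Finset.mem_filter.2 ⟨Finset.mem_product.2 ⟨cLow_mem ls hm, cLow_mem ls' hm'⟩,
          [(g, U)], ls, ls', rfl, rfl, rfl, rfl, hne', by simp, hlast, ?_, by simpa using hnd⟩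
        rcases ls with _ | ⟨⟨p, q⟩, ls⟩ <;> rcases ls' with _ | ⟨⟨p', q'⟩, ls'⟩ <;>
          simpa [qLine] using hline
      · refine Finset.mem_filter.2 ⟨Finset.mem_sigma.2 ⟨hf, ?_⟩, ?_⟩
        · have := (mem_qNodes.1 (cNode_suffix ls hm)).2
          simp only [List.length_cons] at this hv
          simpa [e3, ← hv] using this
        · simp [top, e1, e3]
    · intro e he e' he' h
      obtain ⟨f, p⟩ := e
      obtain ⟨f₂, p₂⟩ := e'
      simp only [Sigma.mk.injEq, heq_eq_eq, Prod.mk.injEq] at h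
      obtain ⟨⟨-, h1, h2⟩, rfl, h3⟩ := h
      obtain ⟨-, v, ls, ls', rfl, -, rfl, rfl, -⟩ :=
        Finset.mem_filter.1 (Finset.mem_sigma.1 (Finset.mem_coe.1 he)).2
      obtain ⟨-, w, ms, ms', rfl, hw, hm, hm', -⟩ :=
        Finset.mem_filter.1 (Finset.mem_sigma.1 (Finset.mem_coe.1 he')).2
      simp only at h1 h2 h3
      have d1 : (ms ++ w).drop ls.length = w := by rw [← hm]; simp
      rw [List.drop_left, d1] at h3
      subst h3
      have t1 := congrArg (List.take ls.length) h1
      have t2 := congrArg (List.take ls'.length) h2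
      simp only [List.take_take, Nat.min_eq_left (Nat.le_succ _), List.take_left] at t1 t2
      rw [show (ms ++ v).take ls.length = ms by rw [← hm]; simp] at t1
      rw [show (ms' ++ v).take ls'.length = ms' by rw [← hm']; simp] at t2
      subst t1 t2
      rfl
  have h2 := (Nat.cast_le (α := ℝ)).2 h
  simp only [Finset.card_sigma, Nat.cast_sum] at h2
  refine h2.trans ?_
  calc ∑ e ∈ S, ((cStems H A (a + 1) (top e)).card : ℝ)
      ≤ ∑ _e ∈ S, D ^ a := Finset.sum_le_sum fun e _ => cStems_card hH hD hdeg a _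
    _ = D ^ a * ∑ f ∈ A, ((qPairs H A {f} L 1 b b').card : ℝ) := by
        simp only [Finset.sum_const, nsmul_eq_mul, S, Finset.card_sigma, Nat.cast_sum]
        ring

theorem q_count (hw : WalkStmt) (ho : OnceStmt) : QCountStmt := by
  intro k hk hk4
  obtain ⟨C, hC, hW⟩ := cWalks_card hw ho k hk hk4
  refine ⟨30 * C, fun V _ _ H A R hH hR hdeg L a b b' => ?_⟩
  set D := 101 / 50 * R with hD
  set M := (A.card : ℝ) / R ^ (k / 2) + cycleCount H A k
  have hM : 0 ≤ M := add_nonneg (by positivity) (Finset.sum_nonneg fun _ _ => Nat.cast_nonneg _)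
  have hD1 : 1 ≤ D := by linarith
  have hstar : ∀ f, 2 * ((star H A f).card : ℝ) ≤ D := by
    intro f
    by_cases hf : f ∈ A
    · have := hdeg f hf; simp only [deg] at this; linarith
    · have : star H A f = ∅ := Finset.eq_empty_of_forall_notMem fun T hT =>
          hf ((mem_star.1 hT).2.1 (mem_star.1 hT).2.2)
      simp [this]; linarith
  have top : ∀ a ≤ 1, ∑ f ∈ A, ((qPairs H A {f} L a b b').card : ℝ) ≤
      30 * C * R ^ 2 * D ^ (b + b') * M := fun a ha =>
    cPairs_top (hH := hH) hR hdeg ha hC hM (hW V H A R hH hR hdeg)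
  rcases a with _ | a
  · simpa [add_assoc] using top 0 zero_le_one
  · refine (cPairs_low (hH := hH) (by linarith) hstar).trans ?_
    calc D ^ a * ∑ f ∈ A, ((qPairs H A {f} L 1 b b').card : ℝ)
        ≤ D ^ a * (30 * C * R ^ 2 * D ^ (b + b') * M) :=
          mul_le_mul_of_nonneg_left (top 1 le_rfl) (by positivity)
      _ = 30 * C * R ^ 2 * D ^ (a + (b + b')) * M := by ring
      _ ≤ 30 * C * R ^ 2 * D ^ (a + 1 + b + b') * M := by
          gcongr 30 * C * R ^ 2 * ?_ * M
          exact pow_le_pow_right₀ hD1 (by omega)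

end count

end

end Vale.Agent.P046.Full
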