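import Mathlib
import Vale.Agent.P046.Full.QStatements

/-!
# P046, exact constant: the tree value is the probability of being alive
-/

open Finset MeasureTheory Filter

namespace Vale.Agent.P046.Full

open Vale.Agent.P046

noncomputable section

variable {V : Type} [DecidableEq V] {H : Finset (Finset V)} {A roots : Finset V}
  {Y : V → Finset V → ℝ → ℝ} {L : ℕ}

private lemma lineInt_mem (hfix : IsFix H A Y) (hY : ∀ f T, Continuous (Y f T)) (g : V) (U : Finset V)
    {t : ℝ} (ht : t ∈ Set.Icc (0 : ℝ) 1) : lineInt Y g U t ∈ Set.Icc (0 : ℝ) 1 := by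
  have hc : Continuous fun s => ∏ h ∈ U.erase g, Y h U s := continuous_finsetProd _ fun h _ => hY h U
  have hb : ∀ s ∈ Set.Icc (0 : ℝ) t, ∏ h ∈ U.erase g, Y h U s ∈ Set.Icc (0 : ℝ) 1 := fun s hs =>
    have hs' : s ∈ Set.Icc (0 : ℝ) 1 := ⟨hs.1, hs.2.trans ht.2⟩
    ⟨Finset.prod_nonneg fun h _ => (hfix.mem h U s hs').1,
      Finset.prod_le_one (fun h _ => (hfix.mem h U s hs').1) fun h _ => (hfix.mem h U s hs').2⟩
  refine ⟨intervalIntegral.integral_nonneg ht.1 fun s hs => (hb s hs).1, ?_⟩
  refine (intervalIntegral.integral_mono_on ht.1 (hc.intervalIntegrable 0 t) intervalIntegrable_const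
    fun s hs => (hb s hs).2).trans ?_
  simpa using ht.2

private lemma qVal_mem (hfix : IsFix H A Y) (hY : ∀ f T, Continuous (Y f T)) (x : Node V)
    {t : ℝ} (ht : t ∈ Set.Icc (0 : ℝ) 1) : qVal H A roots Y x t ∈ Set.Icc (0 : ℝ) 1 := by
  have h := fun g U => lineInt_mem hfix hY g U ht
  have h0 : ∀ g, 0 ≤ ∏ U ∈ star H A g \ qExcl x, (1 - lineInt Y g U t) := fun g =>
    Finset.prod_nonneg fun U _ => by linarith [(h g U).2]
  refine ⟨Finset.prod_nonneg fun g _ => h0 g, Finset.prod_le_one (fun g _ => h0 g) fun g _ => ?_⟩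
  exact Finset.prod_le_one (fun U _ => by linarith [(h g U).2]) fun U _ => by linarith [(h g U).1]

private lemma qVal_kid (hfix : IsFix H A Y) {x : Node V} {g : V} {U : Finset V} (hU : U ∈ star H A g)
    {t : ℝ} (ht : t ∈ Set.Icc (0 : ℝ) 1) :
    qVal H A roots Y ((g, U) :: x) t = ∏ h ∈ U.erase g, Y h U t := by
  simp only [qVal, qPts, qExcl]
  refine Finset.prod_congr rfl fun h hh => ?_
  have hal : U ∈ alive H A := (Finset.mem_filter.1 hU).1
  have hmem : h ∈ U := Finset.mem_of_mem_erase hh
  rw [Finset.sdiff_singleton_eq_erase,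
    hfix.eqn h ((Finset.mem_filter.1 hal).2 hmem) U (Finset.mem_filter.2 ⟨hal, hmem⟩) t ht]

/-- The product over all children is the value of the node. -/
private lemma prod_kids (x : Node V) (t : ℝ) :
    ∏ c ∈ qKids H A roots x, (1 - qKidI Y c t) = qVal H A roots Y x t := by
  unfold qKids qVal
  rw [Finset.prod_biUnion]
  · refine Finset.prod_congr rfl fun g _ => ?_
    rw [Finset.prod_image]
    · exact Finset.prod_congr rfl fun U _ => by simp [qKidI]
    · intro U _ U' _ h
      simpa using h
  · intro g _ g' _ hne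
    refine Finset.disjoint_left.2 fun c hc hc' => hne ?_
    obtain ⟨U, -, rfl⟩ := Finset.mem_image.1 hc
    obtain ⟨U', -, he⟩ := Finset.mem_image.1 hc'
    simp only [List.cons.injEq, Prod.mk.injEq] at he
    exact he.1.1.symm

private lemma qUnif_real_Iic {q : ℝ} (hq : q ∈ Set.Icc (0 : ℝ) 1) : qUnif.real (Set.Iic q) = q := by
  rw [qUnif, measureReal_restrict_apply measurableSet_Iic, Set.inter_comm, ← Set.Ici_inter_Iic,
    Set.inter_assoc, Set.Iic_inter_Iic, Set.Ici_inter_Iic, min_eq_right hq.2, Real.volume_real_Icc,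
    sub_zero, max_eq_left hq.1]

/-- Integrate the clock of a child. -/
private lemma kid_alive (hfix : IsFix H A Y) (hY : ∀ f T, Continuous (Y f T)) {t : ℝ}
    (ht : t ∈ Set.Icc (0 : ℝ) 1) {d : ℕ} {x c : Node V} (hc : c ∈ qKids H A roots x)
    (hcn : c ∈ qNodes H A roots L)
    (ih : ∀ s ∈ Set.Icc (0 : ℝ) 1,
      (qMeas H A roots L).real {w | qAlive H A roots Y (qExt w) d c s} = qVal H A roots Y c s) :
    (qMeas H A roots L).real
        {w | qExt w (c, false) < t ∧ qAlive H A roots Y (qExt w) d c (qExt w (c, false))} =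
      qKidI Y c t := by
  classical
  set i₀ : QI H A roots L := ⟨(c, false), by simp [qIdx, hcn]⟩ with hi₀
  set E := {w : QI H A roots L → ℝ |
    qExt w (c, false) < t ∧ qAlive H A roots Y (qExt w) d c (qExt w (c, false))} with hE
  have hm : MeasurableSet E :=
    (measurableSet_lt (qExt_measurable _) measurable_const).inter
      (qAlive_measurable_fun hY d c (qExt_measurable _))
  have hiE : Integrable (E.indicator (1 : (QI H A roots L → ℝ) → ℝ))
      (Measure.pi fun _ : QI H A roots L => qUnif) := (integrable_const (1 : ℝ)).indicator hm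
  have key : ∀ (w : QI H A roots L → ℝ) (s : ℝ), E.indicator (1 : (QI H A roots L → ℝ) → ℝ)
      (Function.update w i₀ s) = if s < t then
        {w | qAlive H A roots Y (qExt w) d c s}.indicator (1 : (QI H A roots L → ℝ) → ℝ) w else 0 := by
    intro w s
    have h1 : qExt (Function.update w i₀ s) (c, false) = s := by
      rw [qExt_mem false hcn]; exact Function.update_self _ _ _
    have h2 : ∀ τ, qAlive H A roots Y (qExt (Function.update w i₀ s)) d c τ ↔
        qAlive H A roots Y (qExt w) d c τ := fun τ => by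
      refine qAlive_congr d c (fun y b _ hne => ?_) τ
      unfold qExt
      split_ifs with h
      · exact Function.update_of_ne (fun e => hne (congrArg Subtype.val e)) _ _
      · rfl
    simp only [Set.indicator_apply, hE, Set.mem_setOf_eq, h1, h2, Pi.one_apply]
    by_cases hs : s < t <;> simp [hs]
  unfold qMeas
  rw [← integral_indicator_one hm, q_integral_coord qUnif i₀ hiE]
  simp only [key]
  have e : ∀ s ∈ Set.Icc (0 : ℝ) 1, (∫ w : QI H A roots L → ℝ, (if s < t then
      {w | qAlive H A roots Y (qExt w) d c s}.indicator (1 : (QI H A roots L → ℝ) → ℝ) w else 0)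
      ∂(Measure.pi fun _ : QI H A roots L => qUnif)) =
        (Set.Iio t).indicator (fun s => qVal H A roots Y c s) s := by
    intro s hs
    by_cases hst : s < t
    · simp only [if_pos hst, Set.indicator_of_mem (Set.mem_Iio.2 hst)]
      rw [integral_indicator_one (qAlive_measurable_fun hY d c measurable_const)]
      exact ih s hs
    · simp [hst, Set.indicator_of_notMem (show s ∉ Set.Iio t from hst)]
  have hae : ∀ᵐ s ∂qUnif, s ∈ Set.Icc (0 : ℝ) 1 := ae_restrict_mem measurableSet_Icc
  rw [integral_congr_ae (hae.mono fun s hs => e s hs), qUnif,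
    setIntegral_indicator measurableSet_Iio,
    show Set.Icc (0 : ℝ) 1 ∩ Set.Iio t = Set.Ico 0 t from by
      ext s
      simp only [Set.mem_inter_iff, Set.mem_Icc, Set.mem_Iio, Set.mem_Ico]
      exact ⟨fun h => ⟨h.1.1, h.2⟩, fun h => ⟨⟨h.1, h.2.le.trans ht.2⟩, h.2⟩⟩,
    setIntegral_congr_set (Ico_ae_eq_Ioc (μ := volume) (a := (0 : ℝ)) (b := t))]
  obtain ⟨g, -, U, hU, -, rfl⟩ := mem_qKids.1 hc
  simp only [qKidI, lineInt]
  rw [intervalIntegral.integral_of_le ht.1]
  exact setIntegral_congr_fun measurableSet_Ioc fun s hs =>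
    qVal_kid hfix hU ⟨hs.1.le, hs.2.trans ht.2⟩

/-- Children act on disjoint coordinates. -/
private lemma kids_dead (hfix : IsFix H A Y) (hY : ∀ f T, Continuous (Y f T)) {t : ℝ}
    (ht : t ∈ Set.Icc (0 : ℝ) 1) {d : ℕ} {x : Node V} (hx : x ∈ qNodes H A roots L)
    (hlen : x.length < L) {S : Finset (Node V)} (hS : S ⊆ qKids H A roots x)
    (ih : ∀ c ∈ qKids H A roots x, ∀ s ∈ Set.Icc (0 : ℝ) 1,
      (qMeas H A roots L).real {w | qAlive H A roots Y (qExt w) d c s} = qVal H A roots Y c s) :
    (qMeas H A roots L).real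
        {w | ∀ c ∈ S, qExt w (c, false) < t → ¬ qAlive H A roots Y (qExt w) d c (qExt w (c, false))} =
      ∏ c ∈ S, (1 - qKidI Y c t) := by
  classical
  set E : Node V → Set (QI H A roots L → ℝ) := fun c =>
    {w | qExt w (c, false) < t → ¬ qAlive H A roots Y (qExt w) d c (qExt w (c, false))} with hE
  have hm : ∀ c, MeasurableSet (E c) := fun c => by
    have e : E c = {w | qExt w (c, false) < t ∧ qAlive H A roots Y (qExt w) d c (qExt w (c, false))}ᶜ := by
      ext w; simp only [hE, Set.mem_setOf_eq, Set.mem_compl_iff, not_and]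
    rw [e]
    exact ((measurableSet_lt (qExt_measurable _) measurable_const).inter
      (qAlive_measurable_fun hY d c (qExt_measurable _))).compl
  have he : {w : QI H A roots L → ℝ |
      ∀ c ∈ S, qExt w (c, false) < t → ¬ qAlive H A roots Y (qExt w) d c (qExt w (c, false))} =
        ⋂ c ∈ S, E c := by
    ext w; simp [hE]
  have hone : ∀ w : QI H A roots L → ℝ, (⋂ c ∈ S, E c).indicator (1 : (QI H A roots L → ℝ) → ℝ) w =
      ∏ c ∈ S, (E c).indicator (1 : (QI H A roots L → ℝ) → ℝ) w := by
    intro w
    by_cases h : ∀ c ∈ S, w ∈ E c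
    · rw [Set.indicator_of_mem (by simpa using h), Pi.one_apply,
        Finset.prod_eq_one fun c hc => Set.indicator_of_mem (h c hc) _]
    · push Not at h
      obtain ⟨c, hc, hwc⟩ := h
      rw [Set.indicator_of_notMem (by simpa using ⟨c, hc, hwc⟩),
        Finset.prod_eq_zero hc (Set.indicator_of_notMem hwc _)]
  unfold qMeas
  rw [he, ← integral_indicator_one (Finset.measurableSet_biInter S fun c _ => hm c)]
  simp only [hone]
  rw [q_integral_prod qUnif S (s := fun c => Finset.univ.filter fun i : QI H A roots L => c <:+ i.1.1)]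
  · refine Finset.prod_congr rfl fun c hc => ?_
    have hcn := qKids_mem_nodes hx hlen (hS hc)
    have e : E c = {w | qExt w (c, false) < t ∧ qAlive H A roots Y (qExt w) d c (qExt w (c, false))}ᶜ := by
      ext w; simp only [hE, Set.mem_setOf_eq, Set.mem_compl_iff, not_and]
    rw [integral_indicator_one (hm c), e, probReal_compl_eq_one_sub]
    · exact congrArg (1 - ·) (kid_alive hfix hY ht (hS hc) hcn (ih c (hS hc)))
    · exact (measurableSet_lt (qExt_measurable _) measurable_const).inter
        (qAlive_measurable_fun hY d c (qExt_measurable _))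
  · intro c _ w w' h
    have hext : ∀ y b, c <:+ y → qExt w (y, b) = qExt w' (y, b) := fun y b hy => by
      unfold qExt
      split_ifs with hi
      · exact h _ (by simp [hy])
      · rfl
    have hiff : w ∈ E c ↔ w' ∈ E c := by
      simp only [hE, Set.mem_setOf_eq]
      rw [hext c false (List.suffix_refl c), qAlive_congr d c fun y b hy _ => hext y b hy]
    simp only [Set.indicator_apply, Pi.one_apply, hiff]
  · intro c hc c' hc' hne
    refine Finset.disjoint_left.2 fun i hi hi' => hne ?_
    simp only [Finset.mem_filter, Finset.mem_univ, true_and] at hi hi'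
    have hl : c.length = c'.length := by
      rw [qKids_length (hS hc), qKids_length (hS hc')]
    exact (List.suffix_of_suffix_length_le hi hi' hl.le).eq_of_length hl
  · exact fun c _ => (measurable_const.indicator (hm c))
  · intro c _ w
    by_cases h : w ∈ E c <;> simp [h]

private lemma alive_prob (hfix : IsFix H A Y) (hY : ∀ f T, Continuous (Y f T)) :
    ∀ (d : ℕ) (x : Node V), x ∈ qNodes H A roots L → x.length + d = L → ∀ t ∈ Set.Icc (0 : ℝ) 1,
      (qMeas H A roots L).real {w | qAlive H A roots Y (qExt w) d x t} = qVal H A roots Y x t := by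
  intro d
  induction d with
  | zero =>
    intro x hx _ t ht
    have hi : (x, true) ∈ qIdx H A roots L := by simp [qIdx, hx]
    have e : {w : QI H A roots L → ℝ | qAlive H A roots Y (qExt w) 0 x t} =
        Function.eval (⟨(x, true), hi⟩ : QI H A roots L) ⁻¹' Set.Iic (qVal H A roots Y x t) := by
      ext w
      simp only [qAlive, qExt_mem true hx, Set.mem_setOf_eq, Set.mem_preimage, Set.mem_Iic,
        Function.eval]
    rw [e, qMeas, measureReal_def,
      (measurePreserving_eval (fun _ : QI H A roots L => qUnif) _).measure_preimage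
        measurableSet_Iic.nullMeasurableSet,
      ← measureReal_def, qUnif_real_Iic (qVal_mem hfix hY x ht)]
  | succ d ih =>
    intro x hx hlen t ht
    simp only [qAlive]
    rw [kids_dead hfix hY ht hx (by omega) subset_rfl fun c hc =>
      ih c (qKids_mem_nodes hx (by omega) hc) (by rw [qKids_length hc]; omega), prod_kids]

/-- The tree value is the probability of being alive. -/
theorem q_expect : QExpectStmt := by
  intro V _ H A Y _ hfix hY roots _ L x hx t ht d
  exact ⟨fun h => alive_prob hfix hY d x hx h t ht, fun h S hS =>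
    kids_dead hfix hY ht hx (by omega) hS fun c hc =>
      alive_prob hfix hY d c (qKids_mem_nodes hx (by omega) hc) (by rw [qKids_length hc]; omega)⟩

end

end Vale.Agent.P046.Full
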