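import Mathlib
import Vale.Agent.P046.Full.QStatements

/-!
# P046, exact constant: a given pair of nodes is rarely scanned

The path to a pair of scanned nodes is cut into three chains with disjoint coordinates. Along a chain each
inner link costs the probability that the siblings of the chosen child are dead before its clock.
-/

open Finset MeasureTheory Filter

namespace Vale.Agent.P046.Full

open Vale.Agent.P046

noncomputable section

variable {V : Type*} [DecidableEq V]

/-- The siblings of `c` below `x` are dead before time `t`. -/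
def qpSibs (H : Finset (Finset V)) (A roots : Finset V) (Y : V → Finset V → ℝ → ℝ) (L : ℕ)
    (w : Node V × Bool → ℝ) (x c : Node V) (t : ℝ) : Prop :=
  ∀ c' ∈ (qKids H A roots x).erase c,
    w (c', false) < t → ¬ qAlive H A roots Y w (L - x.length - 1) c' (w (c', false))

/-- A chain of links above `top`. -/
def qpChain (H : Finset (Finset V)) (A roots : Finset V) (Y : V → Finset V → ℝ → ℝ) (L : ℕ)
    (w : Node V × Bool → ℝ) (top : Node V) : Node V → Prop
  | [] => True
  | e :: l => qpChain H A roots Y L w top l ∧ w (e :: (l ++ top), false) < w (l ++ top, false) ∧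
      qpSibs H A roots Y L w (l ++ top) (e :: (l ++ top)) (w (e :: (l ++ top), false))

/-- Coordinates of a chain from `top` to `x`. -/
def qpRange (top x : Node V) (j : Node V × Bool) : Prop := top <:+ j.1 ∧ (x <:+ j.1 → j = (x, false))

/-- Coordinates of the branch `ls` above `v`. -/
def qpBr (v ls : Node V) (j : Node V × Bool) : Prop :=
  ∃ e, ls.getLast? = some e ∧ qpRange (e :: v) (ls ++ v) j

variable {H : Finset (Finset V)} {A roots : Finset V} {Y : V → Finset V → ℝ → ℝ} {L : ℕ}

lemma qp_suffix_eq {x y z : Node V} (h1 : x <:+ z) (h2 : y <:+ z) (h : x.length = y.length) : x = y :=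
  (List.suffix_of_suffix_length_le h1 h2 h.le).eq_of_length h

lemma qp_mem_suffix : ∀ (l : Node V) {x : Node V}, l ++ x ∈ qNodes H A roots L → x ∈ qNodes H A roots L
  | [], _, h => h
  | _ :: l, _, h => qp_mem_suffix l (qTail_mem h).1

lemma qp_node {g : V} {U : Finset V} {x : Node V} (h : (g, U) :: x ∈ qNodes H A roots L) :
    U ∈ H ∧ U ⊆ A ∧ g ∈ U := by
  obtain ⟨-, hc, -⟩ := qTail_mem h
  obtain ⟨g', -, U', hU', -, he⟩ := mem_qKids.1 hc
  obtain ⟨h1, -⟩ := List.cons.injEq .. ▸ he
  obtain ⟨rfl, rfl⟩ := Prod.ext_iff.1 h1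
  exact mem_star.1 hU'

lemma qp_seen {w : Node V × Bool → ℝ} {e : V × Finset V} {l : Node V}
    (h : qSeen H A roots Y L w (e :: l)) : qQueried H A roots Y L w l := by
  obtain ⟨x, -, -, hq, hc⟩ := h
  obtain ⟨g, -, U, -, -, he⟩ := mem_qKids.1 hc
  obtain ⟨-, rfl⟩ := List.cons.injEq .. ▸ he
  exact hq

lemma qp_queried_suffix {w : Node V × Bool → ℝ} :
    ∀ (l : Node V) {x : Node V}, qQueried H A roots Y L w (l ++ x) → qQueried H A roots Y L w x
  | [], _, h => h
  | _ :: l, _, h => qp_queried_suffix l h.1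

lemma qp_queried_chain {w : Node V × Bool → ℝ} {top : Node V} (htop : top ≠ []) :
    ∀ l : Node V, l ++ top ∈ qNodes H A roots L → qQueried H A roots Y L w (l ++ top) →
      qpChain H A roots Y L w top l
  | [], _, _ => trivial
  | e :: l, hn, hq => by
    obtain ⟨hl, -, hlen⟩ := qTail_mem (show e :: (l ++ top) ∈ qNodes H A roots L from hn)
    obtain ⟨h1, h2, h3⟩ := (show qQueried H A roots Y L w (e :: (l ++ top)) from hq)
    have htime : qTime w (l ++ top) = w (l ++ top, false) := by
      cases h : l ++ top with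
      | nil => exact absurd (List.append_eq_nil_iff.1 h).2 htop
      | cons a m => rfl
    refine ⟨qp_queried_chain htop l hl h1, htime ▸ h2, fun c hc hct => ?_⟩
    rw [show L - (l ++ top).length = L - (l ++ top).length - 1 + 1 by omega] at h3
    exact h3 c (Finset.mem_of_mem_erase hc) hct

lemma qp_ext_congr {p : Node V × Bool → Prop} {w w' : QI H A roots L → ℝ}
    (h : ∀ i : QI H A roots L, p i.1 → w i = w' i) (j : Node V × Bool) (hj : p j) :
    qExt w j = qExt w' j := by
  by_cases hm : j ∈ qIdx H A roots L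
  · simp only [qExt, dif_pos hm]; exact h ⟨j, hm⟩ hj
  · simp only [qExt, dif_neg hm]

lemma qp_sibs_congr {w w' : Node V × Bool → ℝ} {x c : Node V} (hc : c.length = x.length + 1)
    (h : ∀ j, x <:+ j.1 → j.1 ≠ x → ¬ c <:+ j.1 → w j = w' j) (t : ℝ) :
    qpSibs H A roots Y L w x c t ↔ qpSibs H A roots Y L w' x c t := by
  unfold qpSibs
  refine forall₂_congr fun c' hc' => ?_
  obtain ⟨hne, hc'⟩ := Finset.mem_erase.1 hc'
  have hlen := qKids_length hc'
  have hxc : x <:+ c' := by
    obtain ⟨g, -, U, -, -, rfl⟩ := mem_qKids.1 hc'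
    exact List.suffix_cons _ _
  have hsub : ∀ y b, c' <:+ y → w (y, b) = w' (y, b) := fun y b hy => by
    refine h (y, b) (hxc.trans hy) (fun e => ?_) fun e => hne ?_
    · have := hy.length_le
      simp only at e
      rw [e] at this
      omega
    · exact (qp_suffix_eq hy e (by omega))
  rw [hsub c' false (List.suffix_refl _)]
  exact imp_congr_right fun _ => not_congr (qAlive_congr _ _ (fun y b hy _ => hsub y b hy) _)

lemma qp_range_step {top : Node V} {e : V × Finset V} {l : Node V} {j : Node V × Bool}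
    (hj : qpRange top (l ++ top) j) : qpRange top (e :: (l ++ top)) j := by
  refine ⟨hj.1, fun hc => ?_⟩
  have hx := hj.2 ((List.suffix_cons _ _).trans hc)
  have := hc.length_le
  rw [hx] at this
  simp at this

lemma qp_chain_congr {w w' : Node V × Bool → ℝ} {top : Node V} : ∀ l : Node V,
    (∀ j, qpRange top (l ++ top) j → w j = w' j) →
      (qpChain H A roots Y L w top l ↔ qpChain H A roots Y L w' top l)
  | [], _ => Iff.rfl
  | e :: l, h => by
    simp only [List.cons_append] at h
    have hc : w (e :: (l ++ top), false) = w' (e :: (l ++ top), false) :=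
      h _ ⟨(List.suffix_append l top).trans (List.suffix_cons _ _), fun _ => rfl⟩
    have hx : w (l ++ top, false) = w' (l ++ top, false) :=
      h _ (qp_range_step ⟨List.suffix_append l top, fun _ => rfl⟩)
    simp only [qpChain, hc, hx]
    refine and_congr (qp_chain_congr l fun j hj => h j (qp_range_step hj)) (and_congr_right fun _ => ?_)
    exact qp_sibs_congr rfl (fun j h1 _ h3 =>
      h j ⟨(List.suffix_append l top).trans h1, fun hc' => absurd hc' h3⟩) _

lemma qp_sibs_measurable (hY : ∀ f T, Continuous (Y f T)) (x c : Node V)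
    {τ : (QI H A roots L → ℝ) → ℝ} (hτ : Measurable τ) :
    MeasurableSet {w : QI H A roots L → ℝ | qpSibs H A roots Y L (qExt w) x c (τ w)} := by
  have e : {w : QI H A roots L → ℝ | qpSibs H A roots Y L (qExt w) x c (τ w)} =
      ⋂ c' ∈ (qKids H A roots x).erase c, ({w | qExt w (c', false) < τ w}ᶜ ∪
        {w | qAlive H A roots Y (qExt w) (L - x.length - 1) c' (qExt w (c', false))}ᶜ) := by
    ext w
    simp only [qpSibs, Set.mem_setOf_eq, Set.mem_iInter, Set.mem_union, Set.mem_compl_iff]
    exact forall₂_congr fun c' _ => imp_iff_not_or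
  rw [e]
  exact MeasurableSet.biInter (Finset.countable_toSet _) fun c' _ =>
    (measurableSet_lt (qExt_measurable _) hτ).compl.union
      (qAlive_measurable_fun hY _ c' (qExt_measurable _)).compl

lemma qp_chain_measurable (hY : ∀ f T, Continuous (Y f T)) (top : Node V) : ∀ l : Node V,
    MeasurableSet {w : QI H A roots L → ℝ | qpChain H A roots Y L (qExt w) top l}
  | [] => by simp [qpChain]
  | e :: l => by
    simp only [qpChain, Set.setOf_and]
    exact (qp_chain_measurable hY top l).inter ((measurableSet_lt (qExt_measurable _) (qExt_measurable _)).inter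
      (qp_sibs_measurable hY _ _ (qExt_measurable _)))

/-- Events looking at disjoint coordinates are independent. -/
lemma qp_inter {E F : Set (QI H A roots L → ℝ)} (hE : MeasurableSet E) (hF : MeasurableSet F)
    (p q : Node V × Bool → Prop)
    (dE : ∀ w w' : QI H A roots L → ℝ, (∀ i : QI H A roots L, p i.1 → w i = w' i) → (w ∈ E ↔ w' ∈ E))
    (dF : ∀ w w' : QI H A roots L → ℝ, (∀ i : QI H A roots L, q i.1 → w i = w' i) → (w ∈ F ↔ w' ∈ F))
    (hd : ∀ j, p j → ¬ q j) :
    (qMeas H A roots L).real (E ∩ F) = (qMeas H A roots L).real E * (qMeas H A roots L).real F := by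
  classical
  have hm : ∀ G : Set (QI H A roots L → ℝ), MeasurableSet G →
      Integrable (G.indicator fun _ => (1 : ℝ)) (Measure.pi fun _ : QI H A roots L => qUnif) := fun G hG =>
    (integrable_const 1).indicator hG
  have e : ∀ G : Set (QI H A roots L → ℝ), MeasurableSet G →
      ∫ w, G.indicator (fun _ => (1 : ℝ)) w ∂(Measure.pi fun _ : QI H A roots L => qUnif) =
        (qMeas H A roots L).real G := fun G hG => by
    rw [integral_indicator hG, setIntegral_const, smul_eq_mul, mul_one]; rfl
  have hEF : ∀ w, E.indicator (fun _ => (1 : ℝ)) w * F.indicator (fun _ => (1 : ℝ)) w =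
      (E ∩ F).indicator (fun _ => (1 : ℝ)) w := fun w => by
    by_cases h1 : w ∈ E <;> by_cases h2 : w ∈ F <;> simp [h1, h2]
  have := q_integral_mul qUnif (F := E.indicator fun _ => (1 : ℝ)) (G := F.indicator fun _ => (1 : ℝ))
    (s := Finset.univ.filter fun i : QI H A roots L => p i.1)
    (t := Finset.univ.filter fun i : QI H A roots L => q i.1)
    (fun w w' h => by
      have := dE w w' fun i hi => h i (by simp [hi])
      simp only [Set.indicator, this])
    (fun w w' h => by
      have := dF w w' fun i hi => h i (by simp [hi])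
      simp only [Set.indicator, this])
    (Finset.disjoint_filter.2 fun i _ hi => hd i.1 hi) (hm E hE)
    ((hm _ (hE.inter hF)).congr (Eventually.of_forall fun w => (hEF w).symm))
  simp only [hEF] at this
  rwa [e _ (hE.inter hF), e E hE, e F hF] at this

/-- Integrate one coordinate last. -/
lemma qp_coord {E : Set (QI H A roots L → ℝ)} (hE : MeasurableSet E) (i : QI H A roots L) :
    (qMeas H A roots L).real E =
      ∫ r, (qMeas H A roots L).real {w | Function.update w i r ∈ E} ∂qUnif := by
  classical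
  have h := q_integral_coord qUnif i (F := E.indicator fun _ => (1 : ℝ)) ((integrable_const 1).indicator hE)
  rw [integral_indicator hE, setIntegral_const, smul_eq_mul, mul_one] at h
  refine h.trans (integral_congr_ae (Eventually.of_forall fun r => ?_))
  have e : (fun w : QI H A roots L → ℝ => E.indicator (fun _ => (1 : ℝ)) (Function.update w i r)) =
      {w : QI H A roots L → ℝ | Function.update w i r ∈ E}.indicator fun _ => (1 : ℝ) := by
    funext w; simp [Set.indicator]
  have hm : MeasurableSet {w : QI H A roots L → ℝ | Function.update w i r ∈ E} :=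
    measurable_update_left hE
  change ∫ w, E.indicator (fun _ => (1 : ℝ)) (Function.update w i r) ∂_ = _
  rw [e, integral_indicator hm, setIntegral_const, smul_eq_mul, mul_one]
  rfl

/-- The constant of one inner link. -/
def qpK (R : ℝ) : ℝ := 3 / 5 / (101 / 50 * R)

lemma qpK_pos {R : ℝ} (hR : 0 < R) : 0 < qpK R := by unfold qpK; positivity

lemma qpK_le_one {R : ℝ} (hR : 1 ≤ R) : qpK R ≤ 1 := by
  unfold qpK; rw [div_le_one (by linarith)]; linarith

lemma qp_ybar_sq {R t : ℝ} (hR : 0 ≤ R) (ht : 0 ≤ t) : ybar R t ^ 2 = 1 / (1 + 2 * R * t) := by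
  have h : (0 : ℝ) ≤ 1 + 2 * R * t := by positivity
  rw [ybar, div_pow, one_pow, Real.sq_sqrt h]

lemma qp_lineInt {R : ℝ} (hQ : QHyp H A R Y) (hR : 250000 ≤ R) {g : V} {U : Finset V} (hU : U ∈ H)
    (hUA : U ⊆ A) (hg : g ∈ U) {t : ℝ} (ht : t ∈ Set.Icc (0 : ℝ) 1) :
    0 ≤ lineInt Y g U t ∧ lineInt Y g U t ≤ 1 / 100 := by
  have hc : Continuous fun s => ∏ h ∈ U.erase g, Y h U s :=
    continuous_finsetProd _ fun h _ => hQ.cont h U
  have h0 : ∀ s ∈ Set.Icc (0 : ℝ) 1, ∀ h, 0 ≤ Y h U s := fun s hs h => (hQ.fix.mem h U s hs).1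
  have hcard : (U.erase g).card = 2 := by rw [Finset.card_erase_of_mem hg, hQ.lin.card3 U hU]
  have hb : ∀ s ∈ Set.Icc (0 : ℝ) t,
      ∏ h ∈ U.erase g, Y h U s ≤ (101 / 100) ^ 2 * (1 / (1 + 2 * R * s)) := fun s hs => by
    have hs1 : s ∈ Set.Icc (0 : ℝ) 1 := ⟨hs.1, hs.2.trans ht.2⟩
    refine (Finset.prod_le_prod (g := fun _ => 101 / 100 * ybar R s) (fun h _ => h0 s hs1 h) fun h hh => ?_).trans
      (le_of_eq ?_)
    · exact hQ.top h (hUA (Finset.mem_of_mem_erase hh)) s hs1 U
        (mem_star.2 ⟨hU, hUA, Finset.mem_of_mem_erase hh⟩)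
    · rw [Finset.prod_const, hcard, mul_pow, qp_ybar_sq (by linarith) hs.1]
  refine ⟨intervalIntegral.integral_nonneg ht.1 fun s hs =>
    Finset.prod_nonneg fun h _ => h0 s ⟨hs.1, hs.2.trans ht.2⟩ h, ?_⟩
  have hne : ∀ s ∈ Set.uIcc (0 : ℝ) t, 1 + 2 * R * s ≠ 0 := fun s hs => by
    rw [Set.uIcc_of_le ht.1] at hs
    nlinarith [mul_nonneg (by linarith : (0 : ℝ) ≤ 2 * R) hs.1]
  have hint : IntervalIntegrable (fun s => (101 / 100 : ℝ) ^ 2 * (1 / (1 + 2 * R * s))) volume 0 t :=
    (continuousOn_const.mul (continuousOn_const.div (by fun_prop) hne)).intervalIntegrable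
  refine (intervalIntegral.integral_mono_on ht.1 (hc.intervalIntegrable 0 t) hint hb).trans ?_
  rw [intervalIntegral.integral_eq_sub_of_hasDerivAt
    (f := fun s => (101 / 100 : ℝ) ^ 2 / (2 * R) * Real.log (1 + 2 * R * s)) (fun s hs => ?_) hint]
  · simp only [mul_zero, add_zero, Real.log_one, sub_zero]
    have hpos : 0 < 1 + 2 * R * t := by nlinarith [mul_nonneg (by linarith : (0 : ℝ) ≤ 2 * R) ht.1]
    have hsq : Real.sqrt (1 + 2 * R * t) ≤ 2 * Real.sqrt R := by
      rw [show 2 * Real.sqrt R = Real.sqrt (4 * R) by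
        rw [Real.sqrt_mul (by norm_num), show (4 : ℝ) = 2 ^ 2 by norm_num, Real.sqrt_sq (by norm_num)]]
      exact Real.sqrt_le_sqrt (by nlinarith [ht.2, ht.1])
    have hlog : Real.log (1 + 2 * R * t) ≤ 2 * Real.sqrt (1 + 2 * R * t) := by
      have h1 := Real.log_le_sub_one_of_pos (Real.sqrt_pos.2 hpos)
      rw [Real.log_sqrt hpos.le] at h1
      linarith
    have hr : 500 ≤ Real.sqrt R := by
      rw [show (500 : ℝ) = Real.sqrt (500 ^ 2) by rw [Real.sqrt_sq (by norm_num)]]
      exact Real.sqrt_le_sqrt (by linarith)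
    have hR2 : Real.sqrt R * Real.sqrt R = R := Real.mul_self_sqrt (by linarith)
    rw [div_mul_eq_mul_div, div_le_iff₀ (by linarith)]
    nlinarith [Real.sqrt_nonneg R]
  · have := ((((hasDerivAt_id s).const_mul (2 * R)).const_add 1).log (hne s hs)).const_mul
      ((101 / 100 : ℝ) ^ 2 / (2 * R))
    refine this.congr_deriv ?_
    have hR0 : (2 * R) ≠ 0 := by linarith
    simp only [mul_one, id]
    field_simp

/-- The product over all children is the value of the node. -/
lemma qp_prod_kids (x : Node V) (t : ℝ) :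
    ∏ c ∈ qKids H A roots x, (1 - qKidI Y c t) = qVal H A roots Y x t := by
  unfold qKids qVal
  rw [Finset.prod_biUnion]
  · refine Finset.prod_congr rfl fun g _ => ?_
    rw [Finset.prod_image fun U _ U' _ h => ?_]
    · rfl
    · simpa using h
  · intro g _ g' _ hne
    rw [Function.onFun, Finset.disjoint_left]
    intro c hc hc'
    obtain ⟨U, -, rfl⟩ := Finset.mem_image.1 hc
    obtain ⟨U', -, h⟩ := Finset.mem_image.1 hc'
    exact hne (by simp only [List.cons.injEq, Prod.mk.injEq] at h; exact h.1.1.symm)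

/-- One inner link: the siblings of a child are dead with probability at most `1.031 / (1 + 2 R t)`. -/
lemma qp_link {R : ℝ} (hQ : QHyp H A R Y) (hR : 250000 ≤ R) {x c : Node V} (hx : x ∈ qNodes H A roots L)
    (hx0 : x ≠ []) (hc : c ∈ qKids H A roots x) {t : ℝ} (ht : t ∈ Set.Icc (0 : ℝ) 1) :
    ∏ c' ∈ (qKids H A roots x).erase c, (1 - qKidI Y c' t) ≤ 1031 / 1000 * (1 / (1 + 2 * R * t)) := by
  have hprod := Finset.mul_prod_erase _ (fun c' => 1 - qKidI Y c' t) hc
  rw [qp_prod_kids] at hprod
  obtain ⟨g, hgp, U, hU, -, rfl⟩ := mem_qKids.1 hc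
  obtain ⟨hU1, hU2, hU3⟩ := mem_star.1 hU
  obtain ⟨hI0, hI⟩ := qp_lineInt hQ hR hU1 hU2 hU3 ht
  obtain ⟨⟨g0, U0⟩, m, rfl⟩ : ∃ a m, x = a :: m := by
    cases x with
    | nil => exact absurd rfl hx0
    | cons a m => exact ⟨a, m, rfl⟩
  obtain ⟨h1, h2, h3⟩ := qp_node hx
  have hval : qVal H A roots Y ((g0, U0) :: m) t ≤ (101 / 100) ^ 2 * (1 / (1 + 2 * R * t)) := by
    have hcard : (U0.erase g0).card = 2 := by rw [Finset.card_erase_of_mem h3, hQ.lin.card3 U0 h1]
    have heq : ∀ h ∈ U0.erase g0, (∏ U ∈ star H A h \ {U0}, (1 - lineInt Y h U t)) = Y h U0 t :=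
      fun h hh => by
        rw [Finset.sdiff_singleton_eq_erase]
        exact (hQ.fix.eqn h (h2 (Finset.mem_of_mem_erase hh)) U0
          (mem_star.2 ⟨h1, h2, Finset.mem_of_mem_erase hh⟩) t ht).symm
    simp only [qVal, qPts, qExcl]
    rw [Finset.prod_congr rfl heq]
    refine (Finset.prod_le_prod (g := fun _ => 101 / 100 * ybar R t) (fun h _ => (hQ.fix.mem h U0 t ht).1)
      fun h hh => ?_).trans (le_of_eq ?_)
    · exact hQ.top h (h2 (Finset.mem_of_mem_erase hh)) t ht U0
        (mem_star.2 ⟨h1, h2, Finset.mem_of_mem_erase hh⟩)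
    · rw [Finset.prod_const, hcard, mul_pow, qp_ybar_sq (by linarith) ht.1]
  have hker : (0 : ℝ) ≤ 1 / (1 + 2 * R * t) := by
    have : 0 ≤ 2 * R * t := mul_nonneg (by linarith) ht.1
    positivity
  simp only [qKidI] at hprod
  set P := ∏ c' ∈ (qKids H A roots ((g0, U0) :: m)).erase ((g, U) :: (g0, U0) :: m), (1 - qKidI Y c' t)
  have hP : (1 - lineInt Y g U t) * P ≤ (101 / 100) ^ 2 * (1 / (1 + 2 * R * t)) := hprod.trans_le hval
  rcases le_or_gt P 0 with hP0 | hP0
  · exact hP0.trans (by positivity)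
  · nlinarith

/-- The weight along a chain. -/
def qpPhi (R s : ℝ) : ℝ := 1 / (1 + 2 * R * s) ^ 2

lemma qp_integral {R s : ℝ} (hR : 0 < R) (hs : s ∈ Set.Icc (0 : ℝ) 1) :
    ∫ r in Set.Icc s 1, qpPhi R r * (1031 / 1000 * (1 / (1 + 2 * R * r))) ≤ qpK R * qpPhi R s := by
  have hne : ∀ r ∈ Set.uIcc s 1, 1 + 2 * R * r ≠ 0 := fun r hr => by
    rw [Set.uIcc_of_le hs.2] at hr
    nlinarith [hs.1, hr.1]
  have hd : ∀ r ∈ Set.uIcc s 1, HasDerivAt (fun r => -(1031 / 1000) / (4 * R) * ((1 + 2 * R * r) ^ 2)⁻¹)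
      (qpPhi R r * (1031 / 1000 * (1 / (1 + 2 * R * r)))) r := fun r hr => by
    have h1 := ((((hasDerivAt_id r).const_mul (2 * R)).const_add 1).fun_pow 2).fun_inv
      (pow_ne_zero 2 (hne r hr))
    refine (h1.const_mul (-(1031 / 1000) / (4 * R))).congr_deriv ?_
    have := hne r hr
    simp only [qpPhi, id, Nat.cast_ofNat, pow_one, mul_one, show (2 : ℕ) - 1 = 1 from rfl]
    generalize 1 + 2 * R * r = u at this ⊢
    field_simp
    ring
  have hi : IntervalIntegrable (fun r => qpPhi R r * (1031 / 1000 * (1 / (1 + 2 * R * r)))) volume s 1 := by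
    refine ContinuousOn.intervalIntegrable ?_
    unfold qpPhi
    exact (continuousOn_const.div (by fun_prop) fun r hr => pow_ne_zero 2 (hne r hr)).mul
      (continuousOn_const.mul (continuousOn_const.div (by fun_prop) hne))
  rw [integral_Icc_eq_integral_Ioc, ← intervalIntegral.integral_of_le hs.2,
    intervalIntegral.integral_eq_sub_of_hasDerivAt hd hi]
  unfold qpPhi qpK
  have h1 : 0 ≤ 1031 / 1000 / (4 * R) * ((1 + 2 * R * 1) ^ 2)⁻¹ := by positivity
  have h2 : 1031 / 1000 / (4 * R) ≤ 3 / 5 / (101 / 50 * R) := by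
    rw [div_le_div_iff₀ (by positivity) (by positivity)]; linarith
  have h3 := mul_le_mul_of_nonneg_right h2 (by positivity : (0 : ℝ) ≤ ((1 + 2 * R * s) ^ 2)⁻¹)
  rw [neg_div, neg_mul, neg_mul, one_div]
  linarith

/-- The chain bound. -/
lemma qp_chain_le (hE : QExpectStmt) {V : Type} [DecidableEq V] {H : Finset (Finset V)} {A roots : Finset V}
    {Y : V → Finset V → ℝ → ℝ} {L : ℕ} {R : ℝ} (hQ : QHyp H A R Y) (hR : 250000 ≤ R) (hroots : roots ⊆ A)
    {top : Node V} (htop : top ≠ []) :
    ∀ l : Node V, l ++ top ∈ qNodes H A roots L → ∀ s ∈ Set.Icc (0 : ℝ) 1,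
      (qMeas H A roots L).real
          {w | qpChain H A roots Y L (qExt w) top l ∧ s ≤ qExt w (l ++ top, false)} ≤
        (1 + 2 * R) ^ 2 * qpK R ^ l.length * qpPhi R s
  | [], _, s, hs => by
    refine measureReal_le_one.trans ?_
    have h0 : 0 < 1 + 2 * R * s := by nlinarith [mul_nonneg (by linarith : (0 : ℝ) ≤ R) hs.1]
    rw [List.length_nil, pow_zero, mul_one, qpPhi, mul_one_div, le_div_iff₀ (by positivity), one_mul]
    exact pow_le_pow_left₀ h0.le (by nlinarith [hs.2]) 2
  | e :: l, hn, s, hs => by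
    have hn' : e :: (l ++ top) ∈ qNodes H A roots L := hn
    obtain ⟨hx, hc, hlen⟩ := qTail_mem hn'
    have hR0 : (0 : ℝ) < R := by linarith
    have hK := qpK_pos hR0
    set x := l ++ top with hxdef
    set c := e :: x with hcdef
    have hclen : c.length = x.length + 1 := rfl
    have hi : (c, false) ∈ qIdx H A roots L := by simp [qIdx, hn']
    set i : QI H A roots L := ⟨(c, false), hi⟩
    set M : ℝ := (1 + 2 * R) ^ 2 * qpK R ^ l.length
    have hM : 0 ≤ M := by positivity
    set E : Set (QI H A roots L → ℝ) :=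
      {w | qpChain H A roots Y L (qExt w) top (e :: l) ∧ s ≤ qExt w ((e :: l) ++ top, false)}
    have hEm : MeasurableSet E :=
      (qp_chain_measurable hQ.cont top (e :: l)).inter (measurableSet_le measurable_const (qExt_measurable _))
    have hstep : ∀ r ∈ Set.Icc (0 : ℝ) 1, (qMeas H A roots L).real {w | Function.update w i r ∈ E} ≤
        (Set.Icc s 1).indicator (fun r => M * (qpPhi R r * (1031 / 1000 * (1 / (1 + 2 * R * r))))) r := by
      intro r hr
      have hupd : ∀ (w : QI H A roots L → ℝ) (j : Node V × Bool), j ≠ (c, false) →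
          qExt (Function.update w i r) j = qExt w j := fun w j hj =>
        qp_ext_congr (p := fun k => k ≠ (c, false))
          (fun k hk => Function.update_of_ne (fun h => hk (congrArg Subtype.val h)) _ _) j hj
      have hcr : ∀ w : QI H A roots L → ℝ, qExt (Function.update w i r) (c, false) = r := fun w => by
        rw [qExt, dif_pos hi]; exact Function.update_self _ _ _
      have hxc : (x, false) ≠ (c, false) := fun h => by
        have := congrArg (fun p : Node V × Bool => p.1.length) h
        simp only [hclen] at this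
        omega
      set B : Set (QI H A roots L → ℝ) :=
        {w | qpChain H A roots Y L (qExt w) top l ∧ r ≤ qExt w (x, false)}
      set S : Set (QI H A roots L → ℝ) :=
        {w | qpSibs H A roots Y L (qExt w) x c r}
      have hsub : {w : QI H A roots L → ℝ | Function.update w i r ∈ E} ⊆ {w | s ≤ r} ∩ (B ∩ S) := by
        intro w hw
        obtain ⟨⟨h1, h2, h3⟩, h4⟩ := hw
        simp only [List.cons_append, ← hxdef, ← hcdef, hcr, hupd w (x, false) hxc] at h2 h3 h4
        refine ⟨h4, ⟨(qp_chain_congr l fun j hj => hupd w j ?_).1 h1, h2.le⟩, ?_⟩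
        · intro h
          have hj2 := hj.2
          rw [h] at hj2
          exact hxc (hj2 (List.suffix_cons _ _)).symm
        · exact (qp_sibs_congr hclen (fun j _ _ h => hupd w j fun e => h (by rw [e])) r).1 h3
      by_cases hsr : s ≤ r
      · rw [Set.indicator_of_mem (show r ∈ Set.Icc s 1 from ⟨hsr, hr.2⟩)]
        have hBm : MeasurableSet B :=
          (qp_chain_measurable hQ.cont top l).inter (measurableSet_le measurable_const (qExt_measurable _))
        have hSm : MeasurableSet S := qp_sibs_measurable hQ.cont x c measurable_const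
        have hBS := qp_inter hBm hSm (qpRange top x) (fun j => x <:+ j.1 ∧ j.1 ≠ x ∧ ¬ c <:+ j.1)
          (fun w w' h => and_congr (qp_chain_congr l (qp_ext_congr h))
            (by rw [qp_ext_congr h (x, false) ⟨List.suffix_append l top, fun _ => rfl⟩]))
          (fun w w' h => qp_sibs_congr hclen (fun j a b d =>
            qp_ext_congr (p := fun j => x <:+ j.1 ∧ j.1 ≠ x ∧ ¬ c <:+ j.1) h j ⟨a, b, d⟩) r)
          (fun j hj hj' => hj'.2.1 (by rw [hj.2 hj'.1]))
        have hS : (qMeas H A roots L).real S = ∏ c' ∈ (qKids H A roots x).erase c, (1 - qKidI Y c' r) :=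
          (hE V H A Y hQ.lin hQ.fix hQ.cont roots hroots L x hx r hr (L - x.length - 1)).2 (by omega) _
            (Finset.erase_subset _ _)
        calc (qMeas H A roots L).real {w | Function.update w i r ∈ E}
            ≤ (qMeas H A roots L).real (B ∩ S) := measureReal_mono (hsub.trans Set.inter_subset_right)
          _ = (qMeas H A roots L).real B * (qMeas H A roots L).real S := hBS
          _ ≤ (M * qpPhi R r) * (1031 / 1000 * (1 / (1 + 2 * R * r))) := by
            refine mul_le_mul (qp_chain_le hE hQ hR hroots htop l hx r hr) ?_ measureReal_nonneg ?_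
            · rw [hS]
              exact qp_link hQ hR hx (by simp [hxdef, htop]) hc hr
            · unfold qpPhi; positivity
          _ = _ := by ring
      · rw [Set.indicator_of_notMem (fun h => hsr h.1)]
        refine le_of_eq ?_
        have : {w : QI H A roots L → ℝ | Function.update w i r ∈ E} = ∅ :=
          Set.eq_empty_of_forall_notMem fun w hw => hsr (hsub hw).1
        simp [this]
    have hae : ∀ᵐ r ∂qUnif, r ∈ Set.Icc (0 : ℝ) 1 := ae_restrict_mem measurableSet_Icc
    have hne : ∀ r ∈ Set.Icc (0 : ℝ) 1, 1 + 2 * R * r ≠ 0 := fun r hr => by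
      nlinarith [mul_nonneg hR0.le hr.1]
    have hg : IntegrableOn (fun r => M * (qpPhi R r * (1031 / 1000 * (1 / (1 + 2 * R * r)))))
        (Set.Icc 0 1) volume := by
      refine ContinuousOn.integrableOn_compact isCompact_Icc (continuousOn_const.mul ?_)
      unfold qpPhi
      exact (continuousOn_const.div (by fun_prop) fun r hr => pow_ne_zero 2 (hne r hr)).mul
        (continuousOn_const.mul (continuousOn_const.div (by fun_prop) hne))
    rw [show (qMeas H A roots L).real E = ∫ r, (qMeas H A roots L).real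
      {w | Function.update w i r ∈ E} ∂qUnif from qp_coord hEm i]
    refine (integral_mono_of_nonneg (Eventually.of_forall fun r => measureReal_nonneg)
      (hg.integrable.indicator measurableSet_Icc) (hae.mono hstep)).trans ?_
    rw [integral_indicator measurableSet_Icc]
    change ∫ r in Set.Icc s 1, _ ∂((volume : Measure ℝ).restrict (Set.Icc 0 1)) ≤ _
    rw [Measure.restrict_restrict measurableSet_Icc,
      Set.inter_eq_left.2 (Set.Icc_subset_Icc_left hs.1), integral_const_mul]
    refine (mul_le_mul_of_nonneg_left (qp_integral hR0 hs) hM).trans (le_of_eq ?_)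
    simp only [M, List.length_cons, pow_succ]
    ring

/-- A branch: an event containing the query of its last node, on its own coordinates, of small probability. -/
lemma qp_branch (hE : QExpectStmt) {V : Type} [DecidableEq V] {H : Finset (Finset V)} {A roots : Finset V}
    {Y : V → Finset V → ℝ → ℝ} {L : ℕ} {R : ℝ} (hQ : QHyp H A R Y) (hR : 250000 ≤ R) (hroots : roots ⊆ A)
    (v ls : Node V) (hn : ls ++ v ∈ qNodes H A roots L) :
    ∃ E : Set (QI H A roots L → ℝ), MeasurableSet E ∧
      (∀ w, qQueried H A roots Y L (qExt w) (ls ++ v) → w ∈ E) ∧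
      (∀ w w' : QI H A roots L → ℝ, (∀ i : QI H A roots L, qpBr v ls i.1 → w i = w' i) →
        (w ∈ E ↔ w' ∈ E)) ∧
      (qMeas H A roots L).real E ≤ (1 + 2 * R) ^ 2 * qpK R ^ (ls.length - 1) := by
  have hR0 : (0 : ℝ) < R := by linarith
  rcases List.eq_nil_or_concat' ls with rfl | ⟨l, e, rfl⟩
  · refine ⟨Set.univ, MeasurableSet.univ, fun _ _ => trivial, fun _ _ _ => Iff.rfl,
      measureReal_le_one.trans ?_⟩
    rw [List.length_nil, Nat.zero_sub, pow_zero, mul_one]
    exact one_le_pow₀ (by linarith)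
  · have hl : (l ++ [e]) ++ v = l ++ (e :: v) := by simp
    refine ⟨{w | qpChain H A roots Y L (qExt w) (e :: v) l}, qp_chain_measurable hQ.cont _ l,
      fun w h => qp_queried_chain (List.cons_ne_nil _ _) l (hl ▸ hn) (hl ▸ h), fun w w' h => ?_, ?_⟩
    · refine qp_chain_congr l fun j hj => qp_ext_congr h j ⟨e, by simp, ?_⟩
      rw [hl]; exact hj
    · have h0 : (qMeas H A roots L).real {w | qExt w (l ++ e :: v, false) < 0} = 0 := by
        have hi : (l ++ e :: v, false) ∈ qIdx H A roots L :=
          Finset.mem_product.2 ⟨hl ▸ hn, Finset.mem_univ _⟩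
        have := (measurePreserving_eval (fun _ : QI H A roots L => qUnif) ⟨_, hi⟩).measure_preimage
          (s := Set.Iio (0 : ℝ)) measurableSet_Iio.nullMeasurableSet
        have hz : qUnif (Set.Iio (0 : ℝ)) = 0 := by
          rw [qUnif, Measure.restrict_apply measurableSet_Iio,
            show Set.Iio (0 : ℝ) ∩ Set.Icc 0 1 = ∅ from
              Set.eq_empty_of_forall_notMem fun r hr => not_lt.2 hr.2.1 hr.1, measure_empty]
        rw [hz] at this
        have he : {w : QI H A roots L → ℝ | qExt w (l ++ e :: v, false) < 0} =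
            Function.eval ⟨(l ++ e :: v, false), hi⟩ ⁻¹' Set.Iio (0 : ℝ) := by
          ext w; simp only [qExt, dif_pos hi]; rfl
        rw [measureReal_def, he, qMeas, this, ENNReal.toReal_zero]
      have hsub : {w : QI H A roots L → ℝ | qpChain H A roots Y L (qExt w) (e :: v) l} ⊆
          {w | qpChain H A roots Y L (qExt w) (e :: v) l ∧ 0 ≤ qExt w (l ++ e :: v, false)} ∪
            {w | qExt w (l ++ e :: v, false) < 0} := fun w hw =>
        (le_or_gt 0 _).imp (fun h => ⟨hw, h⟩) id
      refine ((measureReal_mono hsub).trans (measureReal_union_le _ _)).trans ?_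
      rw [h0, add_zero]
      refine (qp_chain_le hE hQ hR hroots (List.cons_ne_nil _ _) l (hl ▸ hn) 0 ⟨le_rfl, zero_le_one⟩).trans ?_
      simp [qpPhi]

lemma qp_getLast_tail {ls : Node V} {e : V × Finset V} (h : ls.tail.getLast? = some e) :
    ls.getLast? = some e := by
  cases ls with
  | nil => simp at h
  | cons a l => simp [List.getLast?_cons, show l.getLast? = some e from h]

lemma qp_pow_sub {κ : ℝ} (h0 : 0 < κ) (h1 : κ ≤ 1) (m n : ℕ) : κ ^ (n - m) ≤ κ ^ n / κ ^ m := by
  rw [le_div_iff₀ (pow_pos h0 m), ← pow_add]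
  exact pow_le_pow_of_le_one h0.le h1 (by omega)

/-- Seen nodes have a queried parent. -/
lemma qp_seen_parent {w : Node V × Bool → ℝ} {ls v : Node V} (hls : ls ≠ [])
    (h : qSeen H A roots Y L w (ls ++ v)) : qQueried H A roots Y L w (ls.tail ++ v) := by
  cases ls with
  | nil => exact absurd rfl hls
  | cons a l => exact qp_seen (e := a) h

theorem q_prob : QExpectStmt → QProbStmt := by
  intro hE
  refine ⟨10 ^ 6, fun V _ H A R Y hR hQ roots hroots L a b b' p hp => ?_⟩
  have hR4 : 250000 ≤ R := le_trans (by norm_num) hR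
  have hR0 : (0 : ℝ) < R := by linarith
  obtain ⟨hmem, v, ls, ls', rfl, hv, hb, hb', hne', -, hlast, -, -⟩ := by
    simpa only [qPairs, Finset.mem_filter, Finset.mem_product] using hp
  obtain ⟨hn1, hn2⟩ := hmem
  have hnv : v ∈ qNodes H A roots L := qp_mem_suffix ls' hn2
  have hn1' : ls.tail ++ v ∈ qNodes H A roots L := by
    cases ls with
    | nil => exact hn1
    | cons c l => exact qp_mem_suffix [c] (x := l ++ v) hn1
  have hn2' : ls'.tail ++ v ∈ qNodes H A roots L := by
    cases ls' with
    | nil => exact hn2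
    | cons c l => exact qp_mem_suffix [c] (x := l ++ v) hn2
  obtain ⟨E0, m0, q0, d0, b0⟩ := qp_branch hE hQ hR4 hroots [] v (by simpa using hnv)
  obtain ⟨E1, m1, q1, d1, b1⟩ := qp_branch hE hQ hR4 hroots v ls.tail hn1'
  obtain ⟨E2, m2, q2, d2, b2⟩ := qp_branch hE hQ hR4 hroots v ls'.tail hn2'
  simp only [List.append_nil, hv, List.length_tail, hb, hb'] at q0 b0 b1 b2
  have hsub : {w : QI H A roots L → ℝ | qSeen H A roots Y L (qExt w) (ls ++ v) ∧
      qSeen H A roots Y L (qExt w) (ls' ++ v)} ⊆ E0 ∩ (E1 ∩ E2) := by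
    rintro w ⟨h1, h2⟩
    have h2' := qp_seen_parent hne' h2
    have hq := qp_queried_suffix _ h2'
    refine ⟨q0 w hq, q1 w ?_, q2 w h2'⟩
    rcases eq_or_ne ls [] with rfl | hls
    · exact hq
    · exact qp_seen_parent hls h1
  have hdis : ∀ (t t' : Node V) (j : Node V × Bool), t.getLast? ≠ t'.getLast? →
      qpBr v t j → ¬ qpBr v t' j := by
    rintro t t' j ht ⟨e, he, h1, -⟩ ⟨e', he', h2, -⟩
    have := qp_suffix_eq h1 h2 rfl
    simp only [List.cons.injEq, and_true] at this
    exact ht (by rw [he, he', this])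
  have hdis0 : ∀ (t : Node V) (j : Node V × Bool), qpBr [] v j → ¬ qpBr v t j := by
    rintro t j ⟨e, -, -, h2⟩ ⟨e', -, h1, -⟩
    have h3 := h2 (by simpa using (List.suffix_cons e' v).trans h1)
    rw [h3] at h1
    have := h1.length_le
    simp at this
  have h12 : (qMeas H A roots L).real (E1 ∩ E2) = (qMeas H A roots L).real E1 * (qMeas H A roots L).real E2 := by
    refine qp_inter m1 m2 _ _ d1 d2 fun j hj hj' => ?_
    obtain ⟨e, he, -⟩ := id hj
    obtain ⟨e', he', -⟩ := id hj'
    refine hdis _ _ j ?_ hj hj'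
    rw [he, he', ← qp_getLast_tail he, ← qp_getLast_tail he']
    exact hlast
  have h012 : (qMeas H A roots L).real (E0 ∩ (E1 ∩ E2)) =
      (qMeas H A roots L).real E0 * (qMeas H A roots L).real (E1 ∩ E2) := by
    refine qp_inter m0 (m1.inter m2) _ (fun j => qpBr v ls.tail j ∨ qpBr v ls'.tail j) d0
      (fun w w' h => and_congr (d1 w w' fun i hi => h i (Or.inl hi)) (d2 w w' fun i hi => h i (Or.inr hi)))
      fun j hj hj' => hj'.elim (hdis0 _ j hj) (hdis0 _ j hj)
  refine (measureReal_mono hsub).trans ?_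
  rw [h012, h12]
  set κ := qpK R
  have hκ : 0 < κ := qpK_pos hR0
  have hκ1 : κ ≤ 1 := qpK_le_one (by linarith)
  have hB : (0 : ℝ) ≤ (1 + 2 * R) ^ 2 := sq_nonneg _
  calc (qMeas H A roots L).real E0 * ((qMeas H A roots L).real E1 * (qMeas H A roots L).real E2)
      ≤ ((1 + 2 * R) ^ 2 * (κ ^ a / κ ^ 1)) *
          (((1 + 2 * R) ^ 2 * (κ ^ b / κ ^ 2)) * ((1 + 2 * R) ^ 2 * (κ ^ b' / κ ^ 2))) := by
        refine mul_le_mul (b0.trans (mul_le_mul_of_nonneg_left (qp_pow_sub hκ hκ1 1 a) hB))
          (mul_le_mul (b1.trans ?_) (b2.trans ?_) measureReal_nonneg (by positivity))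
          (by positivity) (by positivity)
        · rw [show b - 1 - 1 = b - 2 by omega]
          exact mul_le_mul_of_nonneg_left (qp_pow_sub hκ hκ1 2 b) hB
        · rw [show b' - 1 - 1 = b' - 2 by omega]
          exact mul_le_mul_of_nonneg_left (qp_pow_sub hκ hκ1 2 b') hB
    _ = (1 + 2 * R) ^ 6 / κ ^ 5 * κ ^ (a + b + b') := by
        field_simp
        ring
    _ ≤ R ^ 12 * κ ^ (a + b + b') := by
        refine mul_le_mul_of_nonneg_right ?_ (pow_nonneg hκ.le _)
        rw [div_le_iff₀ (pow_pos hκ 5)]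
        have h3 : (1 + 2 * R) ^ 6 ≤ (3 * R) ^ 6 := pow_le_pow_left₀ (by linarith) (by linarith) 6
        have h4 : R ^ 12 * κ ^ 5 = R ^ 7 * (3 / 5 / (101 / 50)) ^ 5 := by
          simp only [κ, qpK]
          field_simp
        rw [h4, mul_pow] at *
        nlinarith [mul_le_mul_of_nonneg_right hR (pow_nonneg hR0.le 6)]
    _ = R ^ 12 * (3 / 5 / (101 / 50 * R)) ^ (a + b + b') := rfl

end

end Vale.Agent.P046.Full
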