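import Vale.Agent.P046.Full.QStatements

/-!
# P046, exact constant: pairs below two roots
-/

open Finset

namespace Vale.Agent.P046.Full

open Vale.Agent.P046

noncomputable section

variable {V : Type*} [DecidableEq V] {H : Finset (Finset V)} {A roots : Finset V}

/-- A node below roots starts at one of them, and it is a node below that root alone. -/
lemma qs_lvl_root : ∀ {d : ℕ} {x : Node V}, x ∈ qLvl H A roots (d + 1) →
    ∃ g ∈ roots, x ∈ qLvl H A {g} (d + 1) ∧ x.getLast?.map Prod.fst = some g := by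
  intro d
  induction d with
  | zero =>
    intro x hx
    simp only [qLvl, Finset.singleton_biUnion, mem_qKids] at hx
    obtain ⟨g, hg, U, hU, hne, rfl⟩ := hx
    refine ⟨g, hg, ?_, rfl⟩
    simp only [qLvl, Finset.singleton_biUnion, mem_qKids]
    exact ⟨g, Finset.mem_singleton_self g, U, hU, hne, rfl⟩
  | succ d ih =>
    intro x hx
    rw [qLvl, Finset.mem_biUnion] at hx
    obtain ⟨z, hz, hxz⟩ := hx
    obtain ⟨g, hg, hzg, hlast⟩ := ih hz
    obtain ⟨h, hh, U, hU, hne, rfl⟩ := mem_qKids.1 hxz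
    have hlen := qLvl_length hz
    obtain ⟨e, z', rfl⟩ : ∃ e z', z = e :: z' := by
      cases z with
      | nil => simp at hlen
      | cons e z' => exact ⟨e, z', rfl⟩
    refine ⟨g, hg, ?_, by simpa [List.getLast?_cons_cons] using hlast⟩
    rw [qLvl, Finset.mem_biUnion]
    exact ⟨e :: z', hzg, mem_qKids.2 ⟨h, hh, U, hU, hne, rfl⟩⟩

lemma qs_node_root {L : ℕ} {x : Node V} (hx : x ∈ qNodes H A roots L) (hne : x ≠ []) :
    ∃ g ∈ roots, x ∈ qNodes H A {g} L ∧ x ∈ qLvl H A {g} x.length ∧
      x.getLast?.map Prod.fst = some g := by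
  obtain ⟨hl, hx⟩ := mem_qNodes.1 hx
  obtain ⟨d, hd⟩ : ∃ d, x.length = d + 1 :=
    ⟨x.length - 1, by have := List.length_pos_of_ne_nil hne; omega⟩
  rw [hd] at hx
  obtain ⟨g, hg, hxg, hlast⟩ := qs_lvl_root hx
  rw [← hd] at hxg
  exact ⟨g, hg, mem_qNodes.2 ⟨hl, hxg⟩, hxg, hlast⟩

/-- Pairs below two roots lie below one root or cross. -/
theorem q_split : QSplitStmt := by
  classical
  intro V _ H A _ f f' L a b b' _ _ _ p hp
  simp only [qPairs, Finset.mem_filter, Finset.mem_product] at hp
  obtain ⟨⟨h1, h2⟩, v, ls, ls', rfl, hv, hls, hls', hne', hne, hlast, hline, hnd⟩ := hp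
  obtain ⟨g, hg, hn, hl, hgl⟩ := qs_node_root h1 hne
  obtain ⟨g', hg', hn', hl', hgl'⟩ := qs_node_root h2 (fun h => hne' (List.append_eq_nil_iff.1 h).1)
  simp only [Finset.mem_insert, Finset.mem_singleton] at hg hg'
  have hmem : ∀ r, g = r → g' = r → (ls ++ v, ls' ++ v) ∈ qPairs H A {r} L a b b' := by
    rintro r rfl rfl
    simp only [qPairs, Finset.mem_filter, Finset.mem_product]
    exact ⟨⟨hn, hn'⟩, v, ls, ls', rfl, hv, hls, hls', hne', hne, hlast, hline, hnd⟩
  have hone : g = g' → (ls ++ v, ls' ++ v) ∈ qPairs H A {f} L a b b' ∪ qPairs H A {f'} L a b b' := by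
    intro e
    rcases hg with rfl | rfl
    · exact Finset.mem_union_left _ (hmem g rfl e.symm)
    · exact Finset.mem_union_right _ (hmem g rfl e.symm)
  by_cases he : g = g'
  · exact Finset.mem_union_left _ (hone he)
  have ha : a = 0 := by
    by_contra ha
    have hv0 : v ≠ [] := fun h => ha (by rw [← hv, h]; rfl)
    obtain ⟨z, hz⟩ := Option.isSome_iff_exists.1 (List.getLast?_isSome.2 hv0)
    rw [List.getLast?_append, hz] at hgl hgl'
    simp at hgl hgl'
    exact he (hgl.symm.trans hgl')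
  obtain rfl : v = [] := List.eq_nil_of_length_eq_zero (hv.trans ha)
  refine Finset.mem_union_right _ ?_
  rw [if_pos ha]
  simp only [List.append_nil, hls, hls'] at hl hl' hline ⊢
  refine Finset.mem_filter.2 ⟨?_, hline⟩
  rcases hg with rfl | rfl
  · rcases hg' with rfl | rfl
    · exact absurd rfl he
    · exact Finset.mem_union_left _ (Finset.mem_product.2 ⟨hl, hl'⟩)
  · rcases hg' with rfl | rfl
    · exact Finset.mem_union_right _ (Finset.mem_product.2 ⟨hl, hl'⟩)
    · exact absurd rfl he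

/-- The line of a nonempty node is live. -/
lemma qs_head {d : ℕ} {x : Node V} (hx : x ∈ qLvl H A roots (d + 1)) :
    ∃ g U z, x = (g, U) :: z ∧ U ∈ star H A g ∧ z ∈ qLvl H A roots d ∧ g ∈ qPts roots z := by
  rw [qLvl, Finset.mem_biUnion] at hx
  obtain ⟨z, hz, hxz⟩ := hx
  obtain ⟨g, hg, U, hU, -, rfl⟩ := mem_qKids.1 hxz
  exact ⟨g, U, z, rfl, hU, hz, hg⟩

variable {R : ℝ}

lemma qs_lvl_card (hH : Linear H) (hR : 1 ≤ R) (hdeg : ∀ f ∈ A, deg H A f ≤ 101 / 100 * R)
    {f : V} (hf : f ∈ A) : ∀ d : ℕ, ((qLvl H A {f} d).card : ℝ) ≤ (101 / 50 * R) ^ d := by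
  intro d
  induction d with
  | zero => simp [qLvl]
  | succ d ih =>
    have hD : 0 ≤ 101 / 50 * R := by positivity
    have hk : ∀ z ∈ qLvl H A {f} d, ((qKids H A {f} z).card : ℝ) ≤ 101 / 50 * R := by
      intro z hz
      have hpts : (∀ g ∈ qPts {f} z, g ∈ A) ∧ (qPts {f} z).card ≤ 2 := by
        cases d with
        | zero =>
          obtain rfl : z = [] := Finset.mem_singleton.1 hz
          exact ⟨fun g hg => by simp [qPts] at hg; exact hg ▸ hf, by simp [qPts]⟩
        | succ d =>
          obtain ⟨g, U, z', rfl, hU, -, -⟩ := qs_head hz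
          obtain ⟨hUH, hUA, hgU⟩ := mem_star.1 hU
          refine ⟨fun x hx => hUA (Finset.mem_of_mem_erase hx), ?_⟩
          simp [qPts, Finset.card_erase_of_mem hgU, hH.card3 U hUH]
      refine (Nat.cast_le.2 Finset.card_biUnion_le).trans ?_
      push_cast
      refine (Finset.sum_le_card_nsmul _ _ (101 / 100 * R) fun g hg => ?_).trans ?_
      · refine le_trans ?_ (hdeg g (hpts.1 g hg))
        unfold deg
        exact_mod_cast Finset.card_image_le.trans (Finset.card_le_card Finset.sdiff_subset)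
      · rw [nsmul_eq_mul]
        have : ((qPts {f} z).card : ℝ) ≤ 2 := by exact_mod_cast hpts.2
        nlinarith
    rw [qLvl, pow_succ]
    refine (Nat.cast_le.2 Finset.card_biUnion_le).trans ?_
    push_cast
    refine (Finset.sum_le_card_nsmul _ _ _ hk).trans ?_
    rw [nsmul_eq_mul]
    exact mul_le_mul_of_nonneg_right ih hD

/-- Nodes of one depth over all roots with a given first step. -/
lemma qs_head_count (hH : Linear H) (hR : 1 ≤ R) (hdeg : ∀ f ∈ A, deg H A f ≤ 101 / 100 * R) :
    ∀ (d : ℕ) (g : V) (U : Finset V),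
      ∑ f ∈ A, (((qLvl H A {f} (d + 1)).filter fun y => y.head? = some (g, U)).card : ℝ) ≤
        (101 / 50 * R) ^ d := by
  classical
  intro d
  induction d with
  | zero =>
    intro g U
    have hsub : ∀ f, ((qLvl H A {f} 1).filter fun y => y.head? = some (g, U)) ⊆
        if f = g then {[(g, U)]} else ∅ := by
      intro f y hy
      obtain ⟨hy, hh⟩ := Finset.mem_filter.1 hy
      obtain ⟨g', U', z, rfl, -, hz, hg'⟩ := qs_head hy
      obtain rfl : z = [] := Finset.mem_singleton.1 hz
      simp only [List.head?_cons, Option.some.injEq, Prod.mk.injEq] at hh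
      obtain ⟨rfl, rfl⟩ := hh
      obtain rfl : g' = f := Finset.mem_singleton.1 hg'
      simp
    refine (Finset.sum_le_sum fun f _ => Nat.cast_le.2 (Finset.card_le_card (hsub f))).trans ?_
    have : ∀ f, (((if f = g then {[(g, U)]} else ∅ : Finset (Node V))).card : ℝ) =
        if f = g then (1 : ℝ) else 0 := fun f => by split_ifs <;> simp
    simp only [this, Finset.sum_ite_eq', pow_zero]
    split_ifs <;> simp
  | succ d ih =>
    intro g U
    have hD : 0 ≤ 101 / 50 * R := by positivity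
    by_cases hgA : g ∈ A
    swap
    · refine (le_of_eq (Finset.sum_eq_zero fun f _ => ?_)).trans (pow_nonneg hD _)
      rw [Nat.cast_eq_zero, Finset.card_eq_zero, Finset.filter_eq_empty_iff]
      intro y hy hh
      obtain ⟨g', U', z, rfl, hU', -, -⟩ := qs_head hy
      simp only [List.head?_cons, Option.some.injEq, Prod.mk.injEq] at hh
      exact hgA (hh.1 ▸ (mem_star.1 hU').2.1 (mem_star.1 hU').2.2)
    set E := (star H A g).biUnion fun W => (W.erase g).image fun x => (x, W)
    have hE : (E.card : ℝ) ≤ 101 / 50 * R := by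
      refine (Nat.cast_le.2 Finset.card_biUnion_le).trans ?_
      push_cast
      refine (Finset.sum_le_card_nsmul _ _ (2 : ℝ) fun W hW => ?_).trans ?_
      · refine (Nat.cast_le.2 Finset.card_image_le).trans ?_
        rw [Finset.card_erase_of_mem (mem_star.1 hW).2.2, hH.card3 W (mem_star.1 hW).1]
        norm_num
      · rw [nsmul_eq_mul]
        have := hdeg g hgA
        unfold deg at this
        linarith
    have hsub : ∀ f, ((qLvl H A {f} (d + 1 + 1)).filter fun y => y.head? = some (g, U)) ⊆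
        E.biUnion fun e => ((qLvl H A {f} (d + 1)).filter fun z => z.head? = some e).image
          fun z => (g, U) :: z := by
      intro f y hy
      obtain ⟨hy, hh⟩ := Finset.mem_filter.1 hy
      obtain ⟨g', U', z, rfl, -, hz, hg'⟩ := qs_head hy
      simp only [List.head?_cons, Option.some.injEq, Prod.mk.injEq] at hh
      obtain ⟨rfl, rfl⟩ := hh
      obtain ⟨x, W, z', rfl, hW, -, -⟩ := qs_head hz
      obtain ⟨hWH, hWA, hxW⟩ := mem_star.1 hW
      simp only [qPts, Finset.mem_erase] at hg'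
      refine Finset.mem_biUnion.2 ⟨(x, W), ?_, Finset.mem_image.2
        ⟨(x, W) :: z', Finset.mem_filter.2 ⟨hz, rfl⟩, rfl⟩⟩
      exact Finset.mem_biUnion.2 ⟨W, mem_star.2 ⟨hWH, hWA, hg'.2⟩,
        Finset.mem_image.2 ⟨x, Finset.mem_erase.2 ⟨fun h => hg'.1 h.symm, hxW⟩, rfl⟩⟩
    calc ∑ f ∈ A, (((qLvl H A {f} (d + 1 + 1)).filter fun y => y.head? = some (g, U)).card : ℝ)
        ≤ ∑ f ∈ A, ∑ e ∈ E,
          (((qLvl H A {f} (d + 1)).filter fun z => z.head? = some e).card : ℝ) := by
          refine Finset.sum_le_sum fun f _ => ?_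
          exact_mod_cast (Finset.card_le_card (hsub f)).trans (Finset.card_biUnion_le.trans
            (Finset.sum_le_sum fun e _ => Finset.card_image_le))
      _ = ∑ e ∈ E, ∑ f ∈ A,
          (((qLvl H A {f} (d + 1)).filter fun z => z.head? = some e).card : ℝ) := Finset.sum_comm
      _ ≤ E.card • (101 / 50 * R) ^ d :=
          Finset.sum_le_card_nsmul _ _ _ fun e _ => ih e.1 e.2
      _ ≤ _ := by
          rw [nsmul_eq_mul, pow_succ']
          exact mul_le_mul_of_nonneg_right hE (pow_nonneg hD _)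

/-- Nodes of one depth over all roots with a given line. -/
lemma qs_line_count (hH : Linear H) (hR : 1 ≤ R) (hdeg : ∀ f ∈ A, deg H A f ≤ 101 / 100 * R)
    (n : ℕ) (U : Finset V) (hn : n ≠ 0 ∨ U ≠ ∅) :
    ∑ f ∈ A, (((qLvl H A {f} n).filter fun y => qLine y = U).card : ℝ) ≤
      3 * (101 / 50 * R) ^ n := by
  classical
  have hD : 1 ≤ 101 / 50 * R := by linarith
  cases n with
  | zero =>
    refine (le_of_eq (Finset.sum_eq_zero fun f _ => ?_)).trans (by norm_num)
    rw [Nat.cast_eq_zero, Finset.card_eq_zero, Finset.filter_eq_empty_iff]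
    intro y hy h
    obtain rfl : y = [] := Finset.mem_singleton.1 hy
    rcases hn with hn | hn
    · exact hn rfl
    · exact hn h.symm
  | succ d =>
    by_cases hU : U ∈ H
    swap
    · refine (le_of_eq (Finset.sum_eq_zero fun f _ => ?_)).trans (by positivity)
      rw [Nat.cast_eq_zero, Finset.card_eq_zero, Finset.filter_eq_empty_iff]
      intro y hy h
      obtain ⟨g, U', z, rfl, hU', -, -⟩ := qs_head hy
      simp only [qLine] at h
      exact hU (h ▸ (mem_star.1 hU').1)
    have hsub : ∀ f, ((qLvl H A {f} (d + 1)).filter fun y => qLine y = U) ⊆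
        U.biUnion fun g => (qLvl H A {f} (d + 1)).filter fun y => y.head? = some (g, U) := by
      intro f y hyf
      obtain ⟨hy, h⟩ := Finset.mem_filter.1 hyf
      obtain ⟨g, U', z, rfl, hU', -, -⟩ := qs_head hy
      simp only [qLine] at h
      subst h
      exact Finset.mem_biUnion.2 ⟨g, (mem_star.1 hU').2.2, Finset.mem_filter.2 ⟨hy, rfl⟩⟩
    calc ∑ f ∈ A, (((qLvl H A {f} (d + 1)).filter fun y => qLine y = U).card : ℝ)
        ≤ ∑ f ∈ A, ∑ g ∈ U,
          (((qLvl H A {f} (d + 1)).filter fun y => y.head? = some (g, U)).card : ℝ) := by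
          refine Finset.sum_le_sum fun f _ => ?_
          exact_mod_cast (Finset.card_le_card (hsub f)).trans Finset.card_biUnion_le
      _ = ∑ g ∈ U, ∑ f ∈ A,
          (((qLvl H A {f} (d + 1)).filter fun y => y.head? = some (g, U)).card : ℝ) := Finset.sum_comm
      _ ≤ U.card • (101 / 50 * R) ^ d :=
          Finset.sum_le_card_nsmul _ _ _ fun g _ => qs_head_count hH hR hdeg d g U
      _ ≤ _ := by
          rw [nsmul_eq_mul, hH.card3 U hU, Nat.cast_ofNat]
          exact mul_le_mul_of_nonneg_left (pow_le_pow_right₀ hD (Nat.le_succ d)) (by norm_num)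

/-- Crossing pairs are few. -/
lemma qs_cross_bound (hH : Linear H) (hR : 1 ≤ R) (hdeg : ∀ f ∈ A, deg H A f ≤ 101 / 100 * R)
    {f : V} (hf : f ∈ A) {b b' : ℕ} (hb' : 1 ≤ b') :
    ∑ f' ∈ A, ((qCross H A f f' b b').card : ℝ) ≤ 6 * (101 / 50 * R) ^ (b + b') := by
  classical
  set D := 101 / 50 * R
  have hD : 0 ≤ D := by positivity
  have h1 : ∀ f' : V, (qCross H A f f' b b').card ≤
      ∑ x ∈ qLvl H A {f} b, ((qLvl H A {f'} b').filter fun y => qLine y = qLine x).card +
      ∑ y ∈ qLvl H A {f} b', ((qLvl H A {f'} b).filter fun x => qLine x = qLine y).card := by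
    intro f'
    simp only [qCross, Finset.filter_union]
    refine (Finset.card_union_le _ _).trans (add_le_add (le_of_eq ?_) (le_of_eq ?_))
    · simp only [Finset.card_filter, Finset.sum_product]
      exact Finset.sum_congr rfl fun x _ => Finset.sum_congr rfl fun y _ => by simp [eq_comm]
    · simp only [Finset.card_filter, Finset.sum_product]
      exact Finset.sum_comm
  refine (Finset.sum_le_sum fun f' _ => Nat.cast_le.2 (h1 f')).trans ?_
  push_cast
  rw [Finset.sum_add_distrib, Finset.sum_comm, Finset.sum_comm (t := qLvl H A {f} b')]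
  have h2 := Finset.sum_le_card_nsmul (qLvl H A {f} b)
    (fun x => ∑ f' ∈ A, (((qLvl H A {f'} b').filter fun y => qLine y = qLine x).card : ℝ))
    (3 * D ^ b') fun x _ => qs_line_count hH hR hdeg b' _ (Or.inl (by omega))
  have h3 := Finset.sum_le_card_nsmul (qLvl H A {f} b')
    (fun y => ∑ f' ∈ A, (((qLvl H A {f'} b).filter fun x => qLine x = qLine y).card : ℝ))
    (3 * D ^ b) fun y hy => qs_line_count hH hR hdeg b _ (Or.inr (by
      obtain ⟨d, rfl⟩ : ∃ d, b' = d + 1 := ⟨b' - 1, by omega⟩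
      obtain ⟨g, U, z, rfl, hU, -, -⟩ := qs_head hy
      exact Finset.ne_empty_of_mem (mem_star.1 hU).2.2))
  rw [nsmul_eq_mul] at h2 h3
  have h4 := mul_le_mul_of_nonneg_right (qs_lvl_card hH hR hdeg hf b)
    (by positivity : (0 : ℝ) ≤ 3 * D ^ b')
  have h5 := mul_le_mul_of_nonneg_right (qs_lvl_card hH hR hdeg hf b')
    (by positivity : (0 : ℝ) ≤ 3 * D ^ b)
  rw [pow_add]
  linarith

/-- Crossing pairs are few. -/
theorem q_cross : QCrossStmt := fun _ _ _ _ _ hH hR hdeg _ hf _ _ hb' =>
  qs_cross_bound hH hR hdeg hf hb'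

end

end Vale.Agent.P046.Full
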