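import Mathlib
import Vale.Agent.P046.Full.QStatements
import Vale.Agent.P046.Full.Equiv

/-!
# P046, exact constant: shared clocks give the greedy process
-/

open Finset MeasureTheory

namespace Vale.Agent.P046.Full

open Vale.Agent.P046

noncomputable section

variable {V : Type*} [DecidableEq V]

/-- deep enough, the exploration decides whether the points of a node are alive -/
lemma qTruth_alive {H : Finset (Finset V)} {A roots : Finset V} {Y : V → Finset V → ℝ → ℝ} {L : ℕ}
    (u : Node V × Bool → ℝ) (v : Finset V → ℝ)
    (hu : ∀ c ∈ qNodes H A roots L, u (c, false) = v (qLine c)) :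
    ∀ (d : ℕ) (x : Node V), x ∈ qNodes H A roots L → x.length + d = L → ∀ t : ℝ,
      ((alive H A).filter fun U => v U < t).card < d → (∀ U ∈ qExcl x, t ≤ v U) →
      (qAlive H A roots Y u d x t ↔
        ∀ g ∈ qPts roots x, ∀ U ∈ star H A g, v U < t → ¬ Fired H A v U) := by
  intro d
  induction d with
  | zero => intro x _ _ t h; exact absurd h (Nat.not_lt_zero _)
  | succ d ih =>
    intro x hx hd t hcount hexcl
    have hkid : ∀ g ∈ qPts roots x, ∀ U ∈ star H A g, U ∉ qExcl x → v U < t →
        u ((g, U) :: x, false) = v U ∧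
        (qAlive H A roots Y u d ((g, U) :: x) (v U) ↔
          ∀ g' ∈ U.erase g, ∀ W ∈ star H A g', v W < v U → ¬ Fired H A v W) := by
      intro g hg U hU hne hlt
      have hc := qKids_mem_nodes hx (by omega) (mem_qKids.2 ⟨g, hg, U, hU, hne, rfl⟩)
      have hUa : U ∈ alive H A := star_sub A g hU
      have hr : ((alive H A).filter fun W => v W < v U).card < d := by
        refine lt_of_lt_of_le (Finset.card_lt_card ?_) (Nat.le_of_lt_succ hcount)
        refine (Finset.ssubset_iff_of_subset fun W hW => ?_).2
          ⟨U, Finset.mem_filter.2 ⟨hUa, hlt⟩, by simp⟩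
        rw [Finset.mem_filter] at hW ⊢
        exact ⟨hW.1, hW.2.trans hlt⟩
      refine ⟨hu _ hc, ih _ hc (by simp only [List.length_cons]; omega) (v U) hr fun W hW => ?_⟩
      simp only [qExcl, Finset.mem_singleton] at hW
      rw [hW]
    constructor
    · intro h g hg U hU hlt hfired
      by_cases hne : U ∈ qExcl x
      · exact absurd hlt (not_lt.2 (hexcl U hne))
      obtain ⟨he, hiff⟩ := hkid g hg U hU hne hlt
      have := h ((g, U) :: x) (mem_qKids.2 ⟨g, hg, U, hU, hne, rfl⟩) (by rw [he]; exact hlt)
      rw [he, hiff] at this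
      refine this fun g' hg' W hW hWlt => ?_
      refine (fired_iff U).1 hfired W (star_sub A g' hW) hWlt fun hd' => ?_
      exact Finset.disjoint_left.1 hd' (mem_star.1 hW).2.2 (Finset.mem_of_mem_erase hg')
    · intro h c hc hlt hal
      obtain ⟨g, hg, U, hU, hne, rfl⟩ := mem_qKids.1 hc
      have hclk : u ((g, U) :: x, false) = v U := hu _ (qKids_mem_nodes hx (by omega) hc)
      rw [hclk] at hlt hal
      rw [(hkid g hg U hU hne hlt).2] at hal
      refine h g hg U hU hlt ((fired_iff U).2 fun W hW hWlt hWd => ?_)
      obtain ⟨g', hg'W, hg'U⟩ := Finset.not_disjoint_iff.1 hWd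
      have hWs : W ∈ star H A g' := mem_star.2 ⟨(mem_alive.1 hW).1, (mem_alive.1 hW).2, hg'W⟩
      by_cases hgg : g' = g
      · exact h g hg W (hgg ▸ hWs) (hWlt.trans hlt)
      · exact hal g' (Finset.mem_erase.2 ⟨hgg, hg'U⟩) W hWs hWlt

/-- Shared clocks give the greedy process. -/
theorem q_truth : QTruthStmt := by
  intro V _ _ H A Y _ _ roots hroots L hL
  classical
  set P : Measure (Finset V × Bool → ℝ) := Measure.pi fun _ => qUnif
  have hE : MeasurableSet {v : Finset V → ℝ | roots ⊆ survivors H A v} := by
    have e : {v : Finset V → ℝ | roots ⊆ survivors H A v}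
        = ⋂ g ∈ roots, ⋂ T ∈ star H A g, {v | Fired H A v T}ᶜ := by
      ext v
      simp only [Set.mem_setOf_eq, Set.mem_iInter, Set.mem_compl_iff]
      constructor
      · intro h g hg T hT
        have := h hg
        simp only [survivors, Finset.mem_filter] at this
        exact this.2 T hT
      · intro h g hg
        simp only [survivors, Finset.mem_filter]
        exact ⟨hroots hg, h g hg⟩
    rw [e]
    exact Finset.measurableSet_biInter _ fun g _ => Finset.measurableSet_biInter _ fun T _ =>
      (measurableSet_firedFuel H A _ T).compl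
  have hlt1 : ∀ᵐ w ∂P, ∀ U : Finset V, w (U, false) < 1 := by
    refine Filter.eventually_all.2 fun U => ?_
    have h1 : ∀ᵐ s ∂qUnif, s < 1 := by
      filter_upwards [ae_restrict_mem measurableSet_Icc,
        ae_restrict_of_ae (volume.ae_ne (1 : ℝ))] with s hs hs1
      exact lt_of_le_of_ne hs.2 hs1
    exact (Measure.tendsto_eval_ae_ae (μ := fun _ : Finset V × Bool => qUnif) (i := (U, false))).eventually h1
  have hae : ∀ᵐ w ∂P,
      (w ∈ (fun (w : Finset V × Bool → ℝ) (i : QI H A roots L) => w (qProj i)) ⁻¹'
          {w | qAlive H A roots Y (qExt w) L [] 1}) ↔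
        w ∈ (fun (w : Finset V × Bool → ℝ) (U : Finset V) => w (U, false)) ⁻¹'
          {v | roots ⊆ survivors H A v} := by
    filter_upwards [hlt1] with w hw
    simp only [Set.mem_preimage, Set.mem_setOf_eq]
    rw [qTruth_alive _ (fun U => w (U, false)) (fun c hc => by rw [qExt_mem false hc]; rfl) L []
      qNil_mem (by simp) 1 ((Finset.card_filter_le _ _).trans_lt hL)
      (fun U hU => absurd hU (by simp [qExcl]))]
    constructor
    · intro h g hg
      simp only [survivors, Finset.mem_filter]
      exact ⟨hroots hg, fun T hT => h g hg T hT (hw T)⟩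
    · intro h g hg T hT _
      have := h hg
      simp only [survivors, Finset.mem_filter] at this
      exact this.2 T hT
  simp only [measureReal_def]
  congr 1
  rw [measure_congr (Filter.eventuallyEq_set.2 hae)]
  exact q_inj_eq (μ := qUnif) (proj := fun U : Finset V => (U, false)) (S := Finset.univ)
    (hinj := fun a _ b _ h => congrArg Prod.fst h) (hE := hE)
    (hdep := fun v v' h => by rw [show v = v' from funext fun U => h U (Finset.mem_univ U)])

end

end Vale.Agent.P046.Full
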