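import Mathlib
import Vale.Agent.P046.Full.QAssembly
import Vale.Agent.P046.Full.QExpect
import Vale.Agent.P046.Full.QTruth
import Vale.Agent.P046.Full.QCollide
import Vale.Agent.P046.Full.QSplit
import Vale.Agent.P046.Full.QCount
import Vale.Agent.P046.Full.QProb
import Vale.Agent.P046.Full.Walks

/-!
# P046, exact constant: the tree comparison
-/

namespace Vale.Agent.P046.Full

/-- Survivors of the greedy process are counted by the unfolded tree. -/
theorem query_stmt : QueryStmt :=
  query_of q_expect q_truth q_collide q_split q_cross (q_count walk_stmt once_stmt) (q_prob q_expect)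

end Vale.Agent.P046.Full
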